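import Claimed.Open.R001.SanityDivisor

/-!
# Result 001: the `ℓ`-adic class of a divisor is biadditive and alternating, in every dimension

`Statement` feeds the functions `c i : Λ → Λ → ℤ_ℓ` accepted by `IsEllChern` into the cup product formula `lefschetzWedge`, which is
meant for alternating bilinear forms; but `IsEllChern` does not ask `c` to be bilinear or alternating.  This file proves
that it is, for EVERY abelian scheme over `𝒪_w` of EVERY relative dimension, every period datum and every divisor
(universally quantified; no example of positive dimension is constructed).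

* `isCommMonObj_special`, `isCommMonObj_generic` : the fibres of an abelian scheme are commutative (Mathlib's
  `isCommMonObj_of_isProper_of_geometricallyIntegral`; `AbelianScheme` does not ask for commutativity);
* `translation_comp_mulBy`, `translation_comm` : `n ∘ t_w = t_{w^n} ∘ n`, translations commute;
* **`IsWeilValue.mul_right`** : `e_n^D(x, y y') = e_n^D(x, y) e_n^D(x, y')` if `y = w^n` (with `g_{yy'} = g_y · t_w^* g_{y'}`);
* **`IsWeilValue.self_eq_one`** : `e_n^D(x, x) = 1` if `x^n = 1`, `x = w^n` (the product of the translates of `g` by the multiples of `w` is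
  constant: Silverman, *The arithmetic of elliptic curves*, III.8.1);
* `red_one`, `red_pow`, `tors_mul_pow` : reduction and powers, `exp_A(l/(ab))^b = exp_A(l/a)`;
* **`IsEllChern.add_right`**, **`IsEllChern.self`**, `IsEllChern.antisymm` : a function `c` accepted by `IsEllChern P ℓ D` (`ℓ ≠ p`) satisfies
  `c l (m + m') = c l m + c l m'`, `c l l = 0`, `c l m = - c m l` (with `IsEllChern.add_left` of `SanityReduction.lean`: `c` is an
  alternating biadditive form).  The divisions by `ℓ^n` which the two lemmas on the pairing need are supplied by the clause of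
  `IsEllChern` at the level `2n`.
-/

open CategoryTheory AlgebraicGeometry MonoidalCategory CartesianMonoidalCategory MonObj

namespace Claimed.Open.R001

noncomputable section

/-! ### Commutative group schemes -/

section Comm

variable {k : Type} [Field k] (X : Over (Spec (CommRingCat.of k))) [GrpObj X]

theorem constMap_pow (w : Pts X k) (n : ℕ) : constMap X (w ^ n) = constMap X w ^ n := by
  unfold constMap
  rw [MonObj.comp_pow]

variable [IsCommMonObj X]

/-- `n ∘ t_w = t_{w^n} ∘ n` on a commutative group scheme. -/
theorem translation_comp_mulBy (w : Pts X k) (n : ℕ) :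
    translation X w ≫ mulBy X n = mulBy X n ≫ translation X (w ^ n) := by
  unfold translation mulBy
  rw [MonObj.comp_pow, Category.comp_id, MonObj.comp_mul, Category.comp_id, comp_constMap,
    constMap_pow, mul_pow]

theorem translation_comm (x w : Pts X k) :
    translation X x ≫ translation X w = translation X w ≫ translation X x := by
  rw [translation_comp, translation_comp, mul_comm]

variable [IsIntegral X.left]

omit [GrpObj X] [IsCommMonObj X] in
theorem fnPullback_comm_sq {f g f' g' : X ⟶ X} (h : f ≫ g = f' ≫ g')
    (hf : f.left (genericPoint X.left) ⤳ genericPoint X.left)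
    (hg : g.left (genericPoint X.left) ⤳ genericPoint X.left)
    (hf' : f'.left (genericPoint X.left) ⤳ genericPoint X.left)
    (hg' : g'.left (genericPoint X.left) ⤳ genericPoint X.left) (s : X.left.functionField) :
    fnPullback f.left (fnPullback g.left s) = fnPullback f'.left (fnPullback g'.left s) := by
  rw [← fnPullback_comp _ _ hf hg, ← fnPullback_comp _ _ hf' hg', ← Over.comp_left,
    ← Over.comp_left, h]

omit [IsCommMonObj X] in
theorem translation_dominant (a : Pts X k) :
    (translation X a).left (genericPoint X.left) ⤳ genericPoint X.left := by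
  rw [translation_genericPoint]

omit [IsCommMonObj X] in
/-- If some value of the pairing `e_n^D` is defined, `n_X` is dominant. -/
theorem IsWeilValue.mulBy_dominant {D : CartierDivisor X.left} {n : ℕ} {x y : Pts X k} {c : k}
    (h : IsWeilValue X D n x y c) :
    (mulBy X n).left (genericPoint X.left) ⤳ genericPoint X.left := by
  obtain ⟨g, -, hu, -⟩ := h
  by_contra hn
  have h1 := (hu (genericPoint X.left)).ne_zero
  unfold fnPullback at h1
  rw [dif_neg hn, div_zero] at h1
  exact h1 rfl

/-- **The Weil pairing is multiplicative in its second argument**: `e_n^D(x, y y') = e_n^D(x, y) e_n^D(x, y')`,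
on a commutative group scheme, if `y` is divisible by `n`. -/
theorem IsWeilValue.mul_right {D : CartierDivisor X.left} {n : ℕ} {x y y' w : Pts X k} {c c' : k}
    (hw : w ^ n = y) (h : IsWeilValue X D n x y c) (h' : IsWeilValue X D n x y' c') :
    IsWeilValue X D n x (y * y') (c * c') := by
  have hn := h.mulBy_dominant X
  obtain ⟨g, hg, hu, ht⟩ := h
  obtain ⟨g', hg', hu', ht'⟩ := h'
  have dx := translation_dominant X x
  have dy := translation_dominant X y
  have dy' := translation_dominant X y'
  have dyy := translation_dominant X (y * y')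
  have dw := translation_dominant X w
  have H1 : ∀ s, fnPullback (translation X w).left (fnPullback (mulBy X n).left s) =
      fnPullback (mulBy X n).left (fnPullback (translation X y).left s) := fun s =>
    fnPullback_comm_sq X (by rw [translation_comp_mulBy, hw]) dw hn hn dy s
  have H2 : ∀ s, fnPullback (translation X y).left (fnPullback (translation X y').left s) =
      fnPullback (translation X (y * y')).left s := fun s => by
    rw [← fnPullback_comp _ _ dy dy', ← Over.comp_left, translation_comp]
  have H3 : ∀ s, fnPullback (translation X x).left (fnPullback (translation X w).left s) =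
      fnPullback (translation X w).left (fnPullback (translation X x).left s) := fun s =>
    fnPullback_comm_sq X (translation_comm X x w) dx dw dw dx s
  refine ⟨g * fnPullback (translation X w).left g', ?_, fun z => ?_, ?_⟩
  · rw [fnPullback_eq _ dw]
    exact mul_ne_zero hg ((map_ne_zero _).2 hg')
  · have u1 := hu z
    have u2 := (hu' ((translation X w).left z)).fnPullback _ dw
    have hp : (mulBy X n).left ((translation X w).left z) =
        (translation X y).left ((mulBy X n).left z) := by
      rw [← Scheme.Hom.comp_apply, ← Scheme.Hom.comp_apply, ← Over.comp_left, ← Over.comp_left,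
        translation_comp_mulBy, hw]
    have hp2 : (translation X y').left ((translation X y).left ((mulBy X n).left z)) =
        (translation X (y * y')).left ((mulBy X n).left z) := by
      rw [← Scheme.Hom.comp_apply, ← Over.comp_left, translation_comp]
    rw [hp, hp2] at u2
    have u3 := u1.mul u2
    convert u3 using 1
    have a0 := D.ne_zero ((translation X y).left ((mulBy X n).left z))
    have b0 := D.ne_zero ((mulBy X n).left z)
    have c0 := D.ne_zero ((translation X (y * y')).left ((mulBy X n).left z))
    generalize D.eq ((translation X y).left ((mulBy X n).left z)) = a at *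
    generalize D.eq ((mulBy X n).left z) = b at *
    generalize D.eq ((translation X (y * y')).left ((mulBy X n).left z)) = e at *
    have E1 : fnPullback (translation X w).left
        (g' / fnPullback (mulBy X n).left (fnPullback (translation X y').left e / a)) =
        fnPullback (translation X w).left g' / fnPullback (mulBy X n).left
          (fnPullback (translation X (y * y')).left e / fnPullback (translation X y).left a) := by
      rw [fnPullback_eq _ dw, map_div₀, ← fnPullback_eq _ dw, ← fnPullback_eq _ dw, H1,
        fnPullback_eq _ dy, map_div₀, ← fnPullback_eq _ dy, ← fnPullback_eq _ dy, H2]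
    rw [E1]
    simp only [fnPullback_eq _ hn, map_div₀]
    have A0 := (map_ne_zero (fnPullbackHom _ hn)).2
      ((fnPullback_eq _ dy a) ▸ (map_ne_zero (fnPullbackHom _ dy)).2 a0)
    have B0 := (map_ne_zero (fnPullbackHom _ hn)).2 b0
    have C0 := (map_ne_zero (fnPullbackHom _ hn)).2
      ((fnPullback_eq _ dyy e) ▸ (map_ne_zero (fnPullbackHom _ dyy)).2 c0)
    field_simp
  · rw [fnPullback_mul _ dx, H3, ht, ht', fnPullback_mul _ dw, fnPullback_constFn X _ dw,
      constFn_eq, constFn_eq, constFn_eq, map_mul]
    ring

omit [IsCommMonObj X] in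
theorem fnPullback_translation_translation (a b : Pts X k) (s : X.left.functionField) :
    fnPullback (translation X a).left (fnPullback (translation X b).left s) =
      fnPullback (translation X (a * b)).left s := by
  rw [← fnPullback_comp _ _ (translation_dominant X a) (translation_dominant X b),
    ← Over.comp_left, translation_comp]

omit [IsCommMonObj X] [IsIntegral X.left] in
theorem translation_translation_apply (a b : Pts X k) (z : X.left) :
    (translation X b).left ((translation X a).left z) = (translation X (a * b)).left z := by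
  rw [← Scheme.Hom.comp_apply, ← Over.comp_left, translation_comp]

omit [IsIntegral X.left] in
theorem mulBy_translation_apply (a : Pts X k) (n : ℕ) (z : X.left) :
    (mulBy X n).left ((translation X a).left z) =
      (translation X (a ^ n)).left ((mulBy X n).left z) := by
  rw [← Scheme.Hom.comp_apply, ← Scheme.Hom.comp_apply, ← Over.comp_left, ← Over.comp_left,
    translation_comp_mulBy]

/-- **The Weil pairing is alternating**: `e_n^D(x, x) = 1` for `x` of order dividing `n` which is
divisible by `n` (the product of the translates of `g` by the multiples of `w`, `w^n = x`, has no zeros and no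
poles, so it is constant: Silverman, *The arithmetic of elliptic curves*, III.8.1). -/
theorem IsWeilValue.self_eq_one [UniversallyClosed X.hom] {D : CartierDivisor X.left} {n : ℕ}
    {x w : Pts X k} {c : k} (hx : x ^ n = 1) (hw : w ^ n = x) (h : IsWeilValue X D n x x c) :
    c = 1 := by
  have hn := h.mulBy_dominant X
  obtain ⟨g, hg, hu, ht⟩ := h
  have dt := translation_dominant X
  let f : ℕ → X.left.functionField := fun i => fnPullback (translation X (w ^ i)).left g
  let G : ℕ → X.left → X.left.functionField := fun i z =>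
    fnPullback (mulBy X n).left (fnPullback (translation X (x ^ i)).left
      (D.eq ((translation X (x ^ i)).left ((mulBy X n).left z))))
  have hf0 : ∀ i, f i ≠ 0 := fun i => by
    change fnPullback _ g ≠ 0
    rw [fnPullback_eq _ (dt _)]
    exact (map_ne_zero _).2 hg
  have hG0 : ∀ i z, G i z ≠ 0 := fun i z => by
    change fnPullback _ (fnPullback _ _) ≠ 0
    rw [fnPullback_eq _ hn, fnPullback_eq _ (dt _)]
    exact (map_ne_zero _).2 ((map_ne_zero _).2 (D.ne_zero _))
  have hstep : ∀ N z, UnitAt z (f N / (G (N + 1) z / G N z)) := fun N z => by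
    have u2 := (hu ((translation X (w ^ N)).left z)).fnPullback _ (dt (w ^ N))
    have e1 : (w ^ N) ^ n = x ^ N := by rw [← pow_mul, mul_comm, pow_mul, hw]
    rw [mulBy_translation_apply, e1, translation_translation_apply, ← pow_succ] at u2
    convert u2 using 1
    rw [fnPullback_eq _ (dt (w ^ N)), map_div₀, ← fnPullback_eq _ (dt (w ^ N)),
      ← fnPullback_eq _ (dt (w ^ N)),
      fnPullback_comm_sq X (translation_comp_mulBy X (w ^ N) n) (dt _) hn hn (dt _), e1,
      fnPullback_eq _ (dt (x ^ N)), map_div₀, ← fnPullback_eq _ (dt (x ^ N)),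
      ← fnPullback_eq _ (dt (x ^ N)), fnPullback_translation_translation, ← pow_succ,
      fnPullback_eq _ hn, map_div₀, ← fnPullback_eq _ hn, ← fnPullback_eq _ hn]
  have hprod : ∀ N z, UnitAt z ((∏ i ∈ Finset.range N, f i) / (G N z / G 0 z)) := fun N z => by
    induction N with
    | zero =>
      rw [Finset.prod_range_zero, div_self (hG0 0 z), div_one]
      exact unitAt_one z
    | succ N ih =>
      have := ih.mul (hstep N z)
      convert this using 1
      rw [Finset.prod_range_succ]
      have h1 := hG0 N z
      have h2 := hG0 0 z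
      have h3 := hG0 (N + 1) z
      field_simp
  have hGn : ∀ z, G n z = G 0 z := fun z => by
    change fnPullback _ (fnPullback (translation X (x ^ n)).left (D.eq ((translation X (x ^ n)).left _))) =
      fnPullback _ (fnPullback (translation X (x ^ 0)).left (D.eq ((translation X (x ^ 0)).left _)))
    rw [hx, pow_zero]
  obtain ⟨a, ha⟩ := exists_const_of_unitAt X 1 (g := 1) (g' := ∏ i ∈ Finset.range n, f i)
    one_ne_zero (fun z => by
      have := hprod n z
      rwa [hGn, div_self (hG0 0 z)] at this)
  rw [_root_.mul_one] at ha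
  have hshift : ∏ i ∈ Finset.range n, f (i + 1) = ∏ i ∈ Finset.range n, f i := by
    have h1 : fnPullback (translation X w).left (∏ i ∈ Finset.range n, f i) =
        ∏ i ∈ Finset.range n, f (i + 1) := by
      rw [fnPullback_eq _ (dt w), map_prod]
      refine Finset.prod_congr rfl fun i _ => ?_
      rw [← fnPullback_eq _ (dt w)]
      change fnPullback _ (fnPullback _ g) = fnPullback _ g
      rw [fnPullback_translation_translation, ← pow_succ']
    rw [← h1, ha, fnPullback_constFn X _ (dt w)]
  have h2 : f n = f 0 := by
    have h3 := Finset.prod_range_succ f n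
    rw [Finset.prod_range_succ', hshift] at h3
    exact (mul_left_cancel₀ (Finset.prod_ne_zero_iff.2 fun i _ => hf0 i) h3).symm
  have h4 : fnPullback (translation X x).left g = g := by
    change fnPullback (translation X (w ^ n)).left g = fnPullback (translation X (w ^ 0)).left g at h2
    rw [hw, pow_zero, translation_one, Over.id_left, fnPullback_id] at h2
    exact h2
  rw [h4] at ht
  have h5 : constFn X c = 1 := by
    have : (constFn X c - 1) * g = 0 := by rw [sub_mul, ← ht, _root_.one_mul, sub_self]
    rcases mul_eq_zero.1 this with h | h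
    · exact sub_eq_zero.1 h
    · exact absurd h hg
  exact constFn_injective X (h5.trans (constFn_one X).symm)

end Comm

/-! ### The fibres of an abelian scheme are commutative -/

section Fibres

variable {p : ℕ} [Fact p.Prime] {K : Type} [Field K] [Algebra K ℂ_[p]] {d : ℕ}
  (𝒜 : AbelianScheme p K d)

theorem isCommMonObj_special : IsCommMonObj 𝒜.special := by
  have := isProper_special 𝒜
  have : GeometricallyIntegral 𝒜.special.hom :=
    inferInstanceAs (GeometricallyIntegral (Limits.pullback.snd _ _))
  exact isCommMonObj_of_isProper_of_geometricallyIntegral 𝒜.special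

theorem isCommMonObj_generic : IsCommMonObj 𝒜.generic := by
  have := isProper_generic 𝒜
  have : GeometricallyIntegral 𝒜.generic.hom :=
    inferInstanceAs (GeometricallyIntegral (Limits.pullback.snd _ _))
  exact isCommMonObj_of_isProper_of_geometricallyIntegral 𝒜.generic

end Fibres

/-! ### The `ℓ`-adic class -/

theorem zmod_eq_add_of_pow_eq {F : Type} [Field F] {ζ : F} {N : ℕ} [NeZero N]
    (hprim : IsPrimitiveRoot ζ N) {a a' a'' : ZMod N} (h : ζ ^ a''.val = ζ ^ (a.val + a'.val)) :
    a'' = a + a' := by
  have hpos : 0 < N := Nat.pos_of_ne_zero (NeZero.ne N)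
  have hmod : ∀ j : ℕ, ζ ^ (j % N) = ζ ^ j := fun j => by
    conv_rhs => rw [← Nat.div_add_mod j N, pow_add, pow_mul, hprim.pow_eq_one, one_pow,
      _root_.one_mul]
  have h2 := hprim.pow_inj (ZMod.val_lt _) (Nat.mod_lt _ hpos) (h.trans (hmod _).symm)
  have h3 := congrArg (Nat.cast : ℕ → ZMod N) h2
  rwa [ZMod.natCast_mod, Nat.cast_add, ZMod.natCast_zmod_val, ZMod.natCast_zmod_val,
    ZMod.natCast_zmod_val] at h3

section Abelian

variable {p : ℕ} [Fact p.Prime] {K : Type} [Field K] [Algebra K ℂ_[p]] [Algebra K ℂ] {d : ℕ}
  {𝒜 : AbelianScheme p K d}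

omit [Algebra K ℂ] in
theorem red_one : 𝒜.red 1 = 1 := by
  have h := red_mul 𝒜 1 1
  rw [_root_.mul_one] at h
  exact left_eq_mul.1 h

omit [Algebra K ℂ] in
theorem red_pow (x : Pts 𝒜.X (Ow p K)) (N : ℕ) : 𝒜.red (x ^ N) = 𝒜.red x ^ N := by
  induction N with
  | zero => rw [pow_zero, pow_zero, red_one]
  | succ N ih => rw [pow_succ, pow_succ, red_mul, ih]

variable (P : PeriodDatum 𝒜)

/-- `exp_A(l/(ab))^b = exp_A(l/a)`. -/
theorem tors_mul_pow (l : P.Λ) (a : ℕ) {b : ℕ} (hb : 0 < b) :
    P.tors l (a * b) ^ b = P.tors l a := by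
  unfold PeriodDatum.tors
  have hb' : (b : ℂ) ≠ 0 := by exact_mod_cast hb.ne'
  have h1 : b • (((a * b : ℕ) : ℂ)⁻¹ • l.1) = (a : ℂ)⁻¹ • l.1 := by
    rw [← Nat.cast_smul_eq_nsmul ℂ, smul_smul]
    congr 1
    push_cast
    rw [mul_inv]
    field_simp
  rw [← MonObj.pow_comp, ← toMul_nsmul, ← map_nsmul, h1]

variable {P}

/-- **The `ℓ`-adic class of a divisor is additive in its second argument**, for every abelian scheme of
every dimension. -/
theorem IsEllChern.add_right {ℓ : ℕ} [Fact ℓ.Prime] (hℓ : ℓ ≠ p)
    {D : CartierDivisor 𝒜.special.left} {c : P.Λ → P.Λ → ℤ_[ℓ]} (h : IsEllChern P ℓ D c)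
    (l m m' : P.Λ) : c l (m + m') = c l m + c l m' := by
  rw [← PadicInt.ext_of_toZModPow]
  intro n
  obtain ⟨x, y, ζ, hx, hy, hζ, hW⟩ := h n l m
  obtain ⟨x', y', ζ', hx', hy', hζ', hW'⟩ := h n l m'
  obtain ⟨x'', y'', ζ'', hx'', hy'', hζ'', hW''⟩ := h n l (m + m')
  obtain ⟨-, y₂, -, -, hy₂, -, -⟩ := h (n + n) l m
  obtain rfl : x = x' := gen_injective 𝒜 (generic_map_injective 𝒜 (hx.trans hx'.symm))
  obtain rfl : x = x'' := gen_injective 𝒜 (generic_map_injective 𝒜 (hx.trans hx''.symm))
  have hinj : Function.Injective (algebraMap (Ow p K) ℂ) :=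
    (algebraMap K ℂ).injective.comp Subtype.val_injective
  obtain rfl : ζ = ζ' := hinj (hζ.trans hζ'.symm)
  obtain rfl : ζ = ζ'' := hinj (hζ.trans hζ''.symm)
  obtain rfl : y'' = y * y' := by
    apply gen_injective 𝒜
    apply generic_map_injective 𝒜
    rw [hy'', tors_add, gen_mul, Pts.map_mul, hy, hy']
  have hpos : 0 < ℓ ^ n := pow_pos (Fact.out : ℓ.Prime).pos n
  have hy₂' : y₂ ^ (ℓ ^ n) = y := by
    apply gen_injective 𝒜
    apply generic_map_injective 𝒜
    have h1 : (𝒜.gen y₂ ^ (ℓ ^ n)).map ℂ = (𝒜.gen y₂).map ℂ ^ (ℓ ^ n) := MonObj.comp_pow _ _ _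
    rw [gen_pow, h1, hy₂, pow_add, tors_mul_pow P m _ hpos, hy]
  have := isProper_special 𝒜
  have := isCommMonObj_special 𝒜
  have h0 := IsWeilValue.mul_right 𝒜.special (w := 𝒜.red y₂) (by rw [← red_pow, hy₂']) hW hW'
  rw [← red_mul, ← pow_add] at h0
  have h1 := IsWeilValue.unique _ hW'' h0
  have hcop : (ℓ ^ n).Coprime p :=
    Nat.Coprime.pow_left n ((Nat.coprime_primes Fact.out Fact.out).2 hℓ)
  have : NeZero (ℓ ^ n) := ⟨hpos.ne'⟩
  rw [zmod_eq_add_of_pow_eq (isPrimitiveRoot_reduction hcop hpos hζ) h1, map_add]

/-- **The `ℓ`-adic class of a divisor is alternating**, for every abelian scheme of every dimension. -/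
theorem IsEllChern.self {ℓ : ℕ} [Fact ℓ.Prime] (hℓ : ℓ ≠ p)
    {D : CartierDivisor 𝒜.special.left} {c : P.Λ → P.Λ → ℤ_[ℓ]} (h : IsEllChern P ℓ D c)
    (l : P.Λ) : c l l = 0 := by
  rw [← PadicInt.ext_of_toZModPow]
  intro n
  obtain ⟨x, y, ζ, hx, hy, hζ, hW⟩ := h n l l
  obtain ⟨-, y₂, -, -, hy₂, -, -⟩ := h (n + n) l l
  obtain rfl : x = y := gen_injective 𝒜 (generic_map_injective 𝒜 (hx.trans hy.symm))
  have hpos : 0 < ℓ ^ n := pow_pos (Fact.out : ℓ.Prime).pos n
  have hy₂' : y₂ ^ (ℓ ^ n) = x := by
    apply gen_injective 𝒜
    apply generic_map_injective 𝒜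
    have h1 : (𝒜.gen y₂ ^ (ℓ ^ n)).map ℂ = (𝒜.gen y₂).map ℂ ^ (ℓ ^ n) := MonObj.comp_pow _ _ _
    rw [gen_pow, h1, hy₂, pow_add, tors_mul_pow P l _ hpos, hx]
  have hx1 : x ^ (ℓ ^ n) = 1 := pow_eq_one_of_gen_eq_tors hpos hx
  have := isProper_special 𝒜
  have := isCommMonObj_special 𝒜
  have h1 := IsWeilValue.self_eq_one 𝒜.special (x := 𝒜.red x) (w := 𝒜.red y₂)
    (by rw [← red_pow, hx1, red_one]) (by rw [← red_pow, hy₂']) hW
  have hcop : (ℓ ^ n).Coprime p :=
    Nat.Coprime.pow_left n ((Nat.coprime_primes Fact.out Fact.out).2 hℓ)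
  have : NeZero (ℓ ^ n) := ⟨hpos.ne'⟩
  have h2 := (isPrimitiveRoot_reduction hcop hpos hζ).dvd_of_pow_eq_one _ h1
  have h3 := Nat.eq_zero_of_dvd_of_lt h2 (ZMod.val_lt _)
  rw [map_zero]
  exact (ZMod.val_eq_zero _).1 h3

/-- The `ℓ`-adic class of a divisor is antisymmetric. -/
theorem IsEllChern.antisymm {ℓ : ℕ} [Fact ℓ.Prime] (hℓ : ℓ ≠ p)
    {D : CartierDivisor 𝒜.special.left} {c : P.Λ → P.Λ → ℤ_[ℓ]} (h : IsEllChern P ℓ D c)
    (l m : P.Λ) : c l m = - c m l := by
  have h1 := h.self hℓ (l + m)
  rw [h.add_left hℓ, h.add_right hℓ, h.add_right hℓ, h.self hℓ, h.self hℓ, zero_add, add_zero] at h1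
  exact eq_neg_of_add_eq_zero_left h1

end Abelian

end

end Claimed.Open.R001
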