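import Claimed.Open.R001.Statement

/-!
# open001 (Milne's rationality conjecture): the case of dimension zero

The hypotheses of `Statement` can be met, and all the auxiliary objects can be constructed, for the
abelian scheme of relative dimension `0` (the base `Spec 𝒪_w` itself):

* `pointScheme p K : AbelianScheme p K 0`;
* `pointDatum p K : PeriodDatum (pointScheme p K)` (universal vector extension: the point; `exp = 0`);
* `isIso_of_isUniversal` : conversely *every* universal vector extension of the trivial group is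
  trivial, hence `hdR_subsingleton`: `H_1^{dR} = 0` for every period datum of the point;
* `statement_point` : the whole body of `Statement` for `r = m = 0` and `𝒜 = pointScheme p K`
  (existence of the period datum and of the point class, and the rationality assertion);
* `statement_point_is_instance` : that body is literally the instance of `Statement`.
-/
open CategoryTheory AlgebraicGeometry MonoidalCategory CartesianMonoidalCategory MonObj
namespace Claimed.Open.R001
noncomputable section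

theorem subsingleton_hom_of_isIso {S : Scheme.{0}} (G : Over S) [IsIso G.hom] (T : Over S) :
    Subsingleton (T ⟶ G) := by
  refine ⟨fun f g => ?_⟩
  ext1
  rw [← cancel_mono G.hom, Over.w, Over.w]

section
variable {K : Type} [Field K] (G : Over (Spec (CommRingCat.of K))) [IsIso G.hom]

theorem subsingleton_left_of_isIso : Subsingleton G.left :=
  (G.hom.homeomorph).subsingleton_congr.mpr inferInstance

variable [GrpObj G]
theorem exists_constGerm (s : G.left.presheaf.stalk (idPt G)) : ∃ c : K, s = constGerm G c := by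
  obtain ⟨U, hU, f, rfl⟩ := G.left.presheaf.exists_germ_eq s
  have hsub := subsingleton_left_of_isIso G
  have htop : U = ⊤ := by
    ext x
    simp only [TopologicalSpace.Opens.coe_top, Set.mem_univ, iff_true]
    rw [Subsingleton.elim x (idPt G)]; exact hU
  subst htop
  have : IsIso G.hom.appTop := inferInstanceAs (IsIso (G.hom.app ⊤))
  refine ⟨(Scheme.ΓSpecIso (CommRingCat.of K)).hom (inv G.hom.appTop f), ?_⟩
  unfold constGerm
  congr 1
  simp

theorem lie_subsingleton (L : Type) [Field L] [Algebra K L] : Subsingleton (Lie G L) := by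
  refine ⟨fun v w => ?_⟩
  ext s
  obtain ⟨c, rfl⟩ := exists_constGerm G s
  rw [v.2.2.2 c, w.2.2.2 c]

/-- trivial vector extension of a trivial group -/
def trivialExt : VectorExtension G where
  E := G
  comm := ⟨by have := subsingleton_hom_of_isIso G (G ⊗ G); exact Subsingleton.elim _ _⟩
  π := 𝟙 G
  flat := by dsimp; infer_instance
  surj := by dsimp; infer_instance
  qc := by dsimp; infer_instance
  rank := 0
  kerEquiv T :=
    haveI := subsingleton_hom_of_isIso G T
    { toFun := fun _ => fun i => i.elim0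
      invFun := fun _ => ⟨1, Subsingleton.elim _ _⟩
      left_inv := fun _ => Subsingleton.elim _ _
      right_inv := fun _ => Subsingleton.elim _ _ }
  kerEquiv_mul T x y z _ := Subsingleton.elim _ _
  kerEquiv_comp T T' f x z _ := Subsingleton.elim _ _


instance trivialExt_isIso : IsIso (trivialExt G).E.hom := inferInstanceAs (IsIso G.hom)

omit [IsIso G.hom] in
theorem isUniversal_of_isIso [IsIso G.hom] (X : VectorExtension G) [IsIso X.E.hom] : X.IsUniversal := by
  intro Y
  have hs := subsingleton_hom_of_isIso G X.E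
  have hs' := subsingleton_hom_of_isIso X.E X.E
  refine ⟨toUnit X.E ≫ η[Y.E], ⟨inferInstance, Subsingleton.elim _ _⟩, ?_⟩
  rintro f ⟨hf, -⟩
  have h1 : toUnit X.E ≫ η[X.E] = 𝟙 X.E := Subsingleton.elim _ _
  have h2 : η[X.E] ≫ f = η[Y.E] := IsMonHom.one_hom f
  calc f = (toUnit X.E ≫ η[X.E]) ≫ f := by rw [h1, Category.id_comp]
    _ = toUnit X.E ≫ η[Y.E] := by rw [Category.assoc, h2]

/-- conversely: a universal vector extension of the trivial group is trivial -/
theorem isIso_of_isUniversal (X : VectorExtension G) (hX : X.IsUniversal) : IsIso X.E.hom := by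
  have hs := subsingleton_hom_of_isIso G X.E
  obtain ⟨f, -, huniq⟩ := hX X
  have h1 : 𝟙 X.E = f := huniq _ ⟨inferInstance, Category.id_comp _⟩
  have h2 : X.π ≫ (toUnit G ≫ η[X.E]) = f :=
    huniq _ ⟨inferInstance, Subsingleton.elim _ _⟩
  have h3 : X.π ≫ (toUnit G ≫ η[X.E]) = 𝟙 X.E := h2.trans h1.symm
  have hs2 := subsingleton_hom_of_isIso G G
  have h4 : (toUnit G ≫ η[X.E]) ≫ X.π = 𝟙 G := Subsingleton.elim _ _
  have : IsIso X.π := ⟨_, h3, h4⟩
  have : IsIso X.π.left := inferInstanceAs (IsIso ((Over.forget _).map X.π))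
  rw [← Over.w X.π]
  infer_instance


/-- The exponential of the trivial group. -/
def trivialExp [Algebra K ℂ] : ComplexExp G where
  toFun := 0
  deriv v U h f := by
    have hs := subsingleton_hom_of_isIso G (specOver K ℂ)
    have hl := lie_subsingleton G ℂ
    have hv : Lie.d v U h f = 0 := by
      rw [Subsingleton.elim v 0]; rfl
    rw [hv]
    have : ∀ n : ℕ, (n : ℂ) * (evalAt (((0 : Lie G ℂ →+ Additive (Pts G ℂ))
        ((n : ℂ)⁻¹ • v)).toMul).left U f - evalAt (1 : Pts G ℂ).left U f) = 0 := by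
      intro n
      rw [Subsingleton.elim (((0 : Lie G ℂ →+ Additive (Pts G ℂ)) ((n : ℂ)⁻¹ • v)).toMul)
        (1 : Pts G ℂ)]
      simp
    simp only [this]
    exact tendsto_const_nhds

end

theorem geometricallyIntegral_id (S : Scheme.{0}) : GeometricallyIntegral (𝟙 S) := by
  refine ⟨fun L _ y Z fst snd h => ?_⟩
  have : IsIso snd := h.isIso_snd_of_isIso
  exact IsIntegral.of_isIso (inv snd)

section Point
variable (p : ℕ) [Fact p.Prime] (K : Type) [Field K] [Algebra K ℂ_[p]]

/-- The abelian scheme of relative dimension `0` over `𝒪_w`: the base itself. -/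
def pointScheme : AbelianScheme p K 0 where
  X := 𝟙_ (Over (Spec (CommRingCat.of (Ow p K))))
  proper := by dsimp; infer_instance
  smooth := by dsimp; infer_instance
  geomIntegral := geometricallyIntegral_id _

instance pointScheme_generic_isIso : IsIso (pointScheme p K).generic.hom := by
  dsimp [pointScheme, AbelianScheme.generic, baseChange]
  infer_instance

variable [Algebra K ℂ]

/-- The period datum of the point. -/
def pointDatum : PeriodDatum (pointScheme p K) where
  ext := trivialExt _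
  univ := isUniversal_of_isIso _ _
  exp := trivialExp _

variable {p K}

theorem hdR_subsingleton (P : PeriodDatum (pointScheme p K)) (L : Type) [Field L] [Algebra K L] :
    Subsingleton (P.HdR L) := by
  have := isIso_of_isUniversal _ P.ext P.univ
  exact lie_subsingleton _ L


theorem lefschetzWedge_zero_zero {S M : Type} [Field S] (g : (Fin (2 * 0) → M) → S)
    (e : Fin 0 → M → M → S) (v : Fin (2 * 0 + 2 * 0) → M) :
    lefschetzWedge 0 0 g e v = g (fun a => a.elim0) := by
  unfold lefschetzWedge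
  have h1 : (Finset.univ : Finset (Equiv.Perm (Fin (2 * 0 + 2 * 0)))) = {1} := by decide
  rw [h1, Finset.sum_singleton]
  have h2 : (fun a : Fin (2 * 0) => v ((1 : Equiv.Perm (Fin (2 * 0 + 2 * 0))) (Fin.castAdd (2 * 0) a)))
      = fun a => a.elim0 := by funext a; exact a.elim0
  rw [h2]
  simp

/-- A class in `H^0(point, ℚ(0)) = ℚ`. -/
def constClass (P : PeriodDatum (pointScheme p K)) (q : ℚ) : BettiClass P (2 * 0 + 2 * 0) (0 + 0) :=
  haveI : IsEmpty (Fin (2 * 0 + 2 * 0)) := inferInstanceAs (IsEmpty (Fin 0))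
  { rat := AlternatingMap.constOfIsEmpty ℤ P.Λ (Fin (2 * 0 + 2 * 0)) q
    cplx := AlternatingMap.constOfIsEmpty ℂ (P.HdR ℂ) (Fin (2 * 0 + 2 * 0)) (q : ℂ)
    compat := fun l => by simp }

theorem constClass_one_isPointClass (P : PeriodDatum (pointScheme p K)) :
    (constClass P 1).IsPointClass (r := 0) (m := 0) := by
  have hs := hdR_subsingleton P ℂ
  have hΛ : Subsingleton P.Λ := inferInstance
  have : IsEmpty (Fin (2 * 0 + 2 * 0)) := inferInstanceAs (IsEmpty (Fin 0))
  refine ⟨Module.Basis.empty _, fun k => k.elim0, 1, fun k => k.elim0, one_pos, ?_, ?_⟩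
  · simp [Matrix.det_isEmpty]
  · simp [constClass]

/-- The body of `Statement` for `r = m = 0` and the abelian scheme of dimension `0`. -/
theorem statement_point :
    Nonempty (PeriodDatum (pointScheme p K)) ∧
    ∀ P : PeriodDatum (pointScheme p K),
    (∃ pt : BettiClass P (2 * 0 + 2 * 0) (0 + 0), pt.IsPointClass (r := 0) (m := 0)) ∧
    ∀ (pt : BettiClass P (2 * 0 + 2 * 0) (0 + 0)), pt.IsPointClass (r := 0) (m := 0) →
    ∀ (g : BettiClass P (2 * 0) 0), g.IsHodge →
    ∀ (D : Fin 0 → CartierDivisor (pointScheme p K).special.left),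
    ∃ q : ℚ,
      (∀ (ℓ : ℕ) [Fact ℓ.Prime], ℓ ≠ p →
        ∃ c : Fin 0 → P.Λ → P.Λ → ℤ_[ℓ], (∀ i, IsEllChern P ℓ (D i) (c i)) ∧
          ∀ l : Fin (2 * 0 + 2 * 0) → P.Λ,
            lefschetzWedge 0 0 (fun x => ((g.rat x : ℚ) : ℚ_[ℓ]))
              (fun i x y => ((c i x y : ℤ_[ℓ]) : ℚ_[ℓ])) l = (q : ℚ_[ℓ]) * ((pt.rat l : ℚ) : ℚ_[ℓ])) ∧
      (∃ (gp : AlternatingMap ℂ_[p] (P.HdR ℂ_[p]) ℂ_[p] (Fin (2 * 0)))
         (ptp : AlternatingMap ℂ_[p] (P.HdR ℂ_[p]) ℂ_[p] (Fin (2 * 0 + 2 * 0)))
         (c : Fin 0 → P.HdR ℂ_[p] → P.HdR ℂ_[p] → ℂ_[p]),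
          g.IsCrisSpecialization gp ∧ pt.IsCrisSpecialization ptp ∧
          (∀ i, IsCrisChern P (D i) (c i)) ∧
          ∀ v : Fin (2 * 0 + 2 * 0) → P.HdR ℂ_[p],
            lefschetzWedge 0 0 gp c v = (q : ℂ_[p]) * ptp v) := by
  refine ⟨⟨pointDatum p K⟩, fun P => ⟨⟨constClass P 1, constClass_one_isPointClass P⟩, ?_⟩⟩
  intro pt hpt g _ D
  have : IsEmpty (Fin (2 * 0)) := inferInstanceAs (IsEmpty (Fin 0))
  have : IsEmpty (Fin (2 * 0 + 2 * 0)) := inferInstanceAs (IsEmpty (Fin 0))
  -- the point class takes the value `1`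
  have hpt1 : ∀ l : Fin (2 * 0 + 2 * 0) → P.Λ, pt.rat l = 1 := by
    intro l
    obtain ⟨b, -, -, -, -, -, hb⟩ := hpt
    rw [← hb]; congr 1; exact Subsingleton.elim _ _
  refine ⟨g.rat (fun a => a.elim0), ?_, ?_⟩
  · intro ℓ _ _
    refine ⟨fun i => i.elim0, fun i => i.elim0, fun l => ?_⟩
    rw [lefschetzWedge_zero_zero, hpt1 l]
    simp
  · refine ⟨AlternatingMap.constOfIsEmpty ℂ_[p] (P.HdR ℂ_[p]) (Fin (2 * 0))
      ((g.rat (fun a => a.elim0) : ℚ) : ℂ_[p]),
      AlternatingMap.constOfIsEmpty ℂ_[p] (P.HdR ℂ_[p]) (Fin (2 * 0 + 2 * 0)) 1,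
      fun i => i.elim0, ?_, ?_, fun i => i.elim0, ?_⟩
    · intro v
      refine ⟨((g.rat (fun a => a.elim0) : ℚ) : K), ?_, by simp⟩
      have := g.compat (fun a => a.elim0)
      have h2 : (fun i : Fin (2 * 0) => Lie.ofBase P.ext.E ℂ (v i)) =
          fun i => ((fun a : Fin (2 * 0) => (a.elim0 : P.Λ)) i).1 := Subsingleton.elim _ _
      rw [h2, this]
      simp
    · intro v
      refine ⟨1, ?_, by simp⟩
      have := pt.compat (fun a => isEmptyElim a)
      have h2 : (fun i : Fin (2 * 0 + 2 * 0) => Lie.ofBase P.ext.E ℂ (v i)) =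
          fun i => ((fun a : Fin (2 * 0 + 2 * 0) => (isEmptyElim a : P.Λ)) i).1 :=
        Subsingleton.elim _ _
      rw [h2, this, hpt1]
      simp
    · intro v
      rw [lefschetzWedge_zero_zero]
      simp

/-- `statement_point` is literally the instance `r = m = 0`, `𝒜 = pointScheme p K` of `Statement`
(so `Statement` does imply it, by specialisation only). -/
theorem statement_point_is_instance [Algebra ℚ K] [IsAlgClosure ℚ K] (h : Statement) :
    Nonempty (PeriodDatum (pointScheme p K)) ∧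
    ∀ P : PeriodDatum (pointScheme p K),
    (∃ pt : BettiClass P (2 * 0 + 2 * 0) (0 + 0), pt.IsPointClass (r := 0) (m := 0)) ∧
    ∀ (pt : BettiClass P (2 * 0 + 2 * 0) (0 + 0)), pt.IsPointClass (r := 0) (m := 0) →
    ∀ (g : BettiClass P (2 * 0) 0), g.IsHodge →
    ∀ (D : Fin 0 → CartierDivisor (pointScheme p K).special.left),
    ∃ q : ℚ,
      (∀ (ℓ : ℕ) [Fact ℓ.Prime], ℓ ≠ p →
        ∃ c : Fin 0 → P.Λ → P.Λ → ℤ_[ℓ], (∀ i, IsEllChern P ℓ (D i) (c i)) ∧
          ∀ l : Fin (2 * 0 + 2 * 0) → P.Λ,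
            lefschetzWedge 0 0 (fun x => ((g.rat x : ℚ) : ℚ_[ℓ]))
              (fun i x y => ((c i x y : ℤ_[ℓ]) : ℚ_[ℓ])) l = (q : ℚ_[ℓ]) * ((pt.rat l : ℚ) : ℚ_[ℓ])) ∧
      (∃ (gp : AlternatingMap ℂ_[p] (P.HdR ℂ_[p]) ℂ_[p] (Fin (2 * 0)))
         (ptp : AlternatingMap ℂ_[p] (P.HdR ℂ_[p]) ℂ_[p] (Fin (2 * 0 + 2 * 0)))
         (c : Fin 0 → P.HdR ℂ_[p] → P.HdR ℂ_[p] → ℂ_[p]),
          g.IsCrisSpecialization gp ∧ pt.IsCrisSpecialization ptp ∧
          (∀ i, IsCrisChern P (D i) (c i)) ∧
          ∀ v : Fin (2 * 0 + 2 * 0) → P.HdR ℂ_[p],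
            lefschetzWedge 0 0 gp c v = (q : ℂ_[p]) * ptp v) :=
  h p K 0 0 (pointScheme p K)

end Point
end
end Claimed.Open.R001
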