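import Claimed.Open.R001.Statement

/-!
# open001 (Milne's rationality conjecture): sanity checks for translations and the Weil pairing

* `translation_comp`, `translation_one`, `translation_isIso` : `t_x ∘ t_y = t_{xy}`, `t_1 = id`, so
  that translations are automorphisms; `translation_genericPoint` : they fix the generic point, so
  that `fnPullback` along a translation never takes its junk value;
* `mulBy_one` : multiplication by `1` is the identity;
* `zeroDivisor` : the Cartier divisor `0`;
* `isWeilValue_zeroDivisor` : `e_n^0(x, y) = 1` for the zero divisor (whenever `n_X` is dominant);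
* `isWeilValue_zeroDivisor_one` : in particular for `n = 1`, without any hypothesis.
-/

open CategoryTheory AlgebraicGeometry MonoidalCategory CartesianMonoidalCategory MonObj

namespace Claimed.Open.R001

noncomputable section

section Translation

variable {k : Type} [Field k] (X : Over (Spec (CommRingCat.of k)))

theorem comp_constMap (f : X ⟶ X) (x : Pts X k) : f ≫ constMap X x = constMap X x := by
  unfold constMap
  rw [← Category.assoc]
  congr 1
  ext1
  simp

variable [GrpObj X]

theorem constMap_mul (x y : Pts X k) : constMap X (x * y) = constMap X x * constMap X y := by
  unfold constMap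
  rw [MonObj.comp_mul]

theorem constMap_one : constMap X 1 = 1 := by
  unfold constMap
  rw [MonObj.comp_one]

/-- `t_y ∘ t_x = t_{x y}`. -/
theorem translation_comp (x y : Pts X k) :
    translation X x ≫ translation X y = translation X (x * y) := by
  unfold translation
  rw [MonObj.comp_mul, Category.comp_id, comp_constMap, constMap_mul, _root_.mul_assoc]

/-- `t_1 = id`. -/
theorem translation_one : translation X 1 = 𝟙 X := by
  unfold translation
  rw [constMap_one, _root_.mul_one]

/-- Translations are automorphisms. -/
instance translation_isIso (x : Pts X k) : IsIso (translation X x) :=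
  ⟨translation X x⁻¹, by rw [translation_comp, mul_inv_cancel, translation_one],
    by rw [translation_comp, inv_mul_cancel, translation_one]⟩

/-- Translations fix the generic point. -/
theorem translation_genericPoint [IsIntegral X.left] (x : Pts X k) :
    (translation X x).left (genericPoint X.left) = genericPoint X.left := by
  have : IsIso (translation X x).left :=
    inferInstanceAs (IsIso ((Over.forget (Spec (CommRingCat.of k))).map (translation X x)))
  exact genericPoint_eq_of_isOpenImmersion (translation X x).left

/-- Multiplication by `1` is the identity. -/
theorem mulBy_one : mulBy X 1 = 𝟙 X := by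
  unfold mulBy
  rw [pow_one]

end Translation

section Divisor

variable {X Y : Scheme.{0}} [IsIntegral X] [IsIntegral Y]

theorem unitAt_one (y : X) : UnitAt y (1 : X.functionField) := ⟨1, by simp⟩

theorem fnPullback_one (f : X ⟶ Y) (h : f (genericPoint X) ⤳ genericPoint Y) :
    fnPullback f (1 : Y.functionField) = 1 := by
  unfold fnPullback
  rw [dif_pos h]
  simp

/-- The zero Cartier divisor: all local equations are `1`. -/
def zeroDivisor (X : Scheme.{0}) [IsIntegral X] : CartierDivisor X where
  eq _ := 1
  ne_zero _ := one_ne_zero
  coherent x := ⟨⊤, trivial, fun y _ => by simpa using unitAt_one y⟩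

end Divisor

section Weil

variable {k : Type} [Field k] (X : Over (Spec (CommRingCat.of k))) [IsIntegral X.left]

theorem constFn_one : constFn X 1 = 1 := by
  unfold constFn
  simp

variable [GrpObj X]

/-- The Weil pairing attached to the zero divisor is trivial. -/
theorem isWeilValue_zeroDivisor (n : ℕ) (x y : Pts X k)
    (hn : (mulBy X n).left (genericPoint X.left) ⤳ genericPoint X.left) :
    IsWeilValue X (zeroDivisor X.left) n x y 1 := by
  have hx : (translation X x).left (genericPoint X.left) ⤳ genericPoint X.left := by
    rw [translation_genericPoint]
  have hy : (translation X y).left (genericPoint X.left) ⤳ genericPoint X.left := by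
    rw [translation_genericPoint]
  refine ⟨1, one_ne_zero, fun z => ?_, ?_⟩
  · simp only [zeroDivisor]
    rw [fnPullback_one _ hy, div_one, fnPullback_one _ hn, div_one]
    exact unitAt_one z
  · rw [fnPullback_one _ hx, constFn_one, _root_.mul_one]

/-- The case `n = 1`. -/
theorem isWeilValue_zeroDivisor_one (x y : Pts X k) :
    IsWeilValue X (zeroDivisor X.left) 1 x y 1 := by
  refine isWeilValue_zeroDivisor X 1 x y ?_
  rw [mulBy_one]
  exact specializes_rfl

end Weil

end

end Claimed.Open.R001
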