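import Claimed.Open.R001.SanityDimZero
import Claimed.Open.R001.SanityWeil

/-!
# Result 001: non-examples

Checked NON-examples of definitions which carry weight in `Statement`.

* `constClass_isPointClass_iff`, `not_isPointClass_two` : on the abelian scheme of dimension `0` the class `q ∈ H^0(point, ℚ(0)) = ℚ`
  is the class of a point if and only if `q = 1`; so `IsPointClass` refuses e.g. `2`, and also `0`: the trace is normalised.
* `fnPullback_id`, `constFn_injective` : `fnPullback` along the identity is the identity; the constants embed in the function field.
* `isWeilValue_at_one` : `e_n^D(0, y) = 1` and nothing else: for EVERY group scheme `X` with integral total space, every divisor `D`,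
  every `n`, `y`, a value `c` with `IsWeilValue X D n 1 y c` is `1`.  So `IsWeilValue` is not satisfied by arbitrary constants
  (`not_isWeilValue_at_one`: each `c ≠ 1` is refused).
-/

open CategoryTheory AlgebraicGeometry MonoidalCategory CartesianMonoidalCategory MonObj

namespace Claimed.Open.R001

noncomputable section

section PointClass

variable {p : ℕ} [Fact p.Prime] {K : Type} [Field K] [Algebra K ℂ_[p]] [Algebra K ℂ]

/-- On the abelian scheme of dimension `0`: `q` is the class of a point if and only if `q = 1`. -/
theorem constClass_isPointClass_iff (P : PeriodDatum (pointScheme p K)) (q : ℚ) :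
    (constClass P q).IsPointClass (r := 0) (m := 0) ↔ q = 1 := by
  constructor
  · rintro ⟨b, -, -, -, -, -, hb⟩
    simpa [constClass] using hb
  · rintro rfl
    exact constClass_one_isPointClass P

/-- NON-EXAMPLE: `2` is not the class of a point. -/
theorem not_isPointClass_two (P : PeriodDatum (pointScheme p K)) :
    ¬ (constClass P 2).IsPointClass (r := 0) (m := 0) := by
  rw [constClass_isPointClass_iff]
  norm_num

/-- NON-EXAMPLE: `0` is not the class of a point. -/
theorem not_isPointClass_zero (P : PeriodDatum (pointScheme p K)) :
    ¬ (constClass P 0).IsPointClass (r := 0) (m := 0) := by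
  rw [constClass_isPointClass_iff]
  norm_num

end PointClass

section Pullback

variable {X : Scheme.{0}} [IsIntegral X]

/-- The pull back of rational functions along the identity is the identity. -/
theorem fnPullback_id (s : X.functionField) : fnPullback (𝟙 X) s = s := by
  unfold fnPullback
  rw [dif_pos (show (𝟙 X : X ⟶ X) (genericPoint X) ⤳ genericPoint X from specializes_rfl)]
  simp
  rfl

end Pullback

section Weil

variable {k : Type} [Field k] (X : Over (Spec (CommRingCat.of k))) [IsIntegral X.left]

/-- The embedding `k → k(X)` of the constants, as a homomorphism of rings. -/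
def constFnHom : k →+* X.left.functionField :=
  (X.left.presheaf.germ ⊤ (genericPoint X.left) trivial).hom.comp
    ((X.hom.appTop).hom.comp (Scheme.ΓSpecIso (CommRingCat.of k)).inv.hom)

theorem constFn_eq (c : k) : constFn X c = constFnHom X c := rfl

/-- The constants embed in the function field. -/
theorem constFn_injective : Function.Injective (constFn X) := by
  intro a b h
  rw [constFn_eq, constFn_eq] at h
  exact (constFnHom X).injective h

variable [GrpObj X]

/-- `e_n^D(0, y) = 1`, and no other value is accepted. -/
theorem isWeilValue_at_one {D : CartierDivisor X.left} {n : ℕ} {y : Pts X k} {c : k}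
    (h : IsWeilValue X D n 1 y c) : c = 1 := by
  obtain ⟨g, hg, -, h2⟩ := h
  rw [translation_one, Over.id_left, fnPullback_id] at h2
  have h3 : constFn X c = 1 := by
    have : (constFn X c - 1) * g = 0 := by rw [sub_mul, ← h2, _root_.one_mul, sub_self]
    rcases mul_eq_zero.1 this with h | h
    · exact sub_eq_zero.1 h
    · exact absurd h hg
  exact constFn_injective X (h3.trans (constFn_one X).symm)

/-- NON-EXAMPLE: a constant `c ≠ 1` is not a value of the Weil pairing at `x = 0`. -/
theorem not_isWeilValue_at_one (D : CartierDivisor X.left) (n : ℕ) (y : Pts X k) {c : k} (hc : c ≠ 1) :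
    ¬ IsWeilValue X D n 1 y c := fun h => hc (isWeilValue_at_one X h)

end Weil

end

end Claimed.Open.R001
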