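import Claimed.Open.R001.SanityBasic
import Claimed.Open.R001.SanityDimZero
import Claimed.Open.R001.SanityNon
import Claimed.Open.R001.SanityWeil

/-!
# Result 001: the divisor-class predicates can be met, and they pin the classes

`statement_point` (in `SanityDimZero.lean`) has `m = 0`: it never meets a divisor.  This file checks
that the predicates of sections 9 and 10 of `Statement.lean` are neither contradictory nor empty of
content for a formal reason.  At the abelian scheme of relative dimension `0`, for **every** period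
datum `P` and **every** Cartier divisor:

* `exists_rootOfUnity` : `𝒪_w` contains `ζ` with complex value `exp(2πi/N)` (all `N ≥ 1`; this part
  does not depend on the abelian scheme);
* `isPrimitiveRoot_reduction` : for `N` prime to `p` its reduction in `𝔽` is a primitive `N`-th root
  of unity (`natCast_p_Fbar` : `p = 0` in `𝔽`), so that the exponent in `IsEllChern` is determined
  modulo `ℓ^n`;
* `isWeilValue_of_isIso` : `e_n^D(x, y) = 1` on the trivial group;
* `isEllChern_point` : `IsEllChern P ℓ D 0`, and `isEllChern_point_iff` : no other `c` is accepted;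
* `isRiemannForm_point` : `IsRiemannForm H 0`;
* `isRosatiRel_point` : `IsRosatiRel H D N u`;
* `isCrisRealization_point`, `isCrisRealization_point_unique`;
* `isCrisChern_point` : `IsCrisChern P D 0`, and `isCrisChern_point_iff` : no other `c` is accepted;
* `universalCoverPt_point` : a point of the universal cover (a bounded `p`-compatible sequence).

The instance is degenerate (`H_1 = 0`); what is tested is that every clause of these predicates can be
met at all (types, towers of algebras, roots of unity, junk values of `fnPullback`), and that the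
Weil pairing clause refuses wrong exponents.
-/

open CategoryTheory AlgebraicGeometry MonoidalCategory CartesianMonoidalCategory MonObj
open Filter Topology

namespace Claimed.Open.R001

noncomputable section

/-! ### Roots of unity -/

/-- A root of unity of a field lies in every valuation subring. -/
theorem mem_valuationSubring_of_pow_eq_one {F : Type} [Field F] (A : ValuationSubring F) {x : F}
    {N : ℕ} (hN : 0 < N) (hx : x ^ N = 1) : x ∈ A := by
  rcases A.mem_or_inv_mem x with h | h
  · exact h
  · have hx0 : x ≠ 0 := by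
      rintro rfl
      rw [zero_pow hN.ne'] at hx
      exact zero_ne_one hx
    have : x = x⁻¹ ^ (N - 1) := by
      obtain ⟨M, rfl⟩ : ∃ M, N = M + 1 := ⟨N - 1, by omega⟩
      simp only [Nat.add_sub_cancel]
      rw [pow_succ] at hx
      rw [inv_pow]
      exact eq_inv_of_mul_eq_one_right hx
    rw [this]
    exact pow_mem h _

/-- `𝒪_w` contains the root of unity with complex value `exp(2πi/N)`. -/
theorem exists_rootOfUnity (p : ℕ) [Fact p.Prime] (K : Type) [Field K] [Algebra ℚ K]
    [IsAlgClosure ℚ K] [Algebra K ℂ] [Algebra K ℂ_[p]] (N : ℕ) (hN : 0 < N) :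
    ∃ ζ : Ow p K, algebraMap (Ow p K) ℂ ζ = Complex.exp (2 * Real.pi * Complex.I / N) ∧
      ζ ^ N = 1 := by
  have hK : IsAlgClosed K := IsAlgClosure.isAlgClosed ℚ
  set z : ℂ := Complex.exp (2 * Real.pi * Complex.I / N) with hz
  have hzN : z ^ N = 1 := by
    rw [hz, ← Complex.exp_nat_mul]
    have : (N : ℂ) ≠ 0 := by exact_mod_cast hN.ne'
    rw [mul_div_cancel₀ _ this]
    exact Complex.exp_two_pi_mul_I
  have hint : IsIntegral K z := IsIntegral.of_pow hN (by rw [hzN]; exact isIntegral_one)
  have hdeg : (minpoly K z).degree = 1 :=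
    IsAlgClosed.degree_eq_one_of_irreducible K (minpoly.irreducible hint)
  obtain ⟨ζ₀, hζ₀⟩ := minpoly.mem_range_of_degree_eq_one K z hdeg
  have hζN : ζ₀ ^ N = 1 := by
    apply (algebraMap K ℂ).injective
    rw [map_pow, hζ₀, hzN, map_one]
  refine ⟨⟨ζ₀, mem_valuationSubring_of_pow_eq_one _ hN hζN⟩, hζ₀, ?_⟩
  ext
  simpa using hζN

/-! ### The Weil pairing of the trivial group -/

section TrivialGroup

variable {k : Type} [Field k] (X : Over (Spec (CommRingCat.of k))) [IsIso X.hom] [GrpObj X]
  [IsIntegral X.left]

/-- On the trivial group every Weil pairing has the value `1`, for every divisor. -/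
theorem isWeilValue_of_isIso (D : CartierDivisor X.left) (n : ℕ) (x y : Pts X k) :
    IsWeilValue X D n x y 1 := by
  have hs := subsingleton_hom_of_isIso X X
  have h1 : ∀ z : Pts X k, translation X z = 𝟙 X := fun z => Subsingleton.elim _ _
  have h2 : mulBy X n = 𝟙 X := Subsingleton.elim _ _
  refine ⟨1, one_ne_zero, fun z => ?_, ?_⟩
  · rw [h1 y, h2]
    simp only [Over.id_left, fnPullback_id]
    change UnitAt z (1 / (D.eq z / D.eq z))
    rw [div_self (D.ne_zero z), div_one]
    exact unitAt_one z
  · rw [h1 x, Over.id_left, fnPullback_id, constFn_one, _root_.mul_one]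

end TrivialGroup

/-! ### The predicates of sections 9 and 10 at the abelian scheme of dimension `0` -/

section Point

variable (p : ℕ) [Fact p.Prime] (K : Type) [Field K] [Algebra K ℂ_[p]]

instance pointScheme_X_isIso : IsIso (pointScheme p K).X.hom := by
  dsimp [pointScheme]
  infer_instance

instance pointScheme_special_isIso : IsIso (pointScheme p K).special.hom := by
  dsimp [pointScheme, AbelianScheme.special, baseChange]
  infer_instance

instance pointScheme_modP_isIso : IsIso (baseChange (OCmodP p) (pointScheme p K).X).hom := by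
  dsimp [pointScheme, baseChange]
  infer_instance

variable {p K}

/-- All sets of points of the point scheme are singletons. -/
instance pts_pointScheme_subsingleton (B : Type) [CommRing B] [Algebra (Ow p K) B] :
    Subsingleton (Pts (pointScheme p K).X B) :=
  subsingleton_hom_of_isIso _ _

instance pts_pointScheme_generic_subsingleton (B : Type) [CommRing B] [Algebra K B] :
    Subsingleton (Pts (pointScheme p K).generic B) :=
  subsingleton_hom_of_isIso _ _

variable [Algebra K ℂ]

/-- `c_{1,ℓ}(D) = 0` on the point, for every divisor `D` and every period datum. -/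
theorem isEllChern_point [Algebra ℚ K] [IsAlgClosure ℚ K] (P : PeriodDatum (pointScheme p K))
    (ℓ : ℕ) [Fact ℓ.Prime] (D : CartierDivisor (pointScheme p K).special.left) :
    IsEllChern P ℓ D (fun _ _ => 0) := by
  intro n l m
  obtain ⟨ζ, hζ, -⟩ := exists_rootOfUnity p K (ℓ ^ n) (pow_pos (Fact.out : ℓ.Prime).pos n)
  refine ⟨1, 1, ζ, Subsingleton.elim _ _, Subsingleton.elim _ _, hζ, ?_⟩
  simp only [map_zero, ZMod.val_zero, pow_zero]
  exact isWeilValue_of_isIso _ D _ _ _

/-- The Riemann form of every divisor on the point is `0`. -/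
theorem isRiemannForm_point [Algebra ℚ K] [IsAlgClosure ℚ K] (P : PeriodDatum (pointScheme p K))
    (H : CartierDivisor (pointScheme p K).generic.left) :
    IsRiemannForm H (BettiClass.zero P 2 1) := by
  intro n hn l m
  obtain ⟨ζ, hζ, -⟩ := exists_rootOfUnity p K n hn
  refine ⟨1, 1, ζ.1, 0, Subsingleton.elim _ _, Subsingleton.elim _ _, hζ, ?_, ?_⟩
  · simp [BettiClass.zero]
  · rw [zpow_zero]
    exact isWeilValue_of_isIso _ H _ _ _

omit [Algebra K ℂ] in
/-- `N φ_D = φ_{H₀} ∘ u₀` on the point. -/
theorem isRosatiRel_point (H : CartierDivisor (pointScheme p K).generic.left)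
    (D : CartierDivisor (pointScheme p K).special.left) (N : ℕ) (u : EndModP (pointScheme p K)) :
    IsRosatiRel H D N u := by
  intro n _ x y _ _
  refine ⟨1, 1, 1, 1, one_pow _, Subsingleton.elim _ _, Subsingleton.elim _ _, ?_,
    isWeilValue_of_isIso _ D _ _ _, by simp⟩
  exact isWeilValue_of_isIso _ H _ _ _

/-- Every linear map is the crystalline realisation (`H_1 = 0`) ... -/
theorem isCrisRealization_point (P : PeriodDatum (pointScheme p K)) (u : EndModP (pointScheme p K))
    (T : P.HdR ℂ_[p] →ₗ[ℂ_[p]] P.HdR ℂ_[p]) : IsCrisRealization P u T := by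
  intro s t _ v w _ _
  have := hdR_subsingleton P ℂ_[p]
  exact Subsingleton.elim _ _

/-- ... and there is only one. -/
theorem isCrisRealization_point_unique (P : PeriodDatum (pointScheme p K))
    (T T' : P.HdR ℂ_[p] →ₗ[ℂ_[p]] P.HdR ℂ_[p]) : T' = T := by
  have := hdR_subsingleton P ℂ_[p]
  ext1 v
  exact Subsingleton.elim _ _

/-- `c_{1,cris}(D) = 0` on the point, for every divisor `D` and every period datum. -/
theorem isCrisChern_point [Algebra ℚ K] [IsAlgClosure ℚ K] (P : PeriodDatum (pointScheme p K))
    (D : CartierDivisor (pointScheme p K).special.left) :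
    IsCrisChern P D (fun _ _ => 0) :=
  ⟨zeroDivisor _, BettiClass.zero P 2 1, 0, 1, ⟨𝟙 _⟩, LinearMap.id,
    isRiemannForm_point P _, BettiClass.zero_isCrisSpecialization P 2 1, one_pos,
    isRosatiRel_point _ D 1 _, isCrisRealization_point P _ _,
    fun T' _ => isCrisRealization_point_unique P _ T', fun v w => by simp⟩

/-- A point of the universal cover of the point. -/
def universalCoverPt_point (P : PeriodDatum (pointScheme p K)) : UniversalCoverPt P where
  y _ := 1
  compat _ := one_pow _
  bounded := by
    have h1 := isIso_of_isUniversal _ P.ext P.univ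
    have h2 : IsAffine P.ext.E.left := IsAffine.of_isIso P.ext.E.hom
    have h3 := subsingleton_hom_of_isIso P.ext.E (specOver K ℂ_[p])
    refine ⟨1, fun _ => ⊤, fun _ => Set.univ, fun _ => isAffineOpen_top _, ?_, fun _ => ⟨?_, ?_⟩⟩
    · intro x _
      simp
    · intro x _
      trivial
    · intro f
      refine ⟨‖evalAt (1 : Pts P.ext.E ℂ_[p]).left ⊤ f‖, fun x _ => ?_⟩
      rw [Subsingleton.elim x 1]
  a _ := 1
  a_spec _ := Subsingleton.elim _ _

/-! ### The predicates pin the classes -/

omit [Algebra K ℂ_[p]] [Algebra K ℂ] in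
variable (p) in
/-- `p = 0` in the residue field `𝔽` of `𝒪_{ℂ_p}`. -/
theorem natCast_p_Fbar : ((p : ℕ) : Fbar p) = 0 := by
  rw [← map_natCast (IsLocalRing.residue 𝓞_ℂ_[p]) p, IsLocalRing.residue_eq_zero_iff,
    IsLocalRing.mem_maximalIdeal, mem_nonunits_iff]
  intro h
  have h1 := ((PadicComplexInt.integers p).isUnit_iff_valuation_eq_one).1 h
  rw [map_natCast, PadicComplex.valuation_p] at h1
  have hp : (1 : NNReal) < p := by exact_mod_cast (Fact.out : p.Prime).one_lt
  rw [one_div, inv_eq_one] at h1
  exact hp.ne' h1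

omit [Algebra K ℂ_[p]] [Algebra K ℂ] in
variable (p) in
/-- An integer prime to `p` is not zero in `𝔽`. -/
theorem natCast_Fbar_ne_zero {N : ℕ} (hN : N.Coprime p) : ((N : ℕ) : Fbar p) ≠ 0 := by
  intro h
  obtain ⟨a, b, hab⟩ := Nat.isCoprime_iff_coprime.2 hN
  have := congrArg (Int.cast : ℤ → Fbar p) hab
  push_cast at this
  rw [h, natCast_p_Fbar, mul_zero, mul_zero, add_zero] at this
  exact zero_ne_one this

/-- The reduction in `𝔽` of the root of unity of `𝒪_w` with complex value `exp(2πi/N)` is a
primitive `N`-th root of unity, for `N` prime to `p`. -/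
theorem isPrimitiveRoot_reduction {N : ℕ} (hN : N.Coprime p) (hN0 : 0 < N) {ζ : Ow p K}
    (hζ : algebraMap (Ow p K) ℂ ζ = Complex.exp (2 * Real.pi * Complex.I / N)) :
    IsPrimitiveRoot (algebraMap (Ow p K) (Fbar p) ζ) N := by
  have hinj : Function.Injective (algebraMap (Ow p K) ℂ) :=
    (algebraMap K ℂ).injective.comp Subtype.val_injective
  have h1 : IsPrimitiveRoot ζ N := by
    refine IsPrimitiveRoot.of_map_of_injective (f := algebraMap (Ow p K) ℂ) ?_ hinj
    rw [hζ]
    exact Complex.isPrimitiveRoot_exp N hN0.ne'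
  have h2 := (h1.isRoot_cyclotomic hN0).map (f := algebraMap (Ow p K) (Fbar p))
  rw [Polynomial.map_cyclotomic] at h2
  have : NeZero ((N : ℕ) : Fbar p) := ⟨natCast_Fbar_ne_zero p hN⟩
  exact Polynomial.isRoot_cyclotomic_iff.1 h2

/-- `IsEllChern` pins the class: on the point, `0` is the only `ℓ`-adic class of a divisor
(each other function `c`, e.g. the constant `1`, is refused). -/
theorem isEllChern_point_iff [Algebra ℚ K] [IsAlgClosure ℚ K] (P : PeriodDatum (pointScheme p K))
    (ℓ : ℕ) [Fact ℓ.Prime] (hℓ : ℓ ≠ p) (D : CartierDivisor (pointScheme p K).special.left)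
    (c : P.Λ → P.Λ → ℤ_[ℓ]) : IsEllChern P ℓ D c ↔ c = fun _ _ => 0 := by
  constructor
  · intro h
    funext l m
    rw [← PadicInt.ext_of_toZModPow]
    intro n
    obtain ⟨x, y, ζ, -, -, hζ, hW⟩ := h n l m
    have hs := subsingleton_hom_of_isIso (pointScheme p K).special (specOver (Fbar p) (Fbar p))
    rw [Subsingleton.elim ((pointScheme p K).red x) 1] at hW
    have h1 := isWeilValue_at_one _ hW
    have hcop : (ℓ ^ n).Coprime p :=
      Nat.Coprime.pow_left n ((Nat.coprime_primes Fact.out Fact.out).2 hℓ)
    have hpos : 0 < ℓ ^ n := pow_pos (Fact.out : ℓ.Prime).pos n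
    have h2 := (isPrimitiveRoot_reduction hcop hpos hζ).dvd_of_pow_eq_one _ h1
    have : NeZero (ℓ ^ n) := ⟨hpos.ne'⟩
    have h3 := Nat.eq_zero_of_dvd_of_lt h2 (ZMod.val_lt _)
    rw [map_zero]
    exact (ZMod.val_eq_zero _).1 h3
  · rintro rfl
    exact isEllChern_point P ℓ D

/-- `IsCrisChern` pins the class: on the point, `0` is the only crystalline class of a divisor. -/
theorem isCrisChern_point_iff [Algebra ℚ K] [IsAlgClosure ℚ K] (P : PeriodDatum (pointScheme p K))
    (D : CartierDivisor (pointScheme p K).special.left)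
    (c : P.HdR ℂ_[p] → P.HdR ℂ_[p] → ℂ_[p]) : IsCrisChern P D c ↔ c = fun _ _ => 0 := by
  constructor
  · rintro ⟨H, h, hp, N, u, T, -, -, hN, -, -, -, hc⟩
    funext v w
    have hs := hdR_subsingleton P ℂ_[p]
    have h1 : hp ![v, T w] = 0 :=
      hp.map_coord_zero 0 (Subsingleton.elim _ _)
    have h2 := hc v w
    rw [h1] at h2
    have hN' : (N : ℂ_[p]) ≠ 0 := by exact_mod_cast hN.ne'
    exact (mul_eq_zero.1 h2).resolve_left hN'
  · rintro rfl
    exact isCrisChern_point P D

end Point

end

end Claimed.Open.R001
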