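import Claimed.Open.R001.SanityReduction

/-!
# Result 001: two sentences of `CLAIM.md` turned into theorems

* Deviation 8 says: "`IsWeilValue` (hence every divisor class here) depends on the divisor only, because a unit at
  `t_y(n z)` pulls back to a unit at `z`".  Here: `UnitAt.fnPullback` (a unit of the local ring at `f z` pulls back to a unit of
  the local ring at `z`, for `f` dominant), `CartierDivisor.Same` (two presentations of one Cartier divisor: the local
  equations differ by units), **`IsWeilValue.congr`**, `isWeilValue_congr_iff` (for every group scheme with integral total space), and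
  `IsEllChern.congr`, `IsRiemannForm.congr`, `IsRosatiRel.congr`, `IsCrisChern.congr` (for every abelian scheme of every dimension):
  all the predicates on divisors of `Statement.lean` are invariant under a change of presentation.
* Deviation 4 says that the universal vector extension is unique up to a unique isomorphism.  Here:
  **`VectorExtension.IsUniversal.exists_iso`** (for every group scheme `A` over a field).
* `tors_pow`, `gen_one`, `gen_pow`, `pow_eq_one_of_gen_eq_tors` : `exp_A(l/n)` is killed by `n`, and so is the integral point `x` chosen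
  inside `IsEllChern` (with `IsWeilValue.pow_eq_one` of `SanityUnique.lean`: the value of the pairing there is an `ℓ^n`-th root of unity).
-/

open CategoryTheory AlgebraicGeometry MonoidalCategory CartesianMonoidalCategory MonObj

namespace Claimed.Open.R001

noncomputable section

/-! ### Units of local rings and pull back -/

section Units

variable {X Y : Scheme.{0}} [IsIntegral X] [IsIntegral Y]

theorem UnitAt.mul {z : X} {a b : X.functionField} (ha : UnitAt z a) (hb : UnitAt z b) :
    UnitAt z (a * b) := by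
  obtain ⟨u, rfl⟩ := ha
  obtain ⟨v, rfl⟩ := hb
  exact ⟨u * v, by rw [Units.val_mul, map_mul]⟩

theorem UnitAt.inv {z : X} {a : X.functionField} (ha : UnitAt z a) : UnitAt z a⁻¹ := by
  obtain ⟨u, rfl⟩ := ha
  refine ⟨u⁻¹, ?_⟩
  apply eq_inv_of_mul_eq_one_left
  rw [← map_mul, ← Units.val_mul, inv_mul_cancel, Units.val_one, map_one]

theorem UnitAt.div {z : X} {a b : X.functionField} (ha : UnitAt z a) (hb : UnitAt z b) :
    UnitAt z (a / b) := by
  rw [div_eq_mul_inv]
  exact ha.mul hb.inv

theorem UnitAt.ne_zero {z : X} {a : X.functionField} (ha : UnitAt z a) : a ≠ 0 := by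
  obtain ⟨u, rfl⟩ := ha
  exact (u.isUnit.map (algebraMap (X.presheaf.stalk z) X.functionField)).ne_zero

/-- The pull back of rational functions along a dominant morphism, as a homomorphism of fields. -/
def fnPullbackHom (f : X ⟶ Y) (h : f (genericPoint X) ⤳ genericPoint Y) :
    Y.functionField →+* X.functionField :=
  (f.stalkMap (genericPoint X)).hom.comp (Y.presheaf.stalkSpecializes h).hom

theorem fnPullback_eq (f : X ⟶ Y) (h : f (genericPoint X) ⤳ genericPoint Y)
    (s : Y.functionField) : fnPullback f s = fnPullbackHom f h s := by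
  unfold fnPullback
  rw [dif_pos h]
  rfl

/-- A unit of the local ring at `f z` pulls back to a unit of the local ring at `z`. -/
theorem UnitAt.fnPullback (f : X ⟶ Y) (h : f (genericPoint X) ⤳ genericPoint Y) {z : X}
    {a : Y.functionField} (ha : UnitAt (f z) a) : UnitAt z (fnPullback f a) := by
  obtain ⟨u, rfl⟩ := ha
  refine ⟨Units.map (f.stalkMap z).hom.toMonoidHom u, ?_⟩
  unfold Claimed.Open.R001.fnPullback
  rw [dif_pos h]
  have hz : genericPoint X ⤳ z := (genericPoint_spec X).specializes trivial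
  have h1 := Scheme.Hom.stalkSpecializes_stalkMap_apply f (genericPoint X) z hz (u : Y.presheaf.stalk (f z))
  change X.presheaf.stalkSpecializes hz (f.stalkMap z u) = _
  rw [← h1]
  refine congrArg (f.stalkMap (genericPoint X)) ?_
  change _ = Y.presheaf.stalkSpecializes h (Y.presheaf.stalkSpecializes _ (u : Y.presheaf.stalk (f z)))
  rw [← ConcreteCategory.comp_apply, Y.presheaf.stalkSpecializes_comp]

end Units

/-! ### The Weil pairing depends on the divisor only, not on its presentation -/

/-- Two presentations of the same Cartier divisor: the local equations differ by units. -/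
def CartierDivisor.Same {X : Scheme.{0}} [IsIntegral X] (D D' : CartierDivisor X) : Prop :=
  ∀ x, UnitAt x (D.eq x / D'.eq x)

theorem CartierDivisor.Same.symm {X : Scheme.{0}} [IsIntegral X] {D D' : CartierDivisor X}
    (h : D.Same D') : D'.Same D := fun x => by
  have := (h x).inv
  rwa [inv_div] at this

section Weil

variable {k : Type} [Field k] (X : Over (Spec (CommRingCat.of k))) [GrpObj X] [IsIntegral X.left]

/-- **`IsWeilValue` depends on the divisor only** (`CLAIM.md`, deviation 8). -/
theorem IsWeilValue.congr {D D' : CartierDivisor X.left} (hD : D.Same D') {n : ℕ} {x y : Pts X k}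
    {c : k} (h : IsWeilValue X D n x y c) : IsWeilValue X D' n x y c := by
  obtain ⟨g, hg, hu, ht⟩ := h
  refine ⟨g, hg, fun z => ?_, ht⟩
  have hy : (translation X y).left (genericPoint X.left) ⤳ genericPoint X.left := by
    rw [translation_genericPoint]
  by_cases hn : (mulBy X n).left (genericPoint X.left) ⤳ genericPoint X.left
  · have h1 := (hD ((translation X y).left ((mulBy X n).left z))).fnPullback _ hy
    have h2 := hD ((mulBy X n).left z)
    have h3 := (h1.div h2).fnPullback _ hn
    have h4 := (hu z).mul h3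
    convert h4 using 1
    have a0 := D.ne_zero ((translation X y).left ((mulBy X n).left z))
    have a0' := D'.ne_zero ((translation X y).left ((mulBy X n).left z))
    have b0 := D.ne_zero ((mulBy X n).left z)
    have b0' := D'.ne_zero ((mulBy X n).left z)
    simp only [fnPullback_eq _ hn, fnPullback_eq _ hy, map_div₀]
    have A0 := (map_ne_zero (fnPullbackHom _ hn)).2 ((map_ne_zero (fnPullbackHom _ hy)).2 a0)
    have A0' := (map_ne_zero (fnPullbackHom _ hn)).2 ((map_ne_zero (fnPullbackHom _ hy)).2 a0')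
    have B0 := (map_ne_zero (fnPullbackHom _ hn)).2 b0
    have B0' := (map_ne_zero (fnPullbackHom _ hn)).2 b0'
    field_simp
  · exfalso
    have h1 := (hu z).ne_zero
    unfold fnPullback at h1
    rw [dif_neg hn, div_zero] at h1
    exact h1 rfl

theorem isWeilValue_congr_iff {D D' : CartierDivisor X.left} (hD : D.Same D') {n : ℕ}
    {x y : Pts X k} {c : k} : IsWeilValue X D n x y c ↔ IsWeilValue X D' n x y c :=
  ⟨fun h => h.congr X hD, fun h => h.congr X hD.symm⟩

end Weil

/-! ### So do the divisor classes -/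

section Classes

variable {p : ℕ} [Fact p.Prime] {K : Type} [Field K] [Algebra K ℂ_[p]] [Algebra K ℂ] {d : ℕ}
  {𝒜 : AbelianScheme p K d} {P : PeriodDatum 𝒜}

theorem IsEllChern.congr {ℓ : ℕ} [Fact ℓ.Prime] {D D' : CartierDivisor 𝒜.special.left}
    (hD : D.Same D') {c : P.Λ → P.Λ → ℤ_[ℓ]} (h : IsEllChern P ℓ D c) : IsEllChern P ℓ D' c := by
  intro n l m
  obtain ⟨x, y, ζ, hx, hy, hζ, hW⟩ := h n l m
  exact ⟨x, y, ζ, hx, hy, hζ, hW.congr _ hD⟩

theorem IsRiemannForm.congr {H H' : CartierDivisor 𝒜.generic.left} (hH : H.Same H')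
    {h : BettiClass P 2 1} (hh : IsRiemannForm H h) : IsRiemannForm H' h := by
  intro n hn l m
  obtain ⟨x, y, ζ, a, hx, hy, hζ, ha, hW⟩ := hh n hn l m
  exact ⟨x, y, ζ, a, hx, hy, hζ, ha, hW.congr _ hH⟩

omit [Algebra K ℂ] in
theorem IsRosatiRel.congr {H H' : CartierDivisor 𝒜.generic.left} (hH : H.Same H')
    {D D' : CartierDivisor 𝒜.special.left} (hD : D.Same D') {N : ℕ} {u : EndModP 𝒜}
    (h : IsRosatiRel H D N u) : IsRosatiRel H' D' N u := by
  intro n hn x y hx hy
  obtain ⟨y', b, c, c₀, h1, h2, h3, h4, h5, h6⟩ := h n hn x y hx hy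
  exact ⟨y', b, c, c₀, h1, h2, h3, h4.congr _ hH, h5.congr _ hD, h6⟩

theorem IsCrisChern.congr {D D' : CartierDivisor 𝒜.special.left} (hD : D.Same D')
    {c : P.HdR ℂ_[p] → P.HdR ℂ_[p] → ℂ_[p]} (h : IsCrisChern P D c) : IsCrisChern P D' c := by
  obtain ⟨H, hh, hp, N, u, T, h1, h2, h3, h4, h5, h6, h7⟩ := h
  exact ⟨H, hh, hp, N, u, T, h1, h2, h3, h4.congr (fun x => by
    rw [div_self (H.ne_zero x)]; exact unitAt_one x) hD, h5, h6, h7⟩

end Classes

/-! ### The points chosen inside `IsEllChern` are torsion points -/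

section Torsion

variable {p : ℕ} [Fact p.Prime] {K : Type} [Field K] [Algebra K ℂ_[p]] [Algebra K ℂ] {d : ℕ}
  {𝒜 : AbelianScheme p K d} (P : PeriodDatum 𝒜)

/-- `exp_A(l/n)` is killed by `n`. -/
theorem tors_pow (l : P.Λ) {n : ℕ} (hn : 0 < n) : P.tors l n ^ n = 1 := by
  unfold PeriodDatum.tors
  have h1 : n • ((n : ℂ)⁻¹ • l.1) = l.1 := by
    rw [← Nat.cast_smul_eq_nsmul ℂ, smul_smul, mul_inv_cancel₀ (by exact_mod_cast hn.ne'), one_smul]
  have h2 : P.exp.toFun l.1 = 0 := l.2
  rw [← MonObj.pow_comp, ← toMul_nsmul, ← map_nsmul, h1, h2, toMul_zero, MonObj.one_comp]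

omit [Algebra K ℂ] in
theorem gen_one : 𝒜.gen 1 = 1 := by
  have h := gen_mul 𝒜 1 1
  rw [_root_.mul_one] at h
  exact left_eq_mul.1 h

omit [Algebra K ℂ] in
theorem gen_pow (x : Pts 𝒜.X (Ow p K)) (N : ℕ) : 𝒜.gen (x ^ N) = 𝒜.gen x ^ N := by
  induction N with
  | zero => rw [pow_zero, pow_zero, gen_one]
  | succ N ih => rw [pow_succ, pow_succ, gen_mul, ih]

variable {P}

/-- An integral point whose generic fibre is `exp_A(l/n)` is killed by `n`. -/
theorem pow_eq_one_of_gen_eq_tors {x : Pts 𝒜.X (Ow p K)} {l : P.Λ} {n : ℕ} (hn : 0 < n)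
    (hx : (𝒜.gen x).map ℂ = P.tors l n) : x ^ n = 1 := by
  apply gen_injective 𝒜
  apply generic_map_injective 𝒜
  rw [gen_pow, gen_one]
  have h1 : (𝒜.gen x ^ n).map ℂ = (𝒜.gen x).map ℂ ^ n := MonObj.comp_pow _ _ _
  have h2 : (1 : Pts 𝒜.generic K).map ℂ = 1 := MonObj.comp_one _
  rw [h1, h2, hx, tors_pow P l hn]

end Torsion

/-! ### The universal vector extension is unique up to a unique isomorphism -/

section Universal

variable {K : Type} [Field K] {A : Over (Spec (CommRingCat.of K))} [GrpObj A]

/-- Two universal vector extensions of `A` are isomorphic, by a unique isomorphism of extensions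
(`CLAIM.md`, deviation 4). -/
theorem VectorExtension.IsUniversal.exists_iso {X Y : VectorExtension A} (hX : X.IsUniversal)
    (hY : Y.IsUniversal) :
    ∃ f : X.E ≅ Y.E, IsMonHom f.hom ∧ f.hom ≫ Y.π = X.π ∧
      ∀ f' : X.E ⟶ Y.E, IsMonHom f' → f' ≫ Y.π = X.π → f' = f.hom := by
  obtain ⟨f, ⟨hf1, hf2⟩, hfu⟩ := hX Y
  obtain ⟨g, ⟨hg1, hg2⟩, -⟩ := hY X
  obtain ⟨i, -, hiu⟩ := hX X
  obtain ⟨j, -, hju⟩ := hY Y
  have h1 : f ≫ g = 𝟙 _ :=
    (hiu (f ≫ g) ⟨inferInstance, by rw [Category.assoc, hg2, hf2]⟩).trans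
      (hiu (𝟙 _) ⟨inferInstance, Category.id_comp _⟩).symm
  have h2 : g ≫ f = 𝟙 _ :=
    (hju (g ≫ f) ⟨inferInstance, by rw [Category.assoc, hf2, hg2]⟩).trans
      (hju (𝟙 _) ⟨inferInstance, Category.id_comp _⟩).symm
  exact ⟨⟨f, g, h1, h2⟩, hf1, hf2, fun f' h3 h4 => hfu f' ⟨h3, h4⟩⟩

end Universal

end

end Claimed.Open.R001
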