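import Claimed.Open.R001.SanityAffineGroup

/-!
# Result 001: unit tests of the definitions of `Statement.lean` on the additive group

`𝔾_a = Spec K[X]` over a field `K`, with `Δ X = X ⊗ 1 + 1 ⊗ X`.

* `gaPt`, `gaPt_add`, `gaPt_zero`, `exists_gaPt`: `𝔾_a(L) = (L, +)`;
* `gaLieEquiv`: `Lie 𝔾_a L ≃ L`, so the Lie algebra is one dimensional (`finrank_lie_ga`);
* `gaExp`: a `ComplexExp 𝔾_a`, namely `v ↦ v(X)`; it is the only one (`gaExp_unique`) and its
  kernel is `0` (`gaExp_ker`);
* `hasLog_gaPt`: `HasLog` holds for every `y ∈ 𝔾_a(ℂ_p) = ℂ_p`, with `log y = y`;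
* `isBoundedSet_gaPt_image`: `IsBoundedSet` is boundedness of the coordinate; in particular
  `𝔾_a(𝒪_{ℂ_p})` is bounded and `𝔾_a(ℂ_p)` is not (`not_isBoundedSet_univ`).
-/

open CategoryTheory AlgebraicGeometry MonoidalCategory CartesianMonoidalCategory MonObj
open Filter Topology TensorProduct Polynomial

noncomputable section

namespace Claimed.Open.R001

section Ga

variable (K : Type) [Field K]

/-- The bialgebra of the additive group: `Δ X = X ⊗ 1 + 1 ⊗ X`, `ε X = 0`. -/
instance gaBialgebra : Bialgebra K K[X] :=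
  .ofAlgHom (aeval ((X : K[X]) ⊗ₜ[K] (1 : K[X]) + (1 : K[X]) ⊗ₜ[K] (X : K[X]))) (aeval (0 : K))
    (by
      ext
      simp [Algebra.TensorProduct.one_def, TensorProduct.add_tmul, TensorProduct.tmul_add]
      abel)
    (by ext; simp)
    (by ext; simp)

theorem ga_comul_X : Coalgebra.comul (R := K) (X : K[X]) = X ⊗ₜ[K] 1 + 1 ⊗ₜ[K] X :=
  aeval_X _

theorem ga_counit (a : K[X]) : Coalgebra.counit (R := K) a = a.coeff 0 := by
  show aeval (0 : K) a = _
  simp [aeval_def, eval₂_eq_eval_map, coeff_zero_eq_eval_zero]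

/-- The Hopf algebra of the additive group: `S X = - X`. -/
instance gaHopfAlgebra : HopfAlgebra K K[X] :=
  .ofAlgHom (aeval (-X : K[X]))
    (by
      apply Polynomial.algHom_ext
      simp only [AlgHom.comp_apply, Bialgebra.comulAlgHom_apply, ga_comul_X, map_add,
        Bialgebra.counitAlgHom_apply, ga_counit, coeff_X_zero, map_zero]
      erw [Algebra.TensorProduct.lift_tmul, Algebra.TensorProduct.lift_tmul]
      simp)
    (by ext; simp [ga_comul_X, ga_counit])

/-- The additive group `𝔾_a = Spec K[X]` over `K`. -/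
abbrev Ga : Over (Spec (CommRingCat.of K)) := specOver K K[X]

variable {K} {L : Type} [Field L] [Algebra K L]

/-- The point `t ∈ 𝔾_a(L) = L`. -/
def gaPt (t : L) : Pts (Ga K) L := specOverMap (aeval t)

theorem gaPt_add (s t : L) : gaPt (K := K) (s + t) = gaPt (K := K) s * gaPt (K := K) t := by
  unfold gaPt
  rw [specOverMap_mul]
  congr 1
  apply Polynomial.algHom_ext
  have h := AlgHom.convMul_apply (WithConv.toConv (aeval s : K[X] →ₐ[K] L))
    (WithConv.toConv (aeval t : K[X] →ₐ[K] L)) X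
  refine Eq.trans ?_ h.symm
  rw [ga_comul_X, map_add, Algebra.TensorProduct.lift_tmul, Algebra.TensorProduct.lift_tmul]
  simp

theorem gaPt_zero : gaPt (K := K) (0 : L) = 1 := by
  unfold gaPt
  rw [← specOverMap_unitHom]
  congr 1
  apply Polynomial.algHom_ext
  simp [unitHom, ga_counit]

theorem gaPt_pow (t : L) (n : ℕ) : gaPt (K := K) t ^ n = gaPt (K := K) ((n : L) * t) := by
  induction n with
  | zero => simp [gaPt_zero]
  | succ n ih => rw [pow_succ, ih, ← gaPt_add]; congr 1; push_cast; ring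

theorem exists_gaPt (x : Pts (Ga K) L) : ∃ t : L, x = gaPt t := by
  obtain ⟨φ, rfl⟩ := exists_specOverMap x
  refine ⟨φ X, ?_⟩
  unfold gaPt
  congr 1
  apply Polynomial.algHom_ext
  simp

theorem gaPt_injective : Function.Injective (gaPt (K := K) (L := L)) := by
  intro s t h
  have h1 := evalAt_top (aeval s : K[X] →ₐ[K] L).toRingHom X
  have h2 := evalAt_top (aeval t : K[X] →ₐ[K] L).toRingHom X
  have h3 : (gaPt (K := K) s).left = (gaPt (K := K) t).left := by rw [h]
  unfold gaPt at h3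
  rw [specOverMap_left, specOverMap_left] at h3
  rw [h3, h2] at h1
  simpa using h1.symm

/-! ### The Lie algebra -/

theorem lieD_ga (v : Lie (Ga K) L) (r : K[X]) :
    lieD v r = algebraMap K L (r.coeff 1) * lieD v X := by
  induction r using Polynomial.induction_on with
  | C a =>
    have h : lieD v (C a) = 0 := lieD_algebraMap v a
    rw [h, coeff_C_succ, map_zero, zero_mul]
  | add r s hr hs => rw [lieD_add, hr, hs, coeff_add, map_add, add_mul]
  | monomial n a _ =>
    rw [pow_succ, ← _root_.mul_assoc, lieD_mul, ga_counit, ga_counit, coeff_X_zero, map_zero,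
      zero_mul, add_zero, coeff_mul_X]

/-- The tangent vector `c ∂/∂X` of `𝔾_a` at `0`. -/
def gaLie (c : L) : Lie (Ga K) L :=
  lieOfDeriv (fun r : K[X] => algebraMap K L (r.coeff 1) * c)
    (fun r s => by rw [coeff_add, map_add, add_mul])
    (fun r s => by
      rw [ga_counit, ga_counit, mul_coeff_one, map_add, map_mul, map_mul]
      ring)
    (fun a => by
      have : (algebraMap K K[X] a).coeff 1 = 0 := coeff_C_succ
      rw [this, map_zero, zero_mul])

theorem lieD_gaLie (c : L) : lieD (gaLie (K := K) c) X = c := by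
  unfold gaLie
  rw [lieD_lieOfDeriv]
  simp

/-- `Lie 𝔾_a L = L`, by `v ↦ v(X)`. -/
def gaLieEquiv : Lie (Ga K) L ≃ₗ[L] L where
  toFun v := lieD v X
  map_add' _ _ := rfl
  map_smul' _ _ := rfl
  invFun c := gaLie c
  left_inv v := by
    apply lie_ext
    intro r
    rw [lieD_ga, lieD_ga v, lieD_gaLie]
  right_inv c := lieD_gaLie c

/-- The Lie algebra of `𝔾_a` is one dimensional. -/
theorem finrank_lie_ga : Module.finrank L (Lie (Ga K) L) = 1 := by
  rw [(gaLieEquiv (K := K) (L := L)).finrank_eq, Module.finrank_self]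

end Ga

/-! ### Exponential, logarithm, bounded sets -/

section GaAnalytic

variable {K : Type} [Field K] {L : Type} [NormedField L] [Algebra K L]

theorem aeval_zero_eq (r : K[X]) : aeval (0 : L) r = algebraMap K L (r.coeff 0) := by
  rw [← map_zero (algebraMap K L), aeval_algebraMap_apply, coeff_zero_eq_eval_zero,
    Polynomial.coe_aeval_eq_eval]

theorem tendsto_aeval (r : K[X]) {t : ℕ → L} (ht : Tendsto t atTop (𝓝 0)) :
    Tendsto (fun n => aeval (t n) r) atTop (𝓝 (algebraMap K L (r.coeff 0))) := by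
  rw [← aeval_zero_eq]
  exact ((Polynomial.continuous_aeval r).tendsto 0).comp ht

/-- If `t_n → 0` and `s_n t_n = v(X)`, then `s_n (f(t_n) - f(0)) → v(f)` for each regular function
`f` defined near `0 ∈ 𝔾_a`. -/
theorem tendsto_ga (v : Lie (Ga K) L) (t s : ℕ → L) (ht : Tendsto t atTop (𝓝 0))
    (hst : ∀ᶠ n in atTop, s n * t n = lieD v X)
    (U : (Ga K).left.Opens) (h : idPt (Ga K) ∈ U) (f : Γ((Ga K).left, U)) :
    Tendsto (fun n => s n * (evalAt (gaPt (K := K) (t n)).left U f -
      evalAt (1 : Pts (Ga K) L).left U f)) atTop (𝓝 (Lie.d v U h f)) := by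
  apply tendsto_evalAt v (fun n => aeval (t n)) s
  · intro r
    rw [ga_counit]
    exact tendsto_aeval r ht
  · intro r
    rw [ga_counit, lieD_ga]
    have h1 : Tendsto (fun n => aeval (t n) r.divX * lieD v X) atTop
        (𝓝 (algebraMap K L (r.coeff 1) * lieD v X)) := by
      have := tendsto_aeval (K := K) r.divX ht
      rw [coeff_divX] at this
      exact this.mul_const _
    refine h1.congr' ?_
    filter_upwards [hst] with n hn
    have h2 : aeval (t n) r = aeval (t n) r.divX * t n + algebraMap K L (r.coeff 0) := by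
      conv_lhs => rw [← divX_mul_X_add r]
      simp
    rw [h2, ← hn]
    ring

/-- A set of points of `𝔾_a` is bounded if and only if the coordinate is bounded on it. -/
theorem isBoundedSet_gaPt_image (T : Set L) :
    IsBoundedSet (Ga K) (gaPt (K := K) '' T) ↔ ∃ C : ℝ, ∀ t ∈ T, ‖t‖ ≤ C := by
  rw [isBoundedSet_iff]
  constructor
  · intro h
    obtain ⟨C, hC⟩ := h X
    refine ⟨C, fun t ht => ?_⟩
    simpa using hC (aeval t) ⟨t, ht, rfl⟩
  · rintro ⟨C, hC⟩ r
    have key : ∃ C' : ℝ, ∀ t ∈ T, ‖aeval t r‖ ≤ C' := by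
      induction r using Polynomial.induction_on with
      | C a => exact ⟨‖algebraMap K L a‖, fun t _ => by simp⟩
      | add r s hr hs =>
        obtain ⟨C1, h1⟩ := hr
        obtain ⟨C2, h2⟩ := hs
        refine ⟨C1 + C2, fun t ht => ?_⟩
        rw [map_add]
        exact (norm_add_le _ _).trans (add_le_add (h1 t ht) (h2 t ht))
      | monomial n a ih =>
        obtain ⟨C1, h1⟩ := ih
        refine ⟨C1 * C, fun t ht => ?_⟩
        rw [pow_succ, ← _root_.mul_assoc, map_mul, aeval_X, norm_mul]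
        exact mul_le_mul (h1 t ht) (hC t ht) (norm_nonneg _) ((norm_nonneg _).trans (h1 t ht))
    obtain ⟨C', hC'⟩ := key
    refine ⟨C', fun φ hφ => ?_⟩
    obtain ⟨t, ht, hφt⟩ := hφ
    have h1 : (aeval t : K[X] →ₐ[K] L) = φ := by
      have h2 := evalAt_top (aeval t : K[X] →ₐ[K] L).toRingHom
      have h3 := evalAt_top φ.toRingHom
      have h4 : (gaPt (K := K) t).left = (specOverMap φ : Pts (Ga K) L).left := by rw [hφt]
      unfold gaPt at h4
      rw [specOverMap_left, specOverMap_left] at h4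
      ext
      have h5 := h2 X
      rw [h4, h3 X] at h5
      exact h5.symm
    rw [← h1]
    exact hC' t ht

end GaAnalytic

section GaComplex

variable {K : Type} [Field K] [Algebra K ℂ]

/-- The exponential map of `𝔾_a(ℂ) = ℂ`: the identity, `v ↦ v(X)`. -/
def gaExp : ComplexExp (Ga K) where
  toFun :=
    { toFun := fun v => Additive.ofMul (gaPt (lieD v X))
      map_zero' := by
        have : lieD (0 : Lie (Ga K) ℂ) X = 0 := rfl
        rw [this, gaPt_zero]
        rfl
      map_add' := fun v w => by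
        have : lieD (v + w) X = lieD v X + lieD w X := rfl
        rw [this, gaPt_add]
        rfl }
  deriv := by
    intro v U h f
    refine tendsto_ga v (fun n : ℕ => (n : ℂ)⁻¹ * lieD v X) (fun n : ℕ => (n : ℂ)) ?_ ?_ U h f
    · have h1 : Tendsto (fun n : ℕ => (n : ℂ)⁻¹) atTop (𝓝 0) :=
        tendsto_inv_atTop_nhds_zero_nat (𝕜 := ℂ)
      simpa using h1.mul_const (lieD v X)
    · filter_upwards [eventually_ne_atTop 0] with n hn
      have : (n : ℂ) ≠ 0 := by exact_mod_cast hn
      field_simp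

/-- The kernel of the exponential of `𝔾_a` is trivial: `H_1(𝔾_a(ℂ), ℤ) = 0`. -/
theorem gaExp_ker : (gaExp (K := K)).toFun.ker = ⊥ := by
  rw [eq_bot_iff]
  intro v hv
  have h1 : gaPt (K := K) (lieD v X) = gaPt (K := K) (0 : ℂ) := by
    rw [gaPt_zero]
    exact hv
  have h2 : gaLieEquiv (K := K) v = 0 := gaPt_injective h1
  exact (gaLieEquiv (K := K) (L := ℂ)).map_eq_zero_iff.1 h2

/-- The coordinate of a point of `𝔾_a`. -/
def gaCoord {L : Type} [Field L] [Algebra K L] (x : Pts (Ga K) L) : L :=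
  evalAt x.left ⊤ ((Scheme.ΓSpecIso (CommRingCat.of K[X])).inv X)

omit [Algebra K ℂ] in
theorem gaCoord_gaPt {L : Type} [Field L] [Algebra K L] (t : L) :
    gaCoord (gaPt (K := K) t) = t := by
  have h := evalAt_top (aeval t : K[X] →ₐ[K] L).toRingHom X
  simp only [AlgHom.toRingHom_eq_coe, RingHom.coe_coe, aeval_X] at h
  exact h

omit [Algebra K ℂ] in
theorem gaPt_gaCoord {L : Type} [Field L] [Algebra K L] (x : Pts (Ga K) L) :
    gaPt (gaCoord x) = x := by
  obtain ⟨t, rfl⟩ := exists_gaPt x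
  rw [gaCoord_gaPt]

omit [Algebra K ℂ] in
theorem gaCoord_mul {L : Type} [Field L] [Algebra K L] (x y : Pts (Ga K) L) :
    gaCoord (x * y) = gaCoord x + gaCoord y := by
  obtain ⟨s, rfl⟩ := exists_gaPt x
  obtain ⟨t, rfl⟩ := exists_gaPt y
  rw [← gaPt_add, gaCoord_gaPt, gaCoord_gaPt, gaCoord_gaPt]

/-- `ComplexExp` pins the exponential map: on `𝔾_a` there is only one. -/
theorem gaExp_unique (E : ComplexExp (Ga K)) : E.toFun = (gaExp (K := K)).toFun := by
  ext v
  let g : Lie (Ga K) ℂ →+ ℂ :=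
    { toFun := fun w => gaCoord (E.toFun w).toMul
      map_zero' := by
        rw [map_zero]
        show gaCoord (1 : Pts (Ga K) ℂ) = 0
        rw [← gaPt_zero, gaCoord_gaPt]
      map_add' := fun a b => by
        rw [map_add]
        exact gaCoord_mul _ _ }
  have h1 := E.deriv v ⊤ trivial ((Scheme.ΓSpecIso (CommRingCat.of K[X])).inv X)
  have h2 : (fun n : ℕ => (n : ℂ) *
      (evalAt (E.toFun ((n : ℂ)⁻¹ • v)).toMul.left ⊤
          ((Scheme.ΓSpecIso (CommRingCat.of K[X])).inv X) -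
        evalAt (1 : Pts (Ga K) ℂ).left ⊤ ((Scheme.ΓSpecIso (CommRingCat.of K[X])).inv X)))
      =ᶠ[atTop] fun _ => g v := by
    filter_upwards [eventually_ne_atTop 0] with n hn
    have hn' : (n : ℂ) ≠ 0 := by exact_mod_cast hn
    have e1 : evalAt (1 : Pts (Ga K) ℂ).left ⊤
        ((Scheme.ΓSpecIso (CommRingCat.of K[X])).inv X) = 0 := by
      show gaCoord (1 : Pts (Ga K) ℂ) = 0
      rw [← gaPt_zero, gaCoord_gaPt]
    have e2 : g v = (n : ℂ) * g ((n : ℂ)⁻¹ • v) := by
      have : v = n • ((n : ℂ)⁻¹ • v) := by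
        rw [← Nat.cast_smul_eq_nsmul ℂ, smul_smul, mul_inv_cancel₀ hn', one_smul]
      conv_lhs => rw [this, map_nsmul]
      simp
    rw [e1, sub_zero, e2]
    rfl
  have h3 : g v = Lie.d v ⊤ trivial ((Scheme.ΓSpecIso (CommRingCat.of K[X])).inv X) :=
    tendsto_nhds_unique (tendsto_const_nhds.congr' h2.symm) h1
  have h4 : gaPt (K := K) (g v) = gaPt (K := K) (lieD v X) := by
    rw [h3]
    rfl
  have h5 : (E.toFun v).toMul = gaPt (K := K) (lieD v X) := by
    rw [← h4]
    exact (gaPt_gaCoord _).symm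
  exact congr(($h5).left)

end GaComplex

section GaPadic

variable (p : ℕ) [Fact p.Prime]

theorem norm_p_padicComplex : ‖(p : ℂ_[p])‖ = (p : ℝ)⁻¹ := by
  have h := PadicComplex.norm_extends' p (p : ℚ_[p])
  rw [Padic.norm_p] at h
  rw [← h]
  congr 1
  simp

theorem tendsto_factorial_padicComplex :
    Tendsto (fun n : ℕ => ((n.factorial : ℕ) : ℂ_[p])) atTop (𝓝 0) := by
  rw [tendsto_zero_iff_norm_tendsto_zero, Metric.tendsto_atTop]
  intro ε hε
  have hp1 : (p : ℝ)⁻¹ < 1 := inv_lt_one_of_one_lt₀ (by exact_mod_cast (Fact.out : p.Prime).one_lt)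
  obtain ⟨k, hk⟩ := exists_pow_lt_of_lt_one hε hp1
  refine ⟨p ^ k, fun n hn => ?_⟩
  obtain ⟨m, hm⟩ : p ^ k ∣ n.factorial :=
    Nat.dvd_factorial (pow_pos (Fact.out : p.Prime).pos k) hn
  rw [Real.dist_eq, sub_zero, abs_norm, hm]
  push_cast
  rw [norm_mul, norm_pow, norm_p_padicComplex]
  calc (p : ℝ)⁻¹ ^ k * ‖(m : ℂ_[p])‖ ≤ (p : ℝ)⁻¹ ^ k * 1 := by
        gcongr
        exact IsUltrametricDist.norm_natCast_le_one ℂ_[p] m
    _ < ε := by rwa [_root_.mul_one]

variable {K : Type} [Field K] [Algebra K ℂ_[p]]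

/-- Each `y ∈ 𝔾_a(ℂ_p) = ℂ_p` has a logarithm in the sense of `HasLog`, namely `y ∂/∂X`. -/
theorem hasLog_gaPt (y : ℂ_[p]) : HasLog (Ga K) p (gaPt y) (gaLie y) := by
  intro U h f
  have h1 := tendsto_ga (gaLie (K := K) y) (fun n : ℕ => ((n.factorial : ℕ) : ℂ_[p]) * y)
    (fun n : ℕ => ((n.factorial : ℕ) : ℂ_[p])⁻¹)
    (by simpa using (tendsto_factorial_padicComplex p).mul_const y)
    (Eventually.of_forall fun n => by
      have : ((n.factorial : ℕ) : ℂ_[p]) ≠ 0 := by exact_mod_cast n.factorial_ne_zero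
      rw [lieD_gaLie]
      field_simp) U h f
  simpa only [gaPt_pow] using h1

/-- `𝔾_a(𝒪_{ℂ_p})` is bounded. -/
theorem isBoundedSet_integers :
    IsBoundedSet (Ga K) (gaPt (K := K) '' {t : ℂ_[p] | ‖t‖ ≤ 1}) :=
  (isBoundedSet_gaPt_image _).2 ⟨1, fun _ ht => ht⟩

/-- `𝔾_a(ℂ_p)` is not bounded. -/
theorem not_isBoundedSet_univ : ¬ IsBoundedSet (Ga K) (Set.univ : Set (Pts (Ga K) ℂ_[p])) := by
  intro h
  have h1 : (Set.univ : Set (Pts (Ga K) ℂ_[p])) = gaPt (K := K) '' Set.univ := by
    symm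
    rw [Set.image_univ, Set.range_eq_univ]
    intro x
    obtain ⟨t, rfl⟩ := exists_gaPt x
    exact ⟨t, rfl⟩
  rw [h1, isBoundedSet_gaPt_image] at h
  obtain ⟨C, hC⟩ := h
  obtain ⟨t, ht⟩ := NormedField.exists_lt_norm ℂ_[p] C
  exact absurd (hC t trivial) (not_le.2 ht)

end GaPadic

end Claimed.Open.R001
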