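import Claimed.Open.R001.SanityGa

/-!
# Result 001: unit tests of the definitions of `Statement.lean` on the multiplicative group

`𝔾_m = Spec K[T, T⁻¹]` over a field `K`, with Mathlib's Hopf algebra structure (`Δ T = T ⊗ T`).
On `𝔾_a` (`SanityGa.lean`) the exponential is injective; `𝔾_m` is the first group on which the
kernel of the exponential, which `Statement.lean` uses as the first Betti homology
(`PeriodDatum.Λ`), is not zero.

* `gmPt`, `gmPt_mul`, `gmPt_one`, `exists_gmPt`, `gmPt_injective`: `𝔾_m(L) = Lˣ`;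
* `gmLieEquiv`: `Lie 𝔾_m L ≃ L`, `v ↦ v(T)`, so the Lie algebra is one dimensional
  (`finrank_lie_gm`);
* `gmExp`: a `ComplexExp 𝔾_m`, namely `c T ∂/∂T ↦ exp c`; it is the only one (`gmExp_unique`);
* `gmExp_ker`: its kernel is exactly `2πi ℤ`, with `2πi ≠ 0` (`gmLie_two_pi_I_ne_zero`): the
  definition `H_1 = ker exp` gives `H_1(ℂˣ, ℤ) = ℤ(1) = 2πi ℤ ⊂ ℂ`, the period of `dT / T`;
* `hasLog_gmPt_iff`: `HasLog` on `𝔾_m(ℂ_p)` is the classical formula
  `log y = lim_n (y^{n!} - 1) / n!`; roots of unity have logarithm `0`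
  (`hasLog_gmPt_of_pow_eq_one`), and the point `p` has no logarithm (`not_hasLog_gmPt_p`).
-/

open CategoryTheory AlgebraicGeometry MonoidalCategory CartesianMonoidalCategory MonObj
open Filter Topology TensorProduct LaurentPolynomial

noncomputable section

namespace Claimed.Open.R001

section Gm

variable (K : Type) [Field K]

/-- The multiplicative group `𝔾_m = Spec K[T, T⁻¹]` over `K` (Mathlib's Hopf algebra structure on
the Laurent polynomials: `Δ T = T ⊗ T`, `ε T = 1`, `S T = T⁻¹`). -/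
abbrev Gm : Over (Spec (CommRingCat.of K)) := specOver K K[T;T⁻¹]

variable {K} {L : Type} [Field L] [Algebra K L]

/-- The homomorphism of `K`-algebras `K[T, T⁻¹] → L`, `T ↦ t`, for `t ∈ Lˣ`. -/
def gmHom (t : Lˣ) : K[T;T⁻¹] →ₐ[K] L :=
  { LaurentPolynomial.eval₂ (algebraMap K L) t with
    commutes' := fun a => by
      rw [← LaurentPolynomial.C_eq_algebraMap]
      exact LaurentPolynomial.eval₂_C _ _ a }

theorem gmHom_T (t : Lˣ) (n : ℤ) : gmHom (K := K) t (T n) = ((t ^ n : Lˣ) : L) :=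
  LaurentPolynomial.eval₂_T _ _ n

theorem gmHom_C (t : Lˣ) (a : K) : gmHom (K := K) t (C a) = algebraMap K L a :=
  LaurentPolynomial.eval₂_C _ _ a

/-- A homomorphism of `K`-algebras on `K[T, T⁻¹]` is determined by the image of `T`. -/
theorem gm_algHom_ext {φ ψ : K[T;T⁻¹] →ₐ[K] L} (h : φ (T 1) = ψ (T 1)) : φ = ψ := by
  have hinv : ∀ χ : K[T;T⁻¹] →ₐ[K] L, χ (T 1) * χ (T (-1)) = 1 := fun χ => by
    rw [← map_mul, ← T_add]; simp
  have hm : φ (T (-1)) = ψ (T (-1)) := by
    have h1 := hinv φ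
    have h2 := hinv ψ
    rw [h] at h1
    have h0 : ψ (T 1) ≠ 0 := left_ne_zero_of_mul_eq_one h2
    exact mul_left_cancel₀ h0 (h1.trans h2.symm)
  have hT : ∀ n : ℤ, φ (T n) = ψ (T n) := by
    intro n
    induction n using Int.induction_on with
    | zero => simp
    | succ n ih => rw [T_add, map_mul, map_mul, ih, h]
    | pred n ih => rw [sub_eq_add_neg, T_add, map_mul, map_mul, ih, hm]
  apply AlgHom.ext
  intro r
  induction r using LaurentPolynomial.induction_on' with
  | add p q hp hq => rw [map_add, map_add, hp, hq]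
  | C_mul_T n a =>
    rw [map_mul, map_mul, hT, LaurentPolynomial.C_eq_algebraMap, AlgHom.commutes, AlgHom.commutes]

/-- The point `t ∈ 𝔾_m(L) = Lˣ`. -/
def gmPt (t : Lˣ) : Pts (Gm K) L := specOverMap (gmHom t)

theorem gmPt_mul (s t : Lˣ) : gmPt (K := K) (s * t) = gmPt (K := K) s * gmPt (K := K) t := by
  unfold gmPt
  rw [specOverMap_mul]
  congr 1
  apply gm_algHom_ext
  have h := AlgHom.convMul_apply (WithConv.toConv (gmHom s : K[T;T⁻¹] →ₐ[K] L))
    (WithConv.toConv (gmHom t : K[T;T⁻¹] →ₐ[K] L)) (T 1)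
  refine Eq.trans ?_ h.symm
  rw [LaurentPolynomial.comul_T, Algebra.TensorProduct.lift_tmul]
  simp [gmHom_T]

theorem gmPt_one : gmPt (K := K) (1 : Lˣ) = 1 := by
  unfold gmPt
  rw [← specOverMap_unitHom]
  congr 1
  apply gm_algHom_ext
  simp [unitHom, gmHom_T]

theorem gmPt_pow (t : Lˣ) (n : ℕ) : gmPt (K := K) t ^ n = gmPt (K := K) (t ^ n) := by
  induction n with
  | zero => simp [gmPt_one]
  | succ n ih => rw [pow_succ, ih, ← gmPt_mul, pow_succ]

theorem exists_gmPt (x : Pts (Gm K) L) : ∃ t : Lˣ, x = gmPt t := by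
  obtain ⟨φ, rfl⟩ := exists_specOverMap x
  have h1 : φ (T 1) * φ (T (-1)) = 1 := by
    rw [← map_mul, ← T_add]; simp
  refine ⟨Units.mkOfMulEqOne _ _ h1, ?_⟩
  unfold gmPt
  congr 1
  apply gm_algHom_ext
  simp [gmHom_T]

/-- The coordinate `T` of a point of `𝔾_m`. -/
def gmCoord (x : Pts (Gm K) L) : L :=
  evalAt x.left ⊤ ((Scheme.ΓSpecIso (CommRingCat.of K[T;T⁻¹])).inv (T 1))

theorem gmCoord_gmPt (t : Lˣ) : gmCoord (gmPt (K := K) t) = t := by
  have h := evalAt_top (gmHom t : K[T;T⁻¹] →ₐ[K] L).toRingHom (T 1)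
  simp only [AlgHom.toRingHom_eq_coe, RingHom.coe_coe, gmHom_T, zpow_one] at h
  exact h

theorem gmPt_injective : Function.Injective (gmPt (K := K) (L := L)) := by
  intro s t h
  have h1 := congr(gmCoord $h)
  rw [gmCoord_gmPt, gmCoord_gmPt] at h1
  exact Units.ext h1

theorem gmCoord_mul (x y : Pts (Gm K) L) : gmCoord (x * y) = gmCoord x * gmCoord y := by
  obtain ⟨s, rfl⟩ := exists_gmPt x
  obtain ⟨t, rfl⟩ := exists_gmPt y
  rw [← gmPt_mul, gmCoord_gmPt, gmCoord_gmPt, gmCoord_gmPt, Units.val_mul]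

theorem gmCoord_one : gmCoord (1 : Pts (Gm K) L) = 1 := by
  rw [← gmPt_one, gmCoord_gmPt, Units.val_one]

/-! ### The Lie algebra -/

theorem lieD_one (v : Lie (Gm K) L) : lieD v (1 : K[T;T⁻¹]) = 0 := by
  have h := lieD_algebraMap v (1 : K)
  rwa [map_one] at h

theorem lieD_gm_T (v : Lie (Gm K) L) (n : ℤ) : lieD v (T n) = (n : L) * lieD v (T 1) := by
  have hm : lieD v (T (-1)) = - lieD v (T 1) := by
    have h := lieD_mul v (T 1) (T (-1))
    rw [← T_add, add_neg_cancel, T_zero, lieD_one, LaurentPolynomial.counit_T,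
      LaurentPolynomial.counit_T, map_one, _root_.one_mul, _root_.one_mul] at h
    exact eq_neg_of_add_eq_zero_left h.symm
  induction n using Int.induction_on with
  | zero => simp [lieD_one]
  | succ n ih =>
    rw [T_add, lieD_mul, ih, LaurentPolynomial.counit_T, LaurentPolynomial.counit_T, map_one]
    push_cast
    ring
  | pred n ih =>
    rw [sub_eq_add_neg, T_add, lieD_mul, ih, hm, LaurentPolynomial.counit_T,
      LaurentPolynomial.counit_T, map_one]
    push_cast
    ring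

theorem lieD_gm_C_mul_T (v : Lie (Gm K) L) (a : K) (n : ℤ) :
    lieD v (C a * T n) = algebraMap K L a * ((n : L) * lieD v (T 1)) := by
  have h : lieD v (C a) = 0 := by
    rw [LaurentPolynomial.C_eq_algebraMap]; exact lieD_algebraMap v a
  rw [lieD_mul, h, lieD_gm_T, LaurentPolynomial.counit_T, LaurentPolynomial.counit_C]
  simp

/-- A tangent vector of `𝔾_m` at `1` is determined by its value on the coordinate `T`. -/
theorem lie_gm_ext {v w : Lie (Gm K) L} (h : lieD v (T 1) = lieD w (T 1)) : v = w := by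
  apply lie_ext
  intro r
  induction r using LaurentPolynomial.induction_on' with
  | add p q hp hq => rw [lieD_add, lieD_add, hp, hq]
  | C_mul_T n a => rw [lieD_gm_C_mul_T, lieD_gm_C_mul_T, h]

/-- The unit `1 + c ε` of the dual numbers `L[ε]`. -/
def gmDualUnit (c : L) : (TrivSqZeroExt L L)ˣ :=
  Units.mkOfMulEqOne (TrivSqZeroExt.inl 1 + TrivSqZeroExt.inr c)
    (TrivSqZeroExt.inl 1 - TrivSqZeroExt.inr c) (by ext <;> simp)

/-- The point `1 + c ε` of `𝔾_m` with values in the dual numbers. -/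
def gmDual (c : L) : K[T;T⁻¹] →+* TrivSqZeroExt L L :=
  LaurentPolynomial.eval₂ ((TrivSqZeroExt.inlHom L L).comp (algebraMap K L)) (gmDualUnit c)

theorem fst_gmDualUnit_zpow (c : L) (n : ℤ) :
    (((gmDualUnit c) ^ n : (TrivSqZeroExt L L)ˣ) : TrivSqZeroExt L L).fst = 1 := by
  have h : (Units.map (TrivSqZeroExt.fstHom L L L).toRingHom.toMonoidHom) (gmDualUnit c) = 1 := by
    ext; simp [gmDualUnit]
  have h2 := congr(($h) ^ n)
  rw [← map_zpow, one_zpow] at h2
  exact congr((($h2 : Lˣ) : L))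

theorem fst_gmDual (c : L) (r : K[T;T⁻¹]) :
    (gmDual (K := K) c r).fst = algebraMap K L (Coalgebra.counit r) := by
  induction r using LaurentPolynomial.induction_on' with
  | add p q hp hq => rw [map_add, TrivSqZeroExt.fst_add, hp, hq, map_add, map_add]
  | C_mul_T n a =>
    unfold gmDual
    rw [LaurentPolynomial.eval₂_C_mul_T, TrivSqZeroExt.fst_mul, fst_gmDualUnit_zpow,
      LaurentPolynomial.counit_C_mul_T]
    simp

/-- The tangent vector `c T ∂/∂T` of `𝔾_m` at `1`. -/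
def gmLie (c : L) : Lie (Gm K) L :=
  lieOfDeriv (fun r : K[T;T⁻¹] => (gmDual (K := K) c r).snd)
    (fun r s => by rw [map_add, TrivSqZeroExt.snd_add])
    (fun r s => by
      rw [map_mul, TrivSqZeroExt.snd_mul, fst_gmDual, fst_gmDual]
      simp [_root_.mul_comm])
    (fun a => by
      rw [← LaurentPolynomial.C_eq_algebraMap]
      unfold gmDual
      rw [LaurentPolynomial.eval₂_C]
      simp)

theorem lieD_gmLie (c : L) : lieD (gmLie (K := K) c) (T 1) = c := by
  unfold gmLie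
  rw [lieD_lieOfDeriv]
  unfold gmDual
  rw [LaurentPolynomial.eval₂_T, zpow_one]
  simp [gmDualUnit]

/-- `Lie 𝔾_m L = L`, by `v ↦ v(T)`. -/
def gmLieEquiv : Lie (Gm K) L ≃ₗ[L] L where
  toFun v := lieD v (T 1)
  map_add' _ _ := rfl
  map_smul' _ _ := rfl
  invFun c := gmLie c
  left_inv _ := lie_gm_ext (lieD_gmLie _)
  right_inv c := lieD_gmLie c

/-- The Lie algebra of `𝔾_m` is one dimensional. -/
theorem finrank_lie_gm : Module.finrank L (Lie (Gm K) L) = 1 := by
  rw [(gmLieEquiv (K := K) (L := L)).finrank_eq, Module.finrank_self]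

end Gm

/-! ### Exponential and logarithm -/

section GmAnalytic

variable {K : Type} [Field K] {L : Type} [NormedField L] [Algebra K L]

/-- If `t_n → 1` and `s_n (t_n - 1) → ℓ`, then `s_n (t_n ^ k - 1) → k ℓ` for each `k ∈ ℤ`. -/
theorem tendsto_zpow_sub_one (t s : ℕ → L) (l : L) (h0 : ∀ n, t n ≠ 0)
    (ht : Tendsto t atTop (𝓝 1)) (hst : Tendsto (fun n => s n * (t n - 1)) atTop (𝓝 l)) (k : ℤ) :
    Tendsto (fun n => s n * (t n ^ k - 1)) atTop (𝓝 ((k : L) * l)) := by
  have hz : ∀ j : ℤ, Tendsto (fun n => t n ^ j) atTop (𝓝 1) := fun j => by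
    have := ht.zpow₀ j (Or.inl one_ne_zero)
    simpa using this
  induction k using Int.induction_on with
  | zero => simp
  | succ k ih =>
    have h1 := ((hz k).mul hst).add ih
    have e : (1 : L) * l + ((k : ℤ) : L) * l = (((k : ℤ) + 1 : ℤ) : L) * l := by push_cast; ring
    rw [e] at h1
    refine h1.congr fun n => ?_
    rw [zpow_add_one₀ (h0 n)]
    ring
  | pred k ih =>
    have h1 := ih.sub ((hz (-(k : ℤ) - 1)).mul hst)
    have e : ((-(k : ℤ) : ℤ) : L) * l - 1 * l = ((-(k : ℤ) - 1 : ℤ) : L) * l := by push_cast; ring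
    rw [e] at h1
    refine h1.congr fun n => ?_
    have e2 : t n ^ (-(k : ℤ)) = t n ^ (-(k : ℤ) - 1) * t n := by
      rw [← zpow_add_one₀ (h0 n)]; congr 1; ring
    rw [e2]
    ring

/-- If `t_n → 1` in `Lˣ` and `s_n (t_n - 1) → v(T)`, then `s_n (f(t_n) - f(1)) → v(f)` for each
regular function `f` defined near `1 ∈ 𝔾_m`. -/
theorem tendsto_gm (v : Lie (Gm K) L) (t : ℕ → Lˣ) (s : ℕ → L)
    (ht : Tendsto (fun n => (t n : L)) atTop (𝓝 1))
    (hst : Tendsto (fun n => s n * ((t n : L) - 1)) atTop (𝓝 (lieD v (T 1))))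
    (U : (Gm K).left.Opens) (h : idPt (Gm K) ∈ U) (f : Γ((Gm K).left, U)) :
    Tendsto (fun n => s n * (evalAt (gmPt (K := K) (t n)).left U f -
      evalAt (1 : Pts (Gm K) L).left U f)) atTop (𝓝 (Lie.d v U h f)) := by
  apply tendsto_evalAt v (fun n => gmHom (t n)) s
  · intro r
    induction r using LaurentPolynomial.induction_on' with
    | add p q hp hq =>
      simp only [map_add]
      exact hp.add hq
    | C_mul_T k a =>
      simp only [map_mul, gmHom_C, gmHom_T, LaurentPolynomial.counit_C_mul_T, Units.val_zpow_eq_zpow_val]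
      have := (ht.zpow₀ k (Or.inl one_ne_zero)).const_mul (algebraMap K L a)
      simpa using this
  · intro r
    induction r using LaurentPolynomial.induction_on' with
    | add p q hp hq =>
      rw [lieD_add]
      refine (hp.add hq).congr fun n => ?_
      simp only [map_add]
      ring
    | C_mul_T k a =>
      rw [lieD_gm_C_mul_T]
      have h1 := (tendsto_zpow_sub_one (fun n => (t n : L)) s _ (fun n => (t n).ne_zero) ht hst
        k).const_mul (algebraMap K L a)
      refine h1.congr fun n => ?_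
      simp only [map_mul, gmHom_C, gmHom_T, LaurentPolynomial.counit_C_mul_T,
        Units.val_zpow_eq_zpow_val]
      simp
      ring

end GmAnalytic

section GmComplex

variable {K : Type} [Field K] [Algebra K ℂ]

/-- `exp c ∈ ℂˣ`. -/
def expUnit (c : ℂ) : ℂˣ := Units.mk0 (Complex.exp c) (Complex.exp_ne_zero c)

theorem expUnit_add (a b : ℂ) : expUnit (a + b) = expUnit a * expUnit b := by
  ext; simp [expUnit, Complex.exp_add]

theorem expUnit_zero : expUnit 0 = 1 := by
  ext; simp [expUnit]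

theorem tendsto_nat_mul_exp_sub_one (c : ℂ) :
    Tendsto (fun n : ℕ => (n : ℂ) * (Complex.exp ((n : ℂ)⁻¹ * c) - 1)) atTop (𝓝 c) := by
  have h1 : HasDerivAt (fun x : ℂ => Complex.exp (x * c)) c 0 := by
    have := ((hasDerivAt_id (0 : ℂ)).mul_const c).cexp
    simpa using this
  have h2 := h1.tendsto_slope_zero
  have h3 : Tendsto (fun n : ℕ => (n : ℂ)⁻¹) atTop (𝓝[≠] 0) := by
    rw [tendsto_nhdsWithin_iff]
    refine ⟨tendsto_inv_atTop_nhds_zero_nat (𝕜 := ℂ), ?_⟩
    filter_upwards [eventually_ne_atTop 0] with n hn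
    simpa using hn
  refine (h2.comp h3).congr fun n => ?_
  simp

/-- The exponential map of `𝔾_m(ℂ) = ℂˣ`: `c T ∂/∂T ↦ exp c`. -/
def gmExp : ComplexExp (Gm K) where
  toFun :=
    { toFun := fun v => Additive.ofMul (gmPt (expUnit (lieD v (T 1))))
      map_zero' := by
        have : lieD (0 : Lie (Gm K) ℂ) (T 1) = 0 := rfl
        rw [this, expUnit_zero, gmPt_one]
        rfl
      map_add' := fun v w => by
        have : lieD (v + w) (T 1) = lieD v (T 1) + lieD w (T 1) := rfl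
        rw [this, expUnit_add, gmPt_mul]
        rfl }
  deriv := by
    intro v U h f
    refine tendsto_gm v (fun n : ℕ => expUnit ((n : ℂ)⁻¹ * lieD v (T 1))) (fun n : ℕ => (n : ℂ))
      ?_ ?_ U h f
    · have h1 : Tendsto (fun n : ℕ => (n : ℂ)⁻¹ * lieD v (T 1)) atTop (𝓝 0) := by
        simpa using (tendsto_inv_atTop_nhds_zero_nat (𝕜 := ℂ)).mul_const (lieD v (T 1))
      have h2 := (Complex.continuous_exp.tendsto 0).comp h1
      simpa [expUnit, Function.comp_def] using h2
    · exact tendsto_nat_mul_exp_sub_one _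

/-- **The kernel of the exponential of `𝔾_m` is `2πi ℤ`**: with the definitions of `Statement.lean`,
`H_1(𝔾_m(ℂ), ℤ) = ker exp = ℤ(1) = 2πi ℤ ⊂ Lie 𝔾_m ⊗ ℂ = ℂ`, a free group of rank one. -/
theorem gmExp_ker : (gmExp (K := K)).toFun.ker =
    AddSubgroup.zmultiples (gmLie (K := K) (2 * Real.pi * Complex.I)) := by
  ext v
  rw [AddSubgroup.mem_zmultiples_iff]
  have key : v ∈ (gmExp (K := K)).toFun.ker ↔ Complex.exp (lieD v (T 1)) = 1 := by
    constructor
    · intro hv
      have h1 : gmPt (K := K) (expUnit (lieD v (T 1))) = gmPt (K := K) (1 : ℂˣ) := by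
        rw [gmPt_one]
        exact hv
      exact congr((($(gmPt_injective h1) : ℂˣ) : ℂ))
    · intro hv
      have h1 : expUnit (lieD v (T 1)) = 1 := Units.ext hv
      show Additive.ofMul (gmPt (K := K) (expUnit (lieD v (T 1)))) = 0
      rw [h1, gmPt_one]
      rfl
  rw [key, Complex.exp_eq_one_iff]
  constructor
  · rintro ⟨n, hn⟩
    refine ⟨n, lie_gm_ext ?_⟩
    have : lieD (n • gmLie (K := K) (2 * Real.pi * Complex.I)) (T 1) =
        n • lieD (gmLie (K := K) (2 * Real.pi * Complex.I)) (T 1) := rfl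
    rw [this, lieD_gmLie, hn]
    simp
  · rintro ⟨n, rfl⟩
    refine ⟨n, ?_⟩
    have : lieD (n • gmLie (K := K) (2 * Real.pi * Complex.I)) (T 1) =
        n • lieD (gmLie (K := K) (2 * Real.pi * Complex.I)) (T 1) := rfl
    rw [this, lieD_gmLie]
    simp

/-- The generator `2πi` of the kernel is not zero: the kernel is infinite cyclic. -/
theorem gmLie_two_pi_I_ne_zero : gmLie (K := K) (2 * Real.pi * Complex.I) ≠ 0 := by
  intro h
  have h1 := lieD_gmLie (K := K) (2 * Real.pi * Complex.I)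
  rw [h] at h1
  have h2 : lieD (0 : Lie (Gm K) ℂ) (T 1) = 0 := rfl
  rw [h2] at h1
  exact Complex.two_pi_I_ne_zero h1.symm

/-- `ComplexExp` pins the exponential map: on `𝔾_m` there is only one. -/
theorem gmExp_unique (E : ComplexExp (Gm K)) : E.toFun = (gmExp (K := K)).toFun := by
  ext v
  set χ : Lie (Gm K) ℂ → ℂ := fun w => gmCoord (E.toFun w).toMul with hχ
  have χ_nsmul : ∀ (n : ℕ) (w : Lie (Gm K) ℂ), χ (n • w) = χ w ^ n := by
    intro n w
    induction n with
    | zero =>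
      simp only [zero_smul, pow_zero, hχ, map_zero]
      exact gmCoord_one
    | succ n ih =>
      rw [succ_nsmul, pow_succ, ← ih]
      simp only [hχ, map_add]
      exact gmCoord_mul _ _
  have h1 := E.deriv v ⊤ trivial ((Scheme.ΓSpecIso (CommRingCat.of K[T;T⁻¹])).inv (T 1))
  have h2 : Tendsto (fun n : ℕ => (n : ℂ) * (χ ((n : ℂ)⁻¹ • v) - 1)) atTop (𝓝 (lieD v (T 1))) := by
    refine h1.congr fun n => ?_
    have e1 : evalAt (1 : Pts (Gm K) ℂ).left ⊤
        ((Scheme.ΓSpecIso (CommRingCat.of K[T;T⁻¹])).inv (T 1)) = 1 := gmCoord_one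
    rw [e1]
    rfl
  have h3 := Complex.tendsto_one_add_pow_exp_of_tendsto h2
  have h4 : (fun n : ℕ => (1 + (χ ((n : ℂ)⁻¹ • v) - 1)) ^ n) =ᶠ[atTop] fun _ => χ v := by
    filter_upwards [eventually_ne_atTop 0] with n hn
    have hn' : (n : ℂ) ≠ 0 := by exact_mod_cast hn
    have : v = n • ((n : ℂ)⁻¹ • v) := by
      rw [← Nat.cast_smul_eq_nsmul ℂ, smul_smul, mul_inv_cancel₀ hn', one_smul]
    conv_rhs => rw [this, χ_nsmul]
    congr 1
    ring
  have h5 : χ v = Complex.exp (lieD v (T 1)) :=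
    tendsto_nhds_unique (tendsto_const_nhds.congr' h4.symm) h3
  obtain ⟨t, ht⟩ := exists_gmPt (E.toFun v).toMul
  have h6 : (t : ℂ) = Complex.exp (lieD v (T 1)) := by
    rw [← h5, hχ]
    simp only [ht, gmCoord_gmPt]
  have h7 : t = expUnit (lieD v (T 1)) := Units.ext h6
  have h8 : (E.toFun v).toMul = gmPt (K := K) (expUnit (lieD v (T 1))) := by rw [ht, h7]
  exact congr(($h8).left)

end GmComplex

section GmPadic

variable (p : ℕ) [Fact p.Prime] {K : Type} [Field K] [Algebra K ℂ_[p]]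

/-- **`HasLog` on `𝔾_m` is the classical formula** `log y = lim_n (y^{n!} - 1) / n!`. -/
theorem hasLog_gmPt_iff (y : ℂ_[p]ˣ) (v : Lie (Gm K) ℂ_[p]) :
    HasLog (Gm K) p (gmPt y) v ↔
      Tendsto (fun n : ℕ => ((n.factorial : ℕ) : ℂ_[p])⁻¹ * ((y : ℂ_[p]) ^ n.factorial - 1)) atTop
        (𝓝 (lieD v (T 1))) := by
  constructor
  · intro h
    have h1 := h ⊤ trivial ((Scheme.ΓSpecIso (CommRingCat.of K[T;T⁻¹])).inv (T 1))
    refine h1.congr fun n => ?_
    have e1 : evalAt (1 : Pts (Gm K) ℂ_[p]).left ⊤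
        ((Scheme.ΓSpecIso (CommRingCat.of K[T;T⁻¹])).inv (T 1)) = 1 := gmCoord_one
    have e2 : evalAt (gmPt (K := K) y ^ n.factorial).left ⊤
        ((Scheme.ΓSpecIso (CommRingCat.of K[T;T⁻¹])).inv (T 1)) = (y : ℂ_[p]) ^ n.factorial := by
      rw [gmPt_pow]
      exact (gmCoord_gmPt _).trans (Units.val_pow_eq_pow_val _ _)
    rw [e1, e2]
  · intro h U hU f
    have h0 : Tendsto (fun n : ℕ => (((y ^ n.factorial : ℂ_[p]ˣ) : ℂ_[p]))) atTop (𝓝 1) := by
      have h1 := (tendsto_factorial_padicComplex p).mul h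
      rw [zero_mul] at h1
      have h2 := h1.add_const (1 : ℂ_[p])
      rw [zero_add] at h2
      refine h2.congr fun n => ?_
      have : ((n.factorial : ℕ) : ℂ_[p]) ≠ 0 := by exact_mod_cast n.factorial_ne_zero
      rw [Units.val_pow_eq_pow_val]
      field_simp
      ring
    have h1 := tendsto_gm v (fun n : ℕ => y ^ n.factorial)
      (fun n : ℕ => ((n.factorial : ℕ) : ℂ_[p])⁻¹) h0
      (by simpa only [Units.val_pow_eq_pow_val] using h) U hU f
    simpa only [gmPt_pow] using h1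

/-- Roots of unity have logarithm `0`. -/
theorem hasLog_gmPt_of_pow_eq_one (y : ℂ_[p]ˣ) (N : ℕ) (hN : 0 < N) (hy : y ^ N = 1) :
    HasLog (Gm K) p (gmPt y) 0 := by
  rw [hasLog_gmPt_iff]
  have h0 : lieD (0 : Lie (Gm K) ℂ_[p]) (T 1) = 0 := rfl
  rw [h0]
  refine tendsto_const_nhds.congr' ?_
  filter_upwards [eventually_ge_atTop N] with n hn
  obtain ⟨m, hm⟩ := Nat.dvd_factorial hN hn
  have : (y : ℂ_[p]) ^ n.factorial = 1 := by
    rw [← Units.val_pow_eq_pow_val, hm, pow_mul, hy, one_pow, Units.val_one]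
  rw [this, sub_self, mul_zero]

/-- The point `p ∈ 𝔾_m(ℂ_p)`. -/
def pUnit : ℂ_[p]ˣ := Units.mk0 (p : ℂ_[p]) (by exact_mod_cast (Fact.out : p.Prime).ne_zero)

/-- **Non-example**: the point `p ∈ 𝔾_m(ℂ_p)` has no logarithm in the sense of `HasLog` (its powers
do not tend to `1`): `HasLog` is not satisfied by junk. -/
theorem not_hasLog_gmPt_p (v : Lie (Gm K) ℂ_[p]) : ¬ HasLog (Gm K) p (gmPt (pUnit p)) v := by
  rw [hasLog_gmPt_iff]
  intro h
  have h1 := (tendsto_factorial_padicComplex p).mul h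
  rw [zero_mul] at h1
  have h2 : Tendsto (fun n : ℕ => ((p : ℂ_[p]) ^ n.factorial - 1)) atTop (𝓝 0) := by
    refine h1.congr fun n => ?_
    have : ((n.factorial : ℕ) : ℂ_[p]) ≠ 0 := by exact_mod_cast n.factorial_ne_zero
    show _ = ((pUnit p : ℂ_[p]ˣ) : ℂ_[p]) ^ n.factorial - 1
    field_simp
  have h3 := h2.norm
  rw [norm_zero] at h3
  have hp1 : (p : ℝ)⁻¹ < 1 := inv_lt_one_of_one_lt₀ (by exact_mod_cast (Fact.out : p.Prime).one_lt)
  have h4 : ∀ n : ℕ, ‖(p : ℂ_[p]) ^ n.factorial - 1‖ = 1 := by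
    intro n
    have hlt : ‖(p : ℂ_[p]) ^ n.factorial‖ < ‖(1 : ℂ_[p])‖ := by
      rw [norm_pow, norm_p_padicComplex, norm_one]
      exact pow_lt_one₀ (by positivity) hp1 n.factorial_ne_zero
    rw [← norm_neg, neg_sub, sub_eq_add_neg]
    have := IsUltrametricDist.norm_add_eq_max_of_norm_ne_norm
      (x := (1 : ℂ_[p])) (y := -(p : ℂ_[p]) ^ n.factorial) (by rw [norm_neg]; exact hlt.ne')
    rw [this, norm_neg, max_eq_left hlt.le, norm_one]
  simp only [h4] at h3
  exact one_ne_zero (tendsto_nhds_unique tendsto_const_nhds h3)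

end GmPadic

end Claimed.Open.R001
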