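import Claimed.Open.R001.SanityBilinear

/-!
# Result 001: the `ℓ`-adic class depends on the linear equivalence class of the divisor only

For EVERY abelian scheme over `𝒪_w` of EVERY relative dimension (universally quantified).

* `CartierDivisor.LinEquiv D D' φ` : `D' = D + div φ` (the local equations of `D'` are those of `D` times `φ`, up to units);
* **`IsWeilValue.congr_linEquiv`** : on a commutative group scheme, `e_n^{D + div φ}(x, y) = e_n^D(x, y)` for `x^n = 1`
  (`g' = g · n^*(t_y^* φ / φ)`, and `n ∘ t_x = n`);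
* **`IsEllChern.congr_linEquiv`** : `IsEllChern P ℓ D c → IsEllChern P ℓ (D + div φ) c`: with `IsEllChern.unique`, the `ℓ`-adic class is a function
  of the linear equivalence class of the divisor, as a first Chern class must be;
* `CartierDivisor.IsSum`, `IsWeilValue.mul_divisor`, **`IsEllChern.add_divisor`** : `c_{1,ℓ}(D + D') = c_{1,ℓ}(D) + c_{1,ℓ}(D')`.
-/

open CategoryTheory AlgebraicGeometry MonoidalCategory CartesianMonoidalCategory MonObj

namespace Claimed.Open.R001

noncomputable section

/-- `D' = D + div φ`. -/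
def CartierDivisor.LinEquiv {X : Scheme.{0}} [IsIntegral X] (D D' : CartierDivisor X)
    (φ : X.functionField) : Prop :=
  φ ≠ 0 ∧ ∀ z, UnitAt z (D'.eq z / (D.eq z * φ))

section Weil

variable {k : Type} [Field k] (X : Over (Spec (CommRingCat.of k))) [GrpObj X] [IsCommMonObj X]
  [IsIntegral X.left]

/-- **The Weil pairing depends on the linear equivalence class of the divisor only.** -/
theorem IsWeilValue.congr_linEquiv {D D' : CartierDivisor X.left} {φ : X.left.functionField}
    (hD : D.LinEquiv D' φ) {n : ℕ} {x y : Pts X k} {c : k} (hx : x ^ n = 1)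
    (h : IsWeilValue X D n x y c) : IsWeilValue X D' n x y c := by
  have hn := h.mulBy_dominant X
  obtain ⟨hφ, hD⟩ := hD
  obtain ⟨g, hg, hu, ht⟩ := h
  have dx := translation_dominant X x
  have dy := translation_dominant X y
  have ψ0 : fnPullback (mulBy X n).left (fnPullback (translation X y).left φ / φ) ≠ 0 := by
    rw [fnPullback_eq _ hn, fnPullback_eq _ dy]
    exact (map_ne_zero _).2 (div_ne_zero ((map_ne_zero _).2 hφ) hφ)
  refine ⟨g * fnPullback (mulBy X n).left (fnPullback (translation X y).left φ / φ),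
    mul_ne_zero hg ψ0, fun z => ?_, ?_⟩
  · have h1 := (hD ((translation X y).left ((mulBy X n).left z))).fnPullback _ dy
    have h2 := hD ((mulBy X n).left z)
    have h3 := (h1.div h2).fnPullback _ hn
    have h4 := (hu z).div h3
    convert h4 using 1
    have a0 := D.ne_zero ((translation X y).left ((mulBy X n).left z))
    have a0' := D'.ne_zero ((translation X y).left ((mulBy X n).left z))
    have b0 := D.ne_zero ((mulBy X n).left z)
    have b0' := D'.ne_zero ((mulBy X n).left z)
    simp only [fnPullback_eq _ hn, fnPullback_eq _ dy, map_div₀, map_mul]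
    have A0 := (map_ne_zero (fnPullbackHom _ hn)).2 ((map_ne_zero (fnPullbackHom _ dy)).2 a0)
    have A0' := (map_ne_zero (fnPullbackHom _ hn)).2 ((map_ne_zero (fnPullbackHom _ dy)).2 a0')
    have B0 := (map_ne_zero (fnPullbackHom _ hn)).2 b0
    have B0' := (map_ne_zero (fnPullbackHom _ hn)).2 b0'
    have P0 := (map_ne_zero (fnPullbackHom _ hn)).2 hφ
    have P0' := (map_ne_zero (fnPullbackHom _ hn)).2 ((map_ne_zero (fnPullbackHom _ dy)).2 hφ)
    field_simp
  · have H : ∀ s, fnPullback (translation X x).left (fnPullback (mulBy X n).left s) =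
        fnPullback (mulBy X n).left s := fun s => by
      rw [fnPullback_comm_sq X (translation_comp_mulBy X x n) dx hn hn (translation_dominant X _),
        hx, translation_one, Over.id_left, fnPullback_id]
    rw [fnPullback_mul _ dx, H, ht]
    ring

end Weil

section Classes

variable {p : ℕ} [Fact p.Prime] {K : Type} [Field K] [Algebra K ℂ_[p]] [Algebra K ℂ] {d : ℕ}
  {𝒜 : AbelianScheme p K d} {P : PeriodDatum 𝒜}

/-- **The `ℓ`-adic class depends on the linear equivalence class of the divisor only.** -/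
theorem IsEllChern.congr_linEquiv {ℓ : ℕ} [Fact ℓ.Prime] {D D' : CartierDivisor 𝒜.special.left}
    {φ : 𝒜.special.left.functionField} (hD : D.LinEquiv D' φ) {c : P.Λ → P.Λ → ℤ_[ℓ]}
    (h : IsEllChern P ℓ D c) : IsEllChern P ℓ D' c := by
  intro n l m
  obtain ⟨x, y, ζ, hx, hy, hζ, hW⟩ := h n l m
  have hpos : 0 < ℓ ^ n := pow_pos (Fact.out : ℓ.Prime).pos n
  have hx1 : x ^ (ℓ ^ n) = 1 := pow_eq_one_of_gen_eq_tors hpos hx
  have := isCommMonObj_special 𝒜
  exact ⟨x, y, ζ, hx, hy, hζ, hW.congr_linEquiv _ hD (by rw [← red_pow, hx1, red_one])⟩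

end Classes

/-! ### Sums of divisors -/

/-- `D'' = D + D'` (the local equations of `D''` are the products of those of `D` and `D'`, up to units). -/
def CartierDivisor.IsSum {X : Scheme.{0}} [IsIntegral X] (D D' D'' : CartierDivisor X) : Prop :=
  ∀ z, UnitAt z (D''.eq z / (D.eq z * D'.eq z))

section WeilSum

variable {k : Type} [Field k] (X : Over (Spec (CommRingCat.of k))) [GrpObj X] [IsIntegral X.left]

/-- `e_n^{D + D'}(x, y) = e_n^D(x, y) e_n^{D'}(x, y)`. -/
theorem IsWeilValue.mul_divisor {D D' D'' : CartierDivisor X.left} (hD : D.IsSum D' D'') {n : ℕ}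
    {x y : Pts X k} {c c' : k} (h : IsWeilValue X D n x y c) (h' : IsWeilValue X D' n x y c') :
    IsWeilValue X D'' n x y (c * c') := by
  have hn := h.mulBy_dominant X
  obtain ⟨g, hg, hu, ht⟩ := h
  obtain ⟨g', hg', hu', ht'⟩ := h'
  have dx := translation_dominant X x
  have dy := translation_dominant X y
  refine ⟨g * g', mul_ne_zero hg hg', fun z => ?_, ?_⟩
  · have h1 := (hD ((translation X y).left ((mulBy X n).left z))).fnPullback _ dy
    have h2 := hD ((mulBy X n).left z)
    have h3 := (h1.div h2).fnPullback _ hn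
    have h4 := ((hu z).mul (hu' z)).div h3
    convert h4 using 1
    have a0 := D.ne_zero ((translation X y).left ((mulBy X n).left z))
    have a0' := D'.ne_zero ((translation X y).left ((mulBy X n).left z))
    have a0'' := D''.ne_zero ((translation X y).left ((mulBy X n).left z))
    have b0 := D.ne_zero ((mulBy X n).left z)
    have b0' := D'.ne_zero ((mulBy X n).left z)
    have b0'' := D''.ne_zero ((mulBy X n).left z)
    simp only [fnPullback_eq _ hn, fnPullback_eq _ dy, map_div₀, map_mul]
    have A0 := (map_ne_zero (fnPullbackHom _ hn)).2 ((map_ne_zero (fnPullbackHom _ dy)).2 a0)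
    have A0' := (map_ne_zero (fnPullbackHom _ hn)).2 ((map_ne_zero (fnPullbackHom _ dy)).2 a0')
    have A0'' := (map_ne_zero (fnPullbackHom _ hn)).2 ((map_ne_zero (fnPullbackHom _ dy)).2 a0'')
    have B0 := (map_ne_zero (fnPullbackHom _ hn)).2 b0
    have B0' := (map_ne_zero (fnPullbackHom _ hn)).2 b0'
    have B0'' := (map_ne_zero (fnPullbackHom _ hn)).2 b0''
    field_simp
  · rw [fnPullback_mul _ dx, ht, ht', constFn_eq, constFn_eq, constFn_eq, map_mul]
    ring

end WeilSum

section ClassesSum

variable {p : ℕ} [Fact p.Prime] {K : Type} [Field K] [Algebra K ℂ_[p]] [Algebra K ℂ] {d : ℕ}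
  {𝒜 : AbelianScheme p K d} {P : PeriodDatum 𝒜}

/-- **The `ℓ`-adic class is additive in the divisor**: `c_{1,ℓ}(D + D') = c_{1,ℓ}(D) + c_{1,ℓ}(D')`. -/
theorem IsEllChern.add_divisor {ℓ : ℕ} [Fact ℓ.Prime] (hℓ : ℓ ≠ p)
    {D D' D'' : CartierDivisor 𝒜.special.left} (hD : D.IsSum D' D'') {c c' : P.Λ → P.Λ → ℤ_[ℓ]}
    (h : IsEllChern P ℓ D c) (h' : IsEllChern P ℓ D' c') :
    IsEllChern P ℓ D'' (fun l m => c l m + c' l m) := by
  intro n l m
  obtain ⟨x, y, ζ, hx, hy, hζ, hW⟩ := h n l m
  obtain ⟨x', y', ζ', hx', hy', hζ', hW'⟩ := h' n l m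
  obtain rfl : x = x' := gen_injective 𝒜 (generic_map_injective 𝒜 (hx.trans hx'.symm))
  obtain rfl : y = y' := gen_injective 𝒜 (generic_map_injective 𝒜 (hy.trans hy'.symm))
  have hinj : Function.Injective (algebraMap (Ow p K) ℂ) :=
    (algebraMap K ℂ).injective.comp Subtype.val_injective
  obtain rfl : ζ = ζ' := hinj (hζ.trans hζ'.symm)
  refine ⟨x, y, ζ, hx, hy, hζ, ?_⟩
  have h0 := hW.mul_divisor _ hD hW'
  have hpos : 0 < ℓ ^ n := pow_pos (Fact.out : ℓ.Prime).pos n
  have hcop : (ℓ ^ n).Coprime p :=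
    Nat.Coprime.pow_left n ((Nat.coprime_primes Fact.out Fact.out).2 hℓ)
  have : NeZero (ℓ ^ n) := ⟨hpos.ne'⟩
  have hprim := isPrimitiveRoot_reduction hcop hpos hζ
  have hmod : ∀ j : ℕ, algebraMap (Ow p K) (Fbar p) ζ ^ (j % ℓ ^ n) =
      algebraMap (Ow p K) (Fbar p) ζ ^ j := fun j => by
    conv_rhs => rw [← Nat.div_add_mod j (ℓ ^ n), pow_add, pow_mul, hprim.pow_eq_one, one_pow,
      _root_.one_mul]
  rw [map_add, ZMod.val_add, hmod, pow_add]
  exact h0

end ClassesSum

end

end Claimed.Open.R001
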