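import Claimed.Open.R001.SanityUnique

/-!
# Result 001: the class of a point is unique, in every dimension

`CLAIM.md` (deviation 4) says that the point class `pt` over which `Statement` quantifies is unique.  `SanityUnique.lean`
proves it up to the sign.  This file proves that the orientation clause of `IsPointClass` fixes the sign, for EVERY abelian
scheme over `𝒪_w` of EVERY relative dimension `d` and every period datum (universally quantified; no example of positive
dimension is constructed).  It is the first check which uses the hypothesis `SmoothOfRelativeDimension d` of `AbelianScheme`.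

* `det_eq_one_of_orientation` (linear algebra, written by seat 215): if the linear forms `ω`, `ω'` factor through one linear
  map `Φ : H → ℂ^d`, and both orientation tests are positive, the integral base change between the two bases has
  determinant `+1` (the `2d × 2d` matrix of the test is `diag(A, \bar A)` times the matrix of `Φ`, and
  `det diag(A, \bar A) = |det A|² ≥ 0`);
* `exists_coordinates_of_standardSmooth` : over a standard smooth algebra of relative dimension `d` the derivations with
  values in a field are separated by `d` linear coordinates (`Ω` is free of rank `d`);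
* `exists_coordinates_of_smooth` : the same for the local ring at a point of a scheme which is smooth of relative dimension
  `d` over a field: the tangent space has dimension at most `d`;
* `VectorExtension.exists_coordinates` : for a vector extension `E → A`, `A` smooth of relative dimension `d`: the quotient of
  `Lie E ⊗ L` by the vertical vectors (`IsVertical`) has dimension at most `d`;
* `smooth_generic` : the generic fibre of an abelian scheme is smooth of relative dimension `d`;
* **`BettiClass.IsPointClass.rat_unique`** : two point classes have the same rational form;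
* **`statement_q_independent_of_pt`** : the number `q` pinned by the clause of `Statement` at one prime `ℓ ≠ p` does not depend
  on the point class either.
-/

namespace Claimed.Open.R001

/-! ### Linear algebra of the orientation test (seat 215) -/

section LinearAlgebra

open Matrix


/-- `Fin d ⊕ Fin d ≃ Fin (2 d)`, first block first (`d = r + m`). -/
def ori_e (r m : ℕ) : Fin (r + m) ⊕ Fin (r + m) ≃ Fin (2 * r + 2 * m) :=
  finSumFinEquiv.trans (finCongr (by omega))

theorem ori_e_inl (r m : ℕ) (a : Fin (r + m)) : ((ori_e r m (Sum.inl a) : Fin (2 * r + 2 * m)) : ℕ) = a := by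
  simp [ori_e]

theorem ori_e_inr (r m : ℕ) (a : Fin (r + m)) :
    ((ori_e r m (Sum.inr a) : Fin (2 * r + 2 * m)) : ℕ) = (r + m) + a := by
  simp [ori_e, add_comm]

/-- The square matrix with the rows of `G` followed by their complex conjugates. -/
noncomputable def ori_Mx (r m : ℕ) (G : Matrix (Fin (r + m)) (Fin (2 * r + 2 * m)) ℂ) :
    Matrix (Fin (2 * r + 2 * m)) (Fin (2 * r + 2 * m)) ℂ :=
  Matrix.of fun a i => if h : (a : ℕ) < r + m then G ⟨a, h⟩ i
    else (starRingEnd ℂ) (G ⟨a - (r + m), by omega⟩ i)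

theorem ori_Mx_inl (r m : ℕ) (G : Matrix (Fin (r + m)) (Fin (2 * r + 2 * m)) ℂ) (a : Fin (r + m))
    (i : Fin (2 * r + 2 * m)) : ori_Mx r m G (ori_e r m (Sum.inl a)) i = G a i := by
  have h : ((ori_e r m (Sum.inl a) : Fin (2 * r + 2 * m)) : ℕ) < r + m := by
    rw [ori_e_inl]; exact a.2
  rw [ori_Mx, Matrix.of_apply, dif_pos h]
  have h2 : (⟨((ori_e r m (Sum.inl a) : Fin (2 * r + 2 * m)) : ℕ), h⟩ : Fin (r + m)) = a :=
    Fin.ext (ori_e_inl r m a)
  rw [h2]

theorem ori_Mx_inr (r m : ℕ) (G : Matrix (Fin (r + m)) (Fin (2 * r + 2 * m)) ℂ) (a : Fin (r + m))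
    (i : Fin (2 * r + 2 * m)) :
    ori_Mx r m G (ori_e r m (Sum.inr a)) i = (starRingEnd ℂ) (G a i) := by
  have h : ¬ ((ori_e r m (Sum.inr a) : Fin (2 * r + 2 * m)) : ℕ) < r + m := by
    rw [ori_e_inr]; omega
  rw [ori_Mx, Matrix.of_apply, dif_neg h]
  have h2 : ∀ hh, (⟨((ori_e r m (Sum.inr a) : Fin (2 * r + 2 * m)) : ℕ) - (r + m), hh⟩ : Fin (r + m)) = a := by
    intro hh
    apply Fin.ext
    show ((ori_e r m (Sum.inr a) : Fin (2 * r + 2 * m)) : ℕ) - (r + m) = a
    rw [ori_e_inr]; omega
  rw [h2]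

/-- `Mx (A G) = Dbl A · Mx G`, on the level of determinants. -/
theorem ori_det_Mx_mul (r m : ℕ) (A : Matrix (Fin (r + m)) (Fin (r + m)) ℂ)
    (G : Matrix (Fin (r + m)) (Fin (2 * r + 2 * m)) ℂ) :
    (ori_Mx r m (A * G)).det = (Complex.normSq A.det : ℂ) * (ori_Mx r m G).det := by
  have h1 : (ori_Mx r m (A * G)).submatrix (ori_e r m) (ori_e r m)
      = fromBlocks A 0 0 (A.map (starRingEnd ℂ)) * (ori_Mx r m G).submatrix (ori_e r m) (ori_e r m) := by
    ext s s'
    rcases s with a | a
    · simp only [submatrix_apply, ori_Mx_inl, mul_apply, Fintype.sum_sum_type, fromBlocks_apply₁₁,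
        fromBlocks_apply₁₂, Matrix.zero_apply, zero_mul, Finset.sum_const_zero, add_zero]
    · simp only [submatrix_apply, ori_Mx_inr, mul_apply, Fintype.sum_sum_type, fromBlocks_apply₂₁,
        fromBlocks_apply₂₂, Matrix.zero_apply, zero_mul, Finset.sum_const_zero, zero_add, map_sum, map_mul,
        map_apply]
  have h2 : (A.map (starRingEnd ℂ)).det = (starRingEnd ℂ) A.det := by
    rw [RingHom.map_det]; rfl
  rw [← det_submatrix_equiv_self (ori_e r m) (ori_Mx r m (A * G)), h1, det_mul, det_fromBlocks_zero₂₁, h2,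
    det_submatrix_equiv_self, Complex.mul_conj]

/-- `Mx (G P) = Mx G · P` for an integer matrix `P`. -/
theorem ori_Mx_mul_int (r m : ℕ) (G : Matrix (Fin (r + m)) (Fin (2 * r + 2 * m)) ℂ)
    (P : Matrix (Fin (2 * r + 2 * m)) (Fin (2 * r + 2 * m)) ℤ) :
    ori_Mx r m (G * P.map (Int.cast : ℤ → ℂ)) = ori_Mx r m G * P.map (Int.cast : ℤ → ℂ) := by
  ext a i
  obtain ⟨s, rfl⟩ := (ori_e r m).surjective a
  rcases s with a | a
  · simp only [ori_Mx_inl, mul_apply]
  · simp only [ori_Mx_inr, mul_apply, map_sum, map_mul, map_apply, map_intCast]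

/-- A form which kills `ker Φ` is a combination of the coordinates of `Φ`. -/
theorem ori_exists_coeff {d : ℕ} {H : Type} [AddCommGroup H] [Module ℂ H] (Φ : H →ₗ[ℂ] (Fin d → ℂ))
    (ω : H →ₗ[ℂ] ℂ) (hω : ∀ v, Φ v = 0 → ω v = 0) : ∃ c : Fin d → ℂ, ∀ v, ω v = ∑ j, c j * Φ v j := by
  have h1 : ω ∈ (LinearMap.ker Φ).dualAnnihilator := by
    rw [Submodule.mem_dualAnnihilator]
    intro v hv
    exact hω v hv
  rw [← LinearMap.range_dualMap_eq_dualAnnihilator_ker] at h1
  obtain ⟨g, rfl⟩ := h1
  refine ⟨fun j => g (fun j' => if j = j' then 1 else 0), fun v => ?_⟩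
  rw [LinearMap.dualMap_apply, LinearMap.pi_apply_eq_sum_univ g (Φ v)]
  refine Finset.sum_congr rfl fun j _ => ?_
  rw [smul_eq_mul, mul_comm]

/-- Linear algebra behind the orientation clause of `IsPointClass`.
PROOF SKETCH.  (1) `ω k` kills `ker Φ`, so `ω k ∈ (ker Φ).dualAnnihilator = range Φ.dualMap`
(`LinearMap.range_dualMap_eq_dualAnnihilator_ker`): `ω k v = ∑ j, A k j * Φ v j`, same for `ω'` with `A'`.
(2) For `F : Fin d → Fin n → ℂ` let `Mx F a i = if a < d then F a i else conj (F (a - d) i)`.  With the equivalence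
`s : Fin n ≃ Fin d ⊕ Fin d`: `Mx F = (fromRows F (F.map conj)).submatrix s id`, `Mx (A * F) = Dbl A * Mx F`,
`Dbl A = (fromBlocks A 0 0 (A.map conj)).submatrix s s`, `det (Dbl A) = det A * conj (det A) = normSq (det A)`.
(3) `Mx (F * P) = Mx F * P` for an integer matrix `P`; `N i := Φ (x i)`, `N = N' * P`.
(4) `κ α z det P = t`, `κ α' z = t'` with `α, α' ≥ 0` real: `det P = -1` is impossible. -/
theorem det_eq_one_of_orientation {r m : ℕ} {H : Type} [AddCommGroup H] [Module ℂ H]
    (Φ : H →ₗ[ℂ] (Fin (r + m) → ℂ))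
    (ω ω' : Fin (r + m) → H →ₗ[ℂ] ℂ)
    (hω : ∀ k v, Φ v = 0 → ω k v = 0) (hω' : ∀ k v, Φ v = 0 → ω' k v = 0)
    (x x' : Fin (2 * r + 2 * m) → H) (P : Matrix (Fin (2 * r + 2 * m)) (Fin (2 * r + 2 * m)) ℤ)
    (hP : ∀ i, x i = ∑ j, P j i • x' j) (hdet : P.det = 1 ∨ P.det = -1)
    (t t' : ℝ) (ht : 0 < t) (ht' : 0 < t')
    (h : (Complex.I / 2) ^ (r + m) * (-1) ^ ((r + m) * (r + m - 1) / 2) *
      Matrix.det (Matrix.of fun (a i : Fin (2 * r + 2 * m)) =>
        if h : (a : ℕ) < r + m then ω ⟨a, h⟩ (x i)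
        else (starRingEnd ℂ) (ω ⟨a - (r + m), by omega⟩ (x i))) = t)
    (h' : (Complex.I / 2) ^ (r + m) * (-1) ^ ((r + m) * (r + m - 1) / 2) *
      Matrix.det (Matrix.of fun (a i : Fin (2 * r + 2 * m)) =>
        if h : (a : ℕ) < r + m then ω' ⟨a, h⟩ (x' i)
        else (starRingEnd ℂ) (ω' ⟨a - (r + m), by omega⟩ (x' i))) = t') :
    P.det = 1 := by
  choose A hA using fun k => ori_exists_coeff Φ (ω k) (hω k)
  choose A' hA' using fun k => ori_exists_coeff Φ (ω' k) (hω' k)
  -- the period matrix of `x'`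
  let F' : Matrix (Fin (r + m)) (Fin (2 * r + 2 * m)) ℂ := Matrix.of fun j i => Φ (x' i) j
  have h1 : (Matrix.of fun (a i : Fin (2 * r + 2 * m)) =>
        if h : (a : ℕ) < r + m then ω ⟨a, h⟩ (x i)
        else (starRingEnd ℂ) (ω ⟨a - (r + m), by omega⟩ (x i)))
      = ori_Mx r m ((Matrix.of A) * (F' * P.map (Int.cast : ℤ → ℂ))) := by
    have h2 : (Matrix.of A) * (F' * P.map (Int.cast : ℤ → ℂ)) = Matrix.of fun k i => ω k (x i) := by
      ext k i
      rw [Matrix.mul_apply, Matrix.of_apply, hA]
      refine Finset.sum_congr rfl fun j _ => ?_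
      rw [Matrix.of_apply, Matrix.mul_apply, hP, map_sum, Finset.sum_apply]
      congr 1
      refine Finset.sum_congr rfl fun l _ => ?_
      rw [map_zsmul, Pi.smul_apply, zsmul_eq_mul, Matrix.map_apply, mul_comm]
      rfl
    rw [h2]
    rfl
  have h1' : (Matrix.of fun (a i : Fin (2 * r + 2 * m)) =>
        if h : (a : ℕ) < r + m then ω' ⟨a, h⟩ (x' i)
        else (starRingEnd ℂ) (ω' ⟨a - (r + m), by omega⟩ (x' i)))
      = ori_Mx r m ((Matrix.of A') * F') := by
    have h2 : (Matrix.of A') * F' = Matrix.of fun k i => ω' k (x' i) := by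
      ext k i
      rw [Matrix.mul_apply, Matrix.of_apply, hA']
      rfl
    rw [h2]
    rfl
  have hPd : (P.map (Int.cast : ℤ → ℂ)).det = (P.det : ℂ) := by
    have := (Int.castRingHom ℂ).map_det P
    simpa using this.symm
  rw [h1, ori_det_Mx_mul, ori_Mx_mul_int, Matrix.det_mul, hPd] at h
  rw [h1', ori_det_Mx_mul] at h'
  rcases hdet with hd | hd
  · exact hd
  exfalso
  rw [hd] at h
  set κ : ℂ := (Complex.I / 2) ^ (r + m) * (-1) ^ ((r + m) * (r + m - 1) / 2) with hκ
  set z : ℂ := κ * (ori_Mx r m F').det with hz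
  set α : ℝ := Complex.normSq (Matrix.of A).det with hα
  set α' : ℝ := Complex.normSq (Matrix.of A').det with hα'
  have hα0 : 0 ≤ α := Complex.normSq_nonneg _
  have hα0' : 0 ≤ α' := Complex.normSq_nonneg _
  have e1 : (α : ℂ) * z = -(t : ℂ) := by
    rw [← h, hz]; push_cast; ring
  have e2 : (α' : ℂ) * z = t' := by
    rw [← h', hz]; ring
  -- `α t' = α α' z = - α' t`
  have e3 : (α : ℂ) * t' = -((α' : ℂ) * t) := by
    linear_combination (α : ℂ) * (-e2) + (α' : ℂ) * e1
  have e4 : α * t' = -(α' * t) := by exact_mod_cast e3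
  have hα'pos : 0 < α' := by
    rcases hα0'.lt_or_eq with hh | hh
    · exact hh
    · exfalso
      rw [← hh] at e2
      simp only [Complex.ofReal_zero, zero_mul] at e2
      have : t' = 0 := by exact_mod_cast e2.symm
      exact ht'.ne' this
  nlinarith [mul_nonneg hα0 ht'.le, mul_pos hα'pos ht]


end LinearAlgebra

/-! ### Tangent spaces of smooth schemes have dimension at most `d` -/

section Tangent

open CategoryTheory AlgebraicGeometry
open scoped KaehlerDifferential

/-- Over a standard smooth algebra of relative dimension `d`, the derivations with values in a field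
`L` (over a character `χ`) are separated by `d` linear coordinates. -/
theorem exists_coordinates_of_standardSmooth {R₀ S L : Type} [CommRing R₀] [CommRing S]
    [Algebra R₀ S] [Field L] (d : ℕ) [Algebra.IsStandardSmoothOfRelativeDimension d R₀ S]
    (χ : S →+* L) :
    ∃ Φ : (S → L) →ₗ[L] (Fin d → L), ∀ δ : S → L,
      (∀ a b, δ (a + b) = δ a + δ b) → (∀ a b, δ (a * b) = χ a * δ b + χ b * δ a) →
      (∀ r : R₀, δ (algebraMap R₀ S r) = 0) → Φ δ = 0 → δ = 0 := by
  have : Nontrivial S := χ.domain_nontrivial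
  have : Algebra.IsStandardSmooth R₀ S :=
    Algebra.IsStandardSmoothOfRelativeDimension.isStandardSmooth d
  have hrank :=
    Algebra.IsStandardSmoothOfRelativeDimension.rank_kaehlerDifferential (R := R₀) (S := S) d
  have hfr : Module.finrank S Ω[S⁄R₀] = d := Module.finrank_eq_of_rank_eq hrank
  have hfin : Module.Finite S Ω[S⁄R₀] := inferInstance
  let e := Module.finBasisOfFinrankEq S Ω[S⁄R₀] hfr
  have hrep : ∀ j, ∃ c : S →₀ S, c.sum (fun t s => s • KaehlerDifferential.D R₀ S t) = e j := by
    intro j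
    have : e j ∈ Submodule.span S (Set.range (KaehlerDifferential.D R₀ S)) := by
      rw [KaehlerDifferential.span_range_derivation]; trivial
    exact (Finsupp.mem_span_range_iff_exists_finsupp).1 this
  choose c hc using hrep
  let Φ : (S → L) →ₗ[L] (Fin d → L) :=
    { toFun := fun δ j => (c j).sum (fun t s => χ s * δ t)
      map_add' := fun δ δ' => by
        funext j
        simp only [Finsupp.sum, Pi.add_apply, mul_add, Finset.sum_add_distrib]
      map_smul' := fun a δ => by
        funext j
        simp only [Finsupp.sum, Pi.smul_apply, smul_eq_mul, RingHom.id_apply, Finset.mul_sum]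
        refine Finset.sum_congr rfl fun t _ => ?_
        ring }
  refine ⟨Φ, fun δ h1 h2 h3 h0 => ?_⟩
  let _ : Module S L := Module.compHom L χ
  let _ : Module R₀ L := Module.compHom L (χ.comp (algebraMap R₀ S))
  have hsm : ∀ (s : S) (l : L), s • l = χ s * l := fun _ _ => rfl
  have hrm : ∀ (r : R₀) (l : L), r • l = χ (algebraMap R₀ S r) * l := fun _ _ => rfl
  have : IsScalarTower R₀ S L := ⟨fun r s l => by
    rw [hsm, hrm, hsm, Algebra.smul_def, map_mul, mul_assoc]⟩
  let D : Derivation R₀ S L := Derivation.mk'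
    { toFun := δ
      map_add' := h1
      map_smul' := fun r s => by
        rw [Algebra.smul_def, h2, h3, mul_zero, add_zero, RingHom.id_apply, hrm] }
    (fun a b => by
      change δ (a * b) = a • δ b + b • δ a
      rw [h2, hsm, hsm])
  have hD : ∀ s, D s = δ s := fun _ => rfl
  have hl : D.liftKaehlerDifferential = 0 := by
    apply e.ext
    intro j
    have h4 : Φ δ j = 0 := by rw [h0]; rfl
    rw [← hc j, LinearMap.zero_apply, ← h4]
    simp only [Finsupp.sum, map_sum, map_smul, Derivation.liftKaehlerDifferential_comp_D, hD, hsm]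
    rfl
  funext s
  have h5 := D.liftKaehlerDifferential_comp_D s
  rw [hl] at h5
  exact h5.symm

/-- At a point `x` of a scheme which is smooth of relative dimension `d` over a field `K`, the
`K`-derivations of the local ring with values in a field `L` (over a character `χ`) are separated by
`d` linear coordinates: the tangent space has dimension at most `d`. -/
theorem exists_coordinates_of_smooth {K L : Type} [Field K] [Field L] {X : Scheme.{0}}
    (f : X ⟶ Spec (CommRingCat.of K)) (d : ℕ) [SmoothOfRelativeDimension d f] (x : X)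
    (χ : X.presheaf.stalk x →+* L) :
    ∃ Φ : (X.presheaf.stalk x → L) →ₗ[L] (Fin d → L), ∀ δ : X.presheaf.stalk x → L,
      (∀ a b, δ (a + b) = δ a + δ b) → (∀ a b, δ (a * b) = χ a * δ b + χ b * δ a) →
      (∀ c : K, δ (X.presheaf.germ ⊤ x trivial
        (f.appTop ((Scheme.ΓSpecIso (CommRingCat.of K)).inv c))) = 0) →
      Φ δ = 0 → δ = 0 := by
  obtain ⟨U, hU, V, hV, hx, e, hf⟩ :=
    SmoothOfRelativeDimension.exists_isStandardSmoothOfRelativeDimension (n := d) (f := f) x
  obtain rfl : U = ⊤ := by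
    ext y
    have : Subsingleton (PrimeSpectrum K) := inferInstance
    have hy : y = f x := Subsingleton.elim (α := PrimeSpectrum K) _ _
    simp only [hy]
    exact ⟨fun _ => trivial, fun _ => e hx⟩
  let φ : Γ(Spec (CommRingCat.of K), ⊤) →+* Γ(X, V) := (f.appLE ⊤ V e).hom
  let _ : Algebra Γ(Spec (CommRingCat.of K), ⊤) Γ(X, V) := φ.toAlgebra
  have : Algebra.IsStandardSmoothOfRelativeDimension d Γ(Spec (CommRingCat.of K), ⊤) Γ(X, V) := hf
  let g : Γ(X, V) →+* X.presheaf.stalk x := (X.presheaf.germ V x hx).hom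
  obtain ⟨Φ₀, hΦ₀⟩ := exists_coordinates_of_standardSmooth
    (R₀ := Γ(Spec (CommRingCat.of K), ⊤)) (S := Γ(X, V)) d (χ.comp g)
  refine ⟨Φ₀ ∘ₗ LinearMap.funLeft L L g, fun δ h1 h2 h3 h0 => ?_⟩
  have hg : (fun s => δ (g s)) = 0 := by
    refine hΦ₀ _ (fun a b => ?_) (fun a b => ?_) (fun r => ?_) h0
    · rw [map_add, h1]
    · rw [map_mul, h2]; rfl
    · have h4 := h3 ((Scheme.ΓSpecIso (CommRingCat.of K)).hom r)
      have h5 : (Scheme.ΓSpecIso (CommRingCat.of K)).inv
          ((Scheme.ΓSpecIso (CommRingCat.of K)).hom r) = r := by simp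
      rw [h5] at h4
      rw [← h4]
      congr 1
      change X.presheaf.germ V x hx (f.appLE ⊤ V e r) = _
      rw [Scheme.Hom.appLE]
      erw [ConcreteCategory.comp_apply, X.presheaf.germ_res_apply]
      rfl
  let _ := X.presheaf.algebra_section_stalk ⟨x, hx⟩
  have hloc := hV.isLocalization_stalk ⟨x, hx⟩
  funext z
  obtain ⟨⟨a, b⟩, hab⟩ := IsLocalization.surj (hV.primeIdealOf ⟨x, hx⟩).asIdeal.primeCompl z
  have hb : IsUnit (g b) := IsLocalization.map_units (X.presheaf.stalk x) b
  have h6 : z * g b = g a := hab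
  have h7 := h2 z (g b)
  rw [h6, congrFun hg a, congrFun hg b] at h7
  simp only [Pi.zero_apply, mul_zero, zero_add] at h7
  exact (mul_eq_zero.1 h7.symm).resolve_left (hb.map χ).ne_zero


end Tangent

end Claimed.Open.R001

open CategoryTheory AlgebraicGeometry MonoidalCategory CartesianMonoidalCategory MonObj

namespace Claimed.Open.R001

noncomputable section

/-! ### Vertical vectors, and the class of a point -/

/-- For a vector extension `E → A` of a group scheme which is smooth of relative dimension `d`, the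
quotient of `Lie E ⊗ L` by the vertical vectors has dimension at most `d`: there are `d` linear
coordinates whose common zeros are vertical. -/
theorem VectorExtension.exists_coordinates {K : Type} [Field K]
    {A : Over (Spec (CommRingCat.of K))} [GrpObj A] (X : VectorExtension A) (d : ℕ)
    [SmoothOfRelativeDimension d A.hom] (L : Type) [Field L] [Algebra K L] :
    ∃ Φ : Lie X.E L →ₗ[L] (Fin d → L), ∀ v, Φ v = 0 → X.IsVertical v := by
  let σ : A.left.presheaf.stalk (X.π.left (idPt X.E)) →+* X.E.left.presheaf.stalk (idPt X.E) :=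
    (X.π.left.stalkMap (idPt X.E)).hom
  let χ : A.left.presheaf.stalk (X.π.left (idPt X.E)) →+* L :=
    (algebraMap K L).comp ((germValue (1 : Pts X.E K).left).comp σ)
  obtain ⟨Φ₀, h₀⟩ := exists_coordinates_of_smooth A.hom d (X.π.left (idPt X.E)) χ
  refine ⟨Φ₀ ∘ₗ LinearMap.funLeft L L σ ∘ₗ (Lie X.E L).subtype, fun v hv => ?_⟩
  obtain ⟨hadd, hmul, hconst⟩ := v.2
  have hδ : (fun z => v.1 (σ z)) = 0 := by
    refine h₀ _ (fun a b => ?_) (fun a b => ?_) (fun c => ?_) hv
    · rw [map_add, hadd]
    · rw [map_mul, hmul]; rfl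
    · rw [← hconst c]
      refine congrArg v.1 ?_
      change X.π.left.stalkMap (idPt X.E) _ = _
      erw [Scheme.Hom.germ_stalkMap_apply]
      have h1 : A.hom.appTop ≫ X.π.left.appTop = X.E.hom.appTop := by
        rw [← Scheme.Hom.comp_appTop, Over.w X.π]
      unfold constGerm
      rw [← h1]
      rfl
  intro U h f
  unfold Lie.d
  have h2 := congrFun hδ (A.left.presheaf.germ U _ h f)
  simp only [Pi.zero_apply] at h2
  rw [← h2]
  refine congrArg v.1 ?_
  change _ = X.π.left.stalkMap (idPt X.E) _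
  erw [Scheme.Hom.germ_stalkMap_apply]

variable {p : ℕ} [Fact p.Prime] {K : Type} [Field K] [Algebra K ℂ_[p]] [Algebra K ℂ]

omit [Algebra K ℂ] in
/-- The generic fibre of an abelian scheme of relative dimension `d` is smooth of relative dimension
`d`. -/
theorem smooth_generic {d : ℕ} (𝒜 : AbelianScheme p K d) :
    SmoothOfRelativeDimension d 𝒜.generic.hom :=
  (smoothOfRelativeDimension_isStableUnderBaseChange d).of_isPullback
    (IsPullback.of_hasPullback _ _) 𝒜.smooth

/-- **The class of a point is unique**, for every abelian scheme of every dimension: the orientation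
clause of `IsPointClass` fixes the sign. -/
theorem BettiClass.IsPointClass.rat_unique {r m : ℕ} {𝒜 : AbelianScheme p K (r + m)}
    {P : PeriodDatum 𝒜} {pt pt' : BettiClass P (2 * r + 2 * m) (r + m)}
    (h : pt.IsPointClass) (h' : pt'.IsPointClass) : pt'.rat = pt.rat := by
  obtain ⟨b, ω, t, hω, ht, hdet, hb⟩ := h
  obtain ⟨b', ω', t', hω', ht', hdet', hb'⟩ := h'
  have := smooth_generic 𝒜
  obtain ⟨Φ, hΦ⟩ := P.ext.exists_coordinates (r + m) ℂ
  have hP : ∀ i, (b i).1 = ∑ j, (b'.toMatrix b) j i • (b' j).1 := fun i => by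
    have h1 := b'.sum_toMatrix_smul_self b i
    have h2 := congrArg (fun l : P.Λ => l.1) h1
    simp only [AddSubgroup.val_finsetSum, AddSubgroup.coe_zsmul] at h2
    exact h2.symm
  have hu : (b'.toMatrix b).det = 1 ∨ (b'.toMatrix b).det = -1 := by
    have := b'.isUnit_det b
    rw [Module.Basis.det_apply] at this
    exact Int.isUnit_iff.1 this
  have h1 := det_eq_one_of_orientation Φ ω ω' (fun k v hv => hω k v (hΦ v hv))
    (fun k v hv => hω' k v (hΦ v hv)) (fun i => (b i).1) (fun i => (b' i).1) (b'.toMatrix b) hP hu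
    t t' ht ht' hdet hdet'
  ext v
  rw [alternating_eq_det b pt'.rat v, alternating_eq_det b pt.rat v, hb,
    alternating_eq_det b' pt'.rat b, hb', Module.Basis.det_apply b' b, h1]
  simp


/-- **The number `q` of `Statement` does not depend on the point class**: the clauses of `Statement` at one prime
`ℓ ≠ p` (copied verbatim) for two point classes `pt`, `pt'` pin the same rational number. -/
theorem statement_q_independent_of_pt {r m : ℕ} {𝒜 : AbelianScheme p K (r + m)} {P : PeriodDatum 𝒜}
    {pt pt' : BettiClass P (2 * r + 2 * m) (r + m)} (hpt : pt.IsPointClass) (hpt' : pt'.IsPointClass)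
    (g : BettiClass P (2 * r) r) (D : Fin m → CartierDivisor 𝒜.special.left)
    {ℓ : ℕ} [Fact ℓ.Prime] (hℓ : ℓ ≠ p) {q q' : ℚ}
    (hq : ∃ c : Fin m → P.Λ → P.Λ → ℤ_[ℓ], (∀ i, IsEllChern P ℓ (D i) (c i)) ∧
          ∀ l : Fin (2 * r + 2 * m) → P.Λ,
            lefschetzWedge r m (fun x => ((g.rat x : ℚ) : ℚ_[ℓ]))
              (fun i x y => ((c i x y : ℤ_[ℓ]) : ℚ_[ℓ])) l = (q : ℚ_[ℓ]) * ((pt.rat l : ℚ) : ℚ_[ℓ]))
    (hq' : ∃ c : Fin m → P.Λ → P.Λ → ℤ_[ℓ], (∀ i, IsEllChern P ℓ (D i) (c i)) ∧
          ∀ l : Fin (2 * r + 2 * m) → P.Λ,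
            lefschetzWedge r m (fun x => ((g.rat x : ℚ) : ℚ_[ℓ]))
              (fun i x y => ((c i x y : ℤ_[ℓ]) : ℚ_[ℓ])) l =
                (q' : ℚ_[ℓ]) * ((pt'.rat l : ℚ) : ℚ_[ℓ])) : q = q' := by
  rw [hpt.rat_unique hpt'] at hq'
  exact statement_q_unique hpt g D hℓ hq hq'

end

end Claimed.Open.R001
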