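import Claimed.Open.R001.SanityBilinear

/-!
# Result 001: the `ℓ`-adic clause of `Statement` is one scalar equation

For EVERY abelian scheme over `𝒪_w` of EVERY relative dimension (universally quantified; no example of positive dimension is
constructed).  The `ℓ`-adic clause of `Statement` is an identity between two functions of `2d` vectors of `Λ`.  As the classes
accepted by `IsEllChern` are biadditive (`SanityReduction.lean`, `SanityBilinear.lean`), both sides are alternating forms of top degree
on the free `ℤ`-module `Λ` of rank `2d`, and such a form is the determinant times its value on a basis.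

* `SlotAdd`, `SlotConst`, `multilinearOfSlotAdd` : functions which are additive in each slot are `ℤ`-multilinear maps;
* `wedgeTerm`, `wedgeTerm_slotAdd` : the summand of `lefschetzWedge` is additive in each slot;
* `alternating_eq_det'` : forms of top degree (values in any abelian group);
* **`lefschetzWedge_eq_det`** : `lefschetzWedge r m g e v = det_b(v) · lefschetzWedge r m g e b` for `g` multiadditive and `e i` biadditive
  (the formula is `1/((2r)! 2^m)` times Mathlib's `MultilinearMap.alternatization` of its summand);
* **`ell_clause_iff`** : the clause `∀ l, lefschetzWedge … l = q · pt.rat l` of `Statement` holds if and only if `lefschetzWedge … b = q`, where `b` is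
  the basis on which the class of a point is `1`;
* **`existsUnique_ell_trace`** : so, as soon as the classes `c i` exist, for each `ℓ ≠ p` there is exactly one `q ∈ ℚ_ℓ` which satisfies the clause:
  the trace is well defined, and what `Statement` asserts beyond the existence of the classes is that this number is rational, the same for
  all `ℓ`, and equal to the crystalline one.
-/

namespace Claimed.Open.R001

open Function

/-! ### Functions which are additive in each slot -/

section Slots

variable {ι M S : Type} [dec : DecidableEq ι] [AddCommGroup M] [CommRing S]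

/-- `F` is additive in the slot `j`. -/
def SlotAdd (F : (ι → M) → S) (j : ι) : Prop :=
  ∀ v x y, F (update v j (x + y)) = F (update v j x) + F (update v j y)

/-- `F` does not depend on the slot `j`. -/
def SlotConst (F : (ι → M) → S) (j : ι) : Prop :=
  ∀ v x, F (update v j x) = F v

theorem SlotAdd.mul_const {F G : (ι → M) → S} {j : ι} (hF : SlotAdd F j) (hG : SlotConst G j) :
    SlotAdd (fun v => F v * G v) j := fun v x y => by
  simp only [hF v x y, hG v, add_mul]

theorem SlotConst.mul_slotAdd {F G : (ι → M) → S} {j : ι} (hF : SlotConst F j) (hG : SlotAdd G j) :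
    SlotAdd (fun v => F v * G v) j := fun v x y => by
  simp only [hG v x y, hF v, mul_add]

omit [AddCommGroup M] in
theorem SlotConst.prod {κ : Type} (s : Finset κ) {B : κ → (ι → M) → S} {j : ι}
    (h : ∀ i ∈ s, SlotConst (B i) j) : SlotConst (fun v => ∏ i ∈ s, B i v) j := fun v x =>
  Finset.prod_congr rfl fun i hi => h i hi v x

theorem SlotAdd.prod {κ : Type} [DecidableEq κ] [Fintype κ] {B : κ → (ι → M) → S} {j : ι} (i₀ : κ)
    (h₀ : SlotAdd (B i₀) j) (h : ∀ i, i ≠ i₀ → SlotConst (B i) j) :
    SlotAdd (fun v => ∏ i, B i v) j := by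
  have h1 : (fun v => ∏ i, B i v) = fun v => B i₀ v * ∏ i ∈ Finset.univ.erase i₀, B i v := by
    funext v
    exact (Finset.mul_prod_erase Finset.univ (fun i => B i v) (Finset.mem_univ i₀)).symm
  rw [h1]
  exact h₀.mul_const (SlotConst.prod _ fun i hi => h i (Finset.ne_of_mem_erase hi))

/-- A function which is additive in each slot is a `ℤ`-multilinear map. -/
def multilinearOfSlotAdd (F : (ι → M) → S) (h : ∀ j, SlotAdd F j) :
    MultilinearMap ℤ (fun _ : ι => M) S where
  toFun := F
  map_update_add' := fun {inst} v j x y => by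
    have e : inst = dec := Subsingleton.elim _ _
    subst e
    exact h j v x y
  map_update_smul' := fun {inst} v j c x => by
    have e : inst = dec := Subsingleton.elim _ _
    subst e
    exact map_zsmul (AddMonoidHom.mk' (fun x => F (update v j x)) (h j v)) c x

end Slots

/-! ### The cup product formula gives a form of top degree -/

section Wedge

variable {S M : Type} [Field S] [AddCommGroup M]

/-- The summand of `lefschetzWedge` (before antisymmetrisation). -/
def wedgeTerm (r m : ℕ) (g : (Fin (2 * r) → M) → S) (e : Fin m → M → M → S)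
    (v : Fin (2 * r + 2 * m) → M) : S :=
  g (fun a => v (Fin.castAdd (2 * m) a)) *
    ∏ i : Fin m, e i (v (Fin.natAdd (2 * r) ⟨2 * i, by omega⟩))
      (v (Fin.natAdd (2 * r) ⟨2 * i + 1, by omega⟩))

theorem wedgeTerm_slotAdd (r m : ℕ) (g : (Fin (2 * r) → M) → S) (hg : ∀ a, SlotAdd g a)
    (e : Fin m → M → M → S) (he1 : ∀ i x x' y, e i (x + x') y = e i x y + e i x' y)
    (he2 : ∀ i x y y', e i x (y + y') = e i x y + e i x y') (j : Fin (2 * r + 2 * m)) :
    SlotAdd (wedgeTerm r m g e) j := by
  refine Fin.addCases (fun a => ?_) (fun t => ?_) j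
  · refine SlotAdd.mul_const (F := fun v => g (fun a => v (Fin.castAdd (2 * m) a))) ?_ ?_
    · intro v x y
      have h1 : ∀ z, (fun a' => update v (Fin.castAdd (2 * m) a) z (Fin.castAdd (2 * m) a')) =
          update (fun a' => v (Fin.castAdd (2 * m) a')) a z := fun z =>
        update_comp_eq_of_injective v (Fin.castAdd_injective _ _) a z
      simp only [h1]
      exact hg a _ x y
    · refine SlotConst.prod _ fun i _ v x => ?_
      rw [update_of_ne, update_of_ne]
      · intro h; have := congrArg Fin.val h; simp at this; omega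
      · intro h; have := congrArg Fin.val h; simp at this; omega
  · refine SlotConst.mul_slotAdd (F := fun v => g (fun a => v (Fin.castAdd (2 * m) a))) ?_ ?_
    · intro v x
      refine congrArg g ?_
      funext a
      rw [update_of_ne]
      intro h
      have h1 := congrArg Fin.val h
      have ha := a.isLt
      rw [Fin.val_castAdd, Fin.val_natAdd] at h1
      omega
    · have hi₀ : (t : ℕ) / 2 < m := by omega
      refine SlotAdd.prod (⟨(t : ℕ) / 2, hi₀⟩ : Fin m) ?_ fun i hi v x => ?_
      · intro v x y
        rcases Nat.even_or_odd' (t : ℕ) with ⟨s, hs | hs⟩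
        · have e1 : (⟨2 * ((⟨(t : ℕ) / 2, hi₀⟩ : Fin m) : ℕ), by simp only []; omega⟩ : Fin (2 * m)) = t :=
            Fin.ext (by simp only []; omega)
          have e2 : Fin.natAdd (2 * r) (⟨2 * ((⟨(t : ℕ) / 2, hi₀⟩ : Fin m) : ℕ) + 1, by simp only []; omega⟩ : Fin (2 * m)) ≠
              Fin.natAdd (2 * r) t := by
            intro h; have := congrArg Fin.val h; simp at this; omega
          simp only [e1, update_self, update_of_ne e2]
          exact he1 _ _ _ _
        · have e1 : (⟨2 * ((⟨(t : ℕ) / 2, hi₀⟩ : Fin m) : ℕ) + 1, by simp only []; omega⟩ : Fin (2 * m)) = t :=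
            Fin.ext (by simp only []; omega)
          have e2 : Fin.natAdd (2 * r) (⟨2 * ((⟨(t : ℕ) / 2, hi₀⟩ : Fin m) : ℕ), by simp only []; omega⟩ : Fin (2 * m)) ≠
              Fin.natAdd (2 * r) t := by
            intro h; have := congrArg Fin.val h; simp at this; omega
          simp only [e1, update_self, update_of_ne e2]
          exact he2 _ _ _ _
      · have hne : (i : ℕ) ≠ (t : ℕ) / 2 := fun h => hi (Fin.ext h)
        rw [update_of_ne, update_of_ne]
        · intro h; have := congrArg Fin.val h; simp at this; omega
        · intro h; have := congrArg Fin.val h; simp at this; omega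

/-- An alternating form of top degree on a free `ℤ`-module is the determinant times its value on the
basis (values in any abelian group). -/
theorem alternating_eq_det' {n : ℕ} {M N : Type} [AddCommGroup M] [AddCommGroup N]
    (b : Module.Basis (Fin n) ℤ M) (f : AlternatingMap ℤ M N (Fin n)) (v : Fin n → M) :
    f v = b.det v • f b := by
  have key : f = (LinearMap.toSpanSingleton ℤ N (f b)).compAlternatingMap b.det := by
    apply Module.Basis.ext_alternating b
    intro w hw
    obtain ⟨σ, rfl⟩ : ∃ σ : Equiv.Perm (Fin n), w = σ :=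
      ⟨Equiv.ofBijective w (Finite.injective_iff_bijective.1 hw), rfl⟩
    have h1 : (fun i => b (σ i)) = (b ∘ σ) := rfl
    rw [h1, AlternatingMap.map_perm, LinearMap.compAlternatingMap_apply, AlternatingMap.map_perm,
      Module.Basis.det_self]
    simp
  conv_lhs => rw [key]
  simp [LinearMap.toSpanSingleton_apply]

/-- **The cup product formula, evaluated on biadditive functions, is a form of top degree**: it is the
determinant times its value on a basis. -/
theorem lefschetzWedge_eq_det (r m : ℕ) (g : (Fin (2 * r) → M) → S) (hg : ∀ a, SlotAdd g a)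
    (e : Fin m → M → M → S) (he1 : ∀ i x x' y, e i (x + x') y = e i x y + e i x' y)
    (he2 : ∀ i x y y', e i x (y + y') = e i x y + e i x y')
    (b : Module.Basis (Fin (2 * r + 2 * m)) ℤ M) (v : Fin (2 * r + 2 * m) → M) :
    lefschetzWedge r m g e v = ((b.det v : ℤ) : S) * lefschetzWedge r m g e b := by
  have key : ∀ w, lefschetzWedge r m g e w = ((((2 * r).factorial : ℕ) : S) * 2 ^ m)⁻¹ *
      (MultilinearMap.alternatization (multilinearOfSlotAdd (wedgeTerm r m g e)
        (wedgeTerm_slotAdd r m g hg e he1 he2))) w := by
    intro w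
    unfold lefschetzWedge
    congr 1
    rw [MultilinearMap.alternatization_apply]
    refine Finset.sum_congr rfl fun σ _ => ?_
    rw [MultilinearMap.domDomCongr_apply, Units.smul_def, zsmul_eq_mul]
    rfl
  rw [key, key, alternating_eq_det' b _ v, zsmul_eq_mul]
  ring

end Wedge

/-! ### The `ℓ`-adic clause of `Statement` is one scalar equation -/

section Clause

variable {p : ℕ} [Fact p.Prime] {K : Type} [Field K] [Algebra K ℂ_[p]] [Algebra K ℂ]

/-- **The `ℓ`-adic clause of `Statement` is equivalent to ONE scalar equation**, for every abelian scheme of every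
dimension: as the classes `c i` are biadditive, both sides are forms of top degree on `Λ`, so they agree as soon as they
agree on the basis `b` on which the class of a point is `1`. -/
theorem ell_clause_iff {r m : ℕ} {𝒜 : AbelianScheme p K (r + m)} {P : PeriodDatum 𝒜}
    {pt : BettiClass P (2 * r + 2 * m) (r + m)} (b : Module.Basis (Fin (2 * r + 2 * m)) ℤ P.Λ)
    (hb : pt.rat b = 1) (g : BettiClass P (2 * r) r) (D : Fin m → CartierDivisor 𝒜.special.left)
    {ℓ : ℕ} [Fact ℓ.Prime] (hℓ : ℓ ≠ p) (c : Fin m → P.Λ → P.Λ → ℤ_[ℓ])
    (hc : ∀ i, IsEllChern P ℓ (D i) (c i)) (q : ℚ_[ℓ]) :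
    (∀ l : Fin (2 * r + 2 * m) → P.Λ,
      lefschetzWedge r m (fun x => ((g.rat x : ℚ) : ℚ_[ℓ]))
        (fun i x y => ((c i x y : ℤ_[ℓ]) : ℚ_[ℓ])) l = q * ((pt.rat l : ℚ) : ℚ_[ℓ])) ↔
    lefschetzWedge r m (fun x => ((g.rat x : ℚ) : ℚ_[ℓ]))
        (fun i x y => ((c i x y : ℤ_[ℓ]) : ℚ_[ℓ])) b = q := by
  constructor
  · intro h
    rw [h b, hb, Rat.cast_one, mul_one]
  · intro h l
    rw [lefschetzWedge_eq_det r m _ (fun a v x y => by
        rw [g.rat.map_update_add, Rat.cast_add]) _
      (fun i x x' y => by rw [(hc i).add_left hℓ, PadicInt.coe_add])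
      (fun i x y y' => by rw [(hc i).add_right hℓ, PadicInt.coe_add]) b l, h,
      alternating_eq_det b pt.rat l, hb]
    push_cast
    ring

/-- For each `ℓ ≠ p` the `ℓ`-adic trace is a well defined element of `ℚ_ℓ` as soon as the classes of the divisors
exist: what `Statement` asserts beyond the existence of the classes is that this number is rational, the same for all
`ℓ`, and equal to the crystalline one. -/
theorem existsUnique_ell_trace {r m : ℕ} {𝒜 : AbelianScheme p K (r + m)} {P : PeriodDatum 𝒜}
    {pt : BettiClass P (2 * r + 2 * m) (r + m)} (hpt : pt.IsPointClass)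
    (g : BettiClass P (2 * r) r) (D : Fin m → CartierDivisor 𝒜.special.left)
    {ℓ : ℕ} [Fact ℓ.Prime] (hℓ : ℓ ≠ p) (c : Fin m → P.Λ → P.Λ → ℤ_[ℓ])
    (hc : ∀ i, IsEllChern P ℓ (D i) (c i)) :
    ∃! q : ℚ_[ℓ], ∀ l : Fin (2 * r + 2 * m) → P.Λ,
      lefschetzWedge r m (fun x => ((g.rat x : ℚ) : ℚ_[ℓ]))
        (fun i x y => ((c i x y : ℤ_[ℓ]) : ℚ_[ℓ])) l = q * ((pt.rat l : ℚ) : ℚ_[ℓ]) := by
  obtain ⟨b, -, -, -, -, -, hb⟩ := hpt
  refine ⟨_, (ell_clause_iff b hb g D hℓ c hc _).2 rfl, fun q hq => ?_⟩
  exact ((ell_clause_iff b hb g D hℓ c hc q).1 hq).symm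

end Clause

end Claimed.Open.R001
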