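import Claimed.Open.R001.SanityLinearEquiv
import Claimed.Open.R001.SanityTopDegree

/-!
# Result 001: principal divisors have class `0`, and then `q = 0`

For EVERY abelian scheme over `𝒪_w` of EVERY relative dimension (universally quantified).

* `IsEllChern.zero_of_linEquiv_zero` : if `IsEllChern P ℓ D₀ c₀` holds for SOME divisor `D₀` (i.e. the torsion points and roots of unity which the
  predicate asks for exist), then the function `0` is accepted for every principal divisor `D = div φ`;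
* **`IsEllChern.eq_zero_of_principal`** : and it is the only one: `c_{1,ℓ}(div φ) = 0`;
* **`statement_q_eq_zero_of_principal`** : if one of the divisors `D i` of `Statement` is principal, the clause of `Statement` at one prime `ℓ ≠ p`
  (copied verbatim) forces `q = 0`: the first evaluation of `q` with `m ≥ 1` in every dimension;
* `IsCrisChern.add_left`, `IsCrisChern.add_right` : a function accepted by `IsCrisChern` is biadditive.
-/

open CategoryTheory AlgebraicGeometry MonoidalCategory CartesianMonoidalCategory MonObj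

namespace Claimed.Open.R001

noncomputable section

variable {p : ℕ} [Fact p.Prime] {K : Type} [Field K] [Algebra K ℂ_[p]] [Algebra K ℂ]

section Principal

variable {d : ℕ} {𝒜 : AbelianScheme p K d} {P : PeriodDatum 𝒜}

/-- If `IsEllChern` can be met at all, `0` is accepted for the divisors `div φ`. -/
theorem IsEllChern.zero_of_linEquiv_zero {ℓ : ℕ} [Fact ℓ.Prime]
    {D₀ D : CartierDivisor 𝒜.special.left} {c₀ : P.Λ → P.Λ → ℤ_[ℓ]} (h₀ : IsEllChern P ℓ D₀ c₀)
    {φ : 𝒜.special.left.functionField} (hD : (zeroDivisor 𝒜.special.left).LinEquiv D φ) :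
    IsEllChern P ℓ D (fun _ _ => 0) := by
  refine IsEllChern.congr_linEquiv hD ?_
  intro n l m
  obtain ⟨x, y, ζ, hx, hy, hζ, hW⟩ := h₀ n l m
  refine ⟨x, y, ζ, hx, hy, hζ, ?_⟩
  have h1 := isWeilValue_zeroDivisor 𝒜.special (ℓ ^ n) (𝒜.red x) (𝒜.red y) (hW.mulBy_dominant _)
  have hpos : 0 < ℓ ^ n := pow_pos (Fact.out : ℓ.Prime).pos n
  have : NeZero (ℓ ^ n) := ⟨hpos.ne'⟩
  rw [map_zero, ZMod.val_zero, pow_zero]
  exact h1

/-- **The `ℓ`-adic class of a principal divisor is `0`.** -/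
theorem IsEllChern.eq_zero_of_principal {ℓ : ℕ} [Fact ℓ.Prime] (hℓ : ℓ ≠ p)
    {D : CartierDivisor 𝒜.special.left} {c : P.Λ → P.Λ → ℤ_[ℓ]} (h : IsEllChern P ℓ D c)
    {φ : 𝒜.special.left.functionField} (hD : (zeroDivisor 𝒜.special.left).LinEquiv D φ) :
    c = fun _ _ => 0 :=
  h.unique hℓ (h.zero_of_linEquiv_zero hD)

end Principal

/-- **If one of the divisors is principal, `q = 0`**: forced by the clause of `Statement` at one prime `ℓ ≠ p` (copied
verbatim), for every abelian scheme of every dimension. -/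
theorem statement_q_eq_zero_of_principal {r m : ℕ} {𝒜 : AbelianScheme p K (r + m)}
    {P : PeriodDatum 𝒜} {pt : BettiClass P (2 * r + 2 * m) (r + m)} (hpt : pt.IsPointClass)
    (g : BettiClass P (2 * r) r) (D : Fin m → CartierDivisor 𝒜.special.left)
    {ℓ : ℕ} [Fact ℓ.Prime] (hℓ : ℓ ≠ p) {q : ℚ} (i₀ : Fin m)
    {φ : 𝒜.special.left.functionField} (hD : (zeroDivisor 𝒜.special.left).LinEquiv (D i₀) φ)
    (hq : ∃ c : Fin m → P.Λ → P.Λ → ℤ_[ℓ], (∀ i, IsEllChern P ℓ (D i) (c i)) ∧
          ∀ l : Fin (2 * r + 2 * m) → P.Λ,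
            lefschetzWedge r m (fun x => ((g.rat x : ℚ) : ℚ_[ℓ]))
              (fun i x y => ((c i x y : ℤ_[ℓ]) : ℚ_[ℓ])) l =
                (q : ℚ_[ℓ]) * ((pt.rat l : ℚ) : ℚ_[ℓ])) : q = 0 := by
  obtain ⟨c, hc, h⟩ := hq
  obtain ⟨b, -, -, -, -, -, hb⟩ := hpt
  have h0 := (hc i₀).eq_zero_of_principal hℓ hD
  have h1 := h b
  rw [hb, Rat.cast_one, _root_.mul_one] at h1
  have h2 : lefschetzWedge r m (fun x => ((g.rat x : ℚ) : ℚ_[ℓ]))
      (fun i x y => ((c i x y : ℤ_[ℓ]) : ℚ_[ℓ])) b = 0 := by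
    unfold lefschetzWedge
    rw [Finset.sum_eq_zero, mul_zero]
    intro σ _
    rw [Finset.prod_eq_zero (Finset.mem_univ i₀) (by simp [h0]), mul_zero, mul_zero]
  rw [h2] at h1
  exact_mod_cast h1.symm

section Cris

variable {d : ℕ} {𝒜 : AbelianScheme p K d} {P : PeriodDatum 𝒜}

theorem IsCrisChern.add_left {D : CartierDivisor 𝒜.special.left}
    {c : P.HdR ℂ_[p] → P.HdR ℂ_[p] → ℂ_[p]} (h : IsCrisChern P D c) (v v' w : P.HdR ℂ_[p]) :
    c (v + v') w = c v w + c v' w := by
  obtain ⟨H, hh, hp, N, u, T, -, -, hN, -, -, -, h7⟩ := h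
  have hN' : (N : ℂ_[p]) ≠ 0 := by exact_mod_cast hN.ne'
  apply mul_left_cancel₀ hN'
  rw [mul_add, h7, h7, h7]
  have e1 : ∀ z, Function.update ![v, T w] 0 z = ![z, T w] := fun z => by
    ext i; fin_cases i <;> simp
  have := hp.map_update_add ![v, T w] 0 v v'
  rwa [e1, e1, e1] at this

theorem IsCrisChern.add_right {D : CartierDivisor 𝒜.special.left}
    {c : P.HdR ℂ_[p] → P.HdR ℂ_[p] → ℂ_[p]} (h : IsCrisChern P D c) (v w w' : P.HdR ℂ_[p]) :
    c v (w + w') = c v w + c v w' := by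
  obtain ⟨H, hh, hp, N, u, T, -, -, hN, -, -, -, h7⟩ := h
  have hN' : (N : ℂ_[p]) ≠ 0 := by exact_mod_cast hN.ne'
  apply mul_left_cancel₀ hN'
  rw [mul_add, h7, h7, h7, map_add]
  have e1 : ∀ z, Function.update ![v, T w] 1 z = ![v, z] := fun z => by
    ext i; fin_cases i <;> simp
  have := hp.map_update_add ![v, T w] 1 (T w) (T w')
  rwa [e1, e1, e1] at this

end Cris

end

end Claimed.Open.R001
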