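import Claimed.Open.R001.Statement

/-!
# open001 (Milne's rationality conjecture): sanity checks for the cup product formula

`lefschetzWedge r m g e v` is meant to be `(g ∧ e_0 ∧ ⋯ ∧ e_{m-1})(v)` for the wedge product which
corresponds to the cup product on `H^*(A) = ⋀^* H^1(A)` (sum over shuffles).  Checked here:

* `lefschetzWedge_no_divisor` : for `m = 0` it is the `2r`-form itself;
* `lefschetzWedge_dim_one`    : for `r = 0`, `m = 1` it is `E(v₀, v₁)`;
* `lefschetzWedge_one_eq_domCoprod` : for `m = 1` and all `r` it is Mathlib's wedge product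
  `AlternatingMap.domCoprod`;
* `lefschetzWedge_stdSymp`, `lefschetzWedge_stdSymp6` : for the standard symplectic form `E` on `ℤ^{2d}`
  (a principal polarisation) `E^{∧ d}(e₀,f₀,…) = d!`, in accordance with `(H^d) = d! · Pf(E)`
  (`d = 2, 3`).
-/

namespace Claimed.Open.R001

/-- With no divisor (`m = 0`, i.e. `r = d`) the product is the `2r`-form itself. -/
theorem lefschetzWedge_no_divisor {S M : Type} [Field S] [CharZero S] [AddCommGroup M] [Module S M]
    (r : ℕ) (al : M [⋀^Fin (2 * r)]→ₗ[S] S) (e : Fin 0 → M → M → S) (v : Fin (2 * r + 2 * 0) → M) :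
    lefschetzWedge r 0 (fun x => al x) e v = al v := by
  unfold lefschetzWedge
  have h1 : ∀ σ : Equiv.Perm (Fin (2 * r + 2 * 0)),
      ((Equiv.Perm.sign σ : ℤ) : S) * (al (fun a => v (σ (Fin.castAdd (2 * 0) a))) *
        ∏ i : Fin 0, e i (v (σ (Fin.natAdd (2 * r) ⟨2 * i, by omega⟩)))
          (v (σ (Fin.natAdd (2 * r) ⟨2 * i + 1, by omega⟩)))) = al v := by
    intro σ
    have h2 : (fun a : Fin (2 * r) => v (σ (Fin.castAdd (2 * 0) a))) = v ∘ σ := by
      funext i; rfl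
    rw [h2]
    have h3 := AlternatingMap.map_perm al v σ
    rw [h3]
    rcases Int.units_eq_one_or (Equiv.Perm.sign σ) with h | h <;> simp [h]
  rw [Finset.sum_congr rfl (fun σ _ => h1 σ)]
  simp only [Finset.sum_const, Finset.card_univ, Fintype.card_perm, Fintype.card_fin, pow_zero,
    mul_one, nsmul_eq_mul]
  have : (((2 * r).factorial : ℕ) : S) ≠ 0 := by exact_mod_cast (Nat.factorial_ne_zero _)
  have e0 : 2 * r + 2 * 0 = 2 * r := rfl
  simp only [e0]
  field_simp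


/-- `d = 1`, `r = 0`, one alternating two-form `E`: the product is `E(v₀, v₁)`. -/
theorem lefschetzWedge_dim_one {S M : Type} [Field S] [CharZero S]
    (g : (Fin (2 * 0) → M) → S) (e : Fin 1 → M → M → S) (he : ∀ x y, e 0 x y = - e 0 y x)
    (v : Fin (2 * 0 + 2 * 1) → M) :
    lefschetzWedge 0 1 g e v = g (fun i => i.elim0) * e 0 (v 0) (v 1) := by
  unfold lefschetzWedge
  have hg : ∀ σ : Equiv.Perm (Fin (2 * 0 + 2 * 1)),
      (fun a : Fin (2 * 0) => v (σ (Fin.castAdd (2 * 1) a))) = (fun i => i.elim0) := by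
    intro σ; funext i; exact i.elim0
  simp only [hg]
  rw [show (Finset.univ : Finset (Equiv.Perm (Fin (2 * 0 + 2 * 1)))) =
    {1, Equiv.swap (0 : Fin 2) 1} by decide]
  rw [Finset.sum_pair (by decide)]
  simp only [Fin.prod_univ_one]
  have s1 : Equiv.Perm.sign (1 : Equiv.Perm (Fin (2 * 0 + 2 * 1))) = 1 := Equiv.Perm.sign_one
  have s2 : Equiv.Perm.sign (Equiv.swap (0 : Fin 2) 1 : Equiv.Perm (Fin (2 * 0 + 2 * 1))) = -1 :=
    Equiv.Perm.sign_swap (by decide)
  rw [s1, s2]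
  have e0 : (Fin.natAdd (2 * 0) (⟨2 * ((0 : Fin 1) : ℕ), by omega⟩ : Fin (2 * 1)) :
      Fin (2 * 0 + 2 * 1)) = (0 : Fin 2) := rfl
  have e1 : (Fin.natAdd (2 * 0) (⟨2 * ((0 : Fin 1) : ℕ) + 1, by omega⟩ : Fin (2 * 1)) :
      Fin (2 * 0 + 2 * 1)) = (1 : Fin 2) := rfl
  simp only [e0, e1, Equiv.Perm.one_apply]
  have t0 : (Equiv.swap (0 : Fin 2) 1 : Equiv.Perm (Fin (2 * 0 + 2 * 1))) (0 : Fin 2) = (1 : Fin 2) :=
    Equiv.swap_apply_left _ _
  have t1 : (Equiv.swap (0 : Fin 2) 1 : Equiv.Perm (Fin (2 * 0 + 2 * 1))) (1 : Fin 2) = (0 : Fin 2) :=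
    Equiv.swap_apply_right _ _
  rw [t0, t1]
  have := he (v (1 : Fin 2)) (v (0 : Fin 2))
  rw [this]
  simp
  ring

/-- The standard symplectic form on `ℤ⁴` (basis `e₀,f₀,e₁,f₁`): `E ∧ E (e₀,f₀,e₁,f₁) = 2 = 2!·Pf`. -/
def stdSymp (i j : Fin 4) : ℚ :=
  if (i, j) = (0, 1) ∨ (i, j) = (2, 3) then 1 else if (i, j) = (1, 0) ∨ (i, j) = (3, 2) then -1 else 0

theorem lefschetzWedge_stdSymp :
    lefschetzWedge 0 2 (fun _ => 1) (fun _ => stdSymp) (fun i : Fin (2 * 0 + 2 * 2) => (i : Fin 4)) = 2 := by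
  decide +kernel

def stdSymp6 (i j : Fin 6) : ℚ :=
  if i.val + 1 = j.val ∧ i.val % 2 = 0 then 1 else if j.val + 1 = i.val ∧ j.val % 2 = 0 then -1 else 0

theorem lefschetzWedge_stdSymp6 :
    lefschetzWedge 0 3 (fun _ => 1) (fun _ => stdSymp6) (fun i : Fin (2 * 0 + 2 * 3) => (i : Fin 6)) = 6 := by
  decide +kernel

/-- For one divisor the explicit formula `lefschetzWedge` is Mathlib's wedge product
`AlternatingMap.domCoprod` (sum over shuffles) of the `2r`-form and the two-form. -/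
theorem lefschetzWedge_one_eq_domCoprod {S M : Type} [Field S] [CharZero S] [AddCommGroup M]
    [Module S M] (r : ℕ) (al : M [⋀^Fin (2 * r)]→ₗ[S] S) (E : M [⋀^Fin 2]→ₗ[S] S)
    (v : Fin (2 * r + 2 * 1) → M) :
    lefschetzWedge r 1 (fun x => al x) (fun _ x y => E ![x, y]) v =
      (LinearMap.mul' S S).compAlternatingMap (al.domCoprod E)
        (v ∘ (finSumFinEquiv : Fin (2 * r) ⊕ Fin 2 ≃ Fin (2 * r + 2))) := by
  have key := congrArg (fun F => (LinearMap.mul' S S)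
      (F (v ∘ (finSumFinEquiv : Fin (2 * r) ⊕ Fin 2 ≃ Fin (2 * r + 2)))))
    (MultilinearMap.domCoprod_alternization_eq al E)
  simp only [MultilinearMap.alternatization_apply, map_sum, Fintype.card_fin,
    AlternatingMap.smul_apply, map_nsmul] at key
  have hne : ((((2 * r).factorial : ℕ) : S) * 2 ^ 1) ≠ 0 := by
    have : (((2 * r).factorial : ℕ) : S) ≠ 0 := by exact_mod_cast (Nat.factorial_ne_zero _)
    simp [this]
  rw [LinearMap.compAlternatingMap_apply]
  unfold lefschetzWedge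
  rw [inv_mul_eq_iff_eq_mul₀ hne]
  have h2 : (((2 * r).factorial * Nat.factorial 2) •
      (LinearMap.mul' S S) ((al.domCoprod E) (v ∘ (finSumFinEquiv : Fin (2 * r) ⊕ Fin 2 ≃ Fin (2 * r + 2))))) =
      ((((2 * r).factorial : ℕ) : S) * 2 ^ 1) * (LinearMap.mul' S S) ((al.domCoprod E)
        (v ∘ (finSumFinEquiv : Fin (2 * r) ⊕ Fin 2 ≃ Fin (2 * r + 2)))) := by
    simp [nsmul_eq_mul]
  rw [← h2, ← key]
  rw [← Equiv.sum_comp (Equiv.permCongr (finSumFinEquiv (m := 2 * r) (n := 2)))]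
  refine Finset.sum_congr rfl (fun σ _ => ?_)
  rw [Equiv.Perm.sign_permCongr]
  have hA : (fun a : Fin (2 * r) => v ((finSumFinEquiv.permCongr σ) (Fin.castAdd (2 * 1) a))) =
      fun i => (v ∘ (finSumFinEquiv : Fin (2 * r) ⊕ Fin 2 ≃ Fin (2 * r + 2))) (σ (Sum.inl i)) := by
    funext i
    have : (Fin.castAdd (2 * 1) i : Fin (2 * r + 2 * 1)) = finSumFinEquiv (Sum.inl i) := rfl
    rw [this, Equiv.permCongr_apply, Equiv.symm_apply_apply]; rfl
  have hB0 : (finSumFinEquiv.permCongr σ)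
      (Fin.natAdd (2 * r) (⟨2 * ((0 : Fin 1) : ℕ), by omega⟩ : Fin (2 * 1))) =
      finSumFinEquiv (σ (Sum.inr 0)) := by
    have : (Fin.natAdd (2 * r) (⟨2 * ((0 : Fin 1) : ℕ), by omega⟩ : Fin (2 * 1)) : Fin (2 * r + 2 * 1))
        = finSumFinEquiv (Sum.inr 0) := rfl
    rw [this, Equiv.permCongr_apply, Equiv.symm_apply_apply]
  have hB1 : (finSumFinEquiv.permCongr σ)
      (Fin.natAdd (2 * r) (⟨2 * ((0 : Fin 1) : ℕ) + 1, by omega⟩ : Fin (2 * 1))) =
      finSumFinEquiv (σ (Sum.inr 1)) := by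
    have : (Fin.natAdd (2 * r) (⟨2 * ((0 : Fin 1) : ℕ) + 1, by omega⟩ : Fin (2 * 1)) : Fin (2 * r + 2 * 1))
        = finSumFinEquiv (Sum.inr 1) := rfl
    rw [this, Equiv.permCongr_apply, Equiv.symm_apply_apply]
  simp only [Fin.prod_univ_one]
  rw [hA, hB0, hB1]
  have hE : (![v (finSumFinEquiv (σ (Sum.inr 0))), v (finSumFinEquiv (σ (Sum.inr 1)))] : Fin 2 → M) =
      fun i => (v ∘ (finSumFinEquiv : Fin (2 * r) ⊕ Fin 2 ≃ Fin (2 * r + 2))) (σ (Sum.inr i)) := by
    funext i; fin_cases i <;> rfl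
  rw [hE]
  rw [MultilinearMap.domDomCongr_apply, MultilinearMap.domCoprod_apply]
  rcases Int.units_eq_one_or (Equiv.Perm.sign σ) with h | h <;> simp [h]

end Claimed.Open.R001
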