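import Claimed.Open.R001.SanityUnique
import Claimed.Open.R001.SanityWedge

/-!
# Result 001: reduction of points is a homomorphism; additivity of the `ℓ`-adic class; the case `r = d`

As in `SanityUnique.lean`, the theorems of this file hold for EVERY abelian scheme `𝒜` over `𝒪_w`, of EVERY
relative dimension (they are universally quantified: no example of positive dimension is constructed).

* `Pts.map_mul`, `Pts.toBaseChange_eq`, `Pts.toBaseChange_mul` : the maps `X(B) → X(B')` and `X(B) → (X ⊗_R R')(B)` are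
  homomorphisms for the group law which `baseChangeGrpObj` puts on the base change: a test of that instance;
* `gen_mul`, `red_mul` : `𝒜(𝒪_w) → A(K)` and the reduction `𝒜(𝒪_w) → A₀(𝔽)` are homomorphisms of groups;
* `tors_add` : `exp_A((l + l')/n) = exp_A(l/n) exp_A(l'/n)`;
* **`IsEllChern.add_left`**, `IsEllChern.zero_left` : a function `c` accepted by `IsEllChern P ℓ D` is additive in its
  first argument (the second argument and the antisymmetry need the theorem of the square and are not checked);
* `lefschetzWedge_no_divisor'` : for `m = 0` the wedge is the form itself (for antisymmetric functions);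
* **`ell_half_no_divisor`** : the `ℓ`-adic half of the conclusion of `Statement`, copied verbatim, is PROVED for `m = 0`
  (`r = d`, no divisor: "the divisor product is `1`"), in every dimension: one rational `q` for all `ℓ ≠ p`.
-/

open CategoryTheory AlgebraicGeometry MonoidalCategory CartesianMonoidalCategory MonObj

namespace Claimed.Open.R001

noncomputable section

/-! ### Points and base change are compatible with the group laws -/

section Points

variable {R : Type} [CommRing R] {X : Over (Spec (CommRingCat.of R))}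

theorem Pts.map_mul [GrpObj X] {B : Type} [CommRing B] [Algebra R B] (B' : Type) [CommRing B']
    [Algebra R B'] [Algebra B B'] [IsScalarTower R B B'] (x y : Pts X B) :
    (x * y).map B' = x.map B' * y.map B' :=
  MonObj.comp_mul _ _ _

/-- `toBaseChange` is the composite of the universal point with the base change functor. -/
theorem Pts.toBaseChange_eq (R' : Type) [CommRing R'] [Algebra R R']
    {B : Type} [CommRing B] [Algebra R B] [Algebra R' B] [IsScalarTower R R' B] (x : Pts X B) :
    x.toBaseChange R' = Pts.toBaseChange R' (X := specOver R B) (𝟙 (specOver R B)) ≫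
      (Over.pullback (Spec.map (CommRingCat.ofHom (algebraMap R R')))).map x := by
  ext1
  apply Limits.pullback.hom_ext
  · simp only [Pts.toBaseChange, Over.homMk_left, Over.comp_left, Over.pullback_map_left,
      Category.assoc]
    erw [Limits.pullback.lift_fst, Limits.pullback.lift_fst, Limits.pullback.lift_fst_assoc]
    exact (Category.id_comp _).symm
  · simp only [Pts.toBaseChange, Over.homMk_left, Over.comp_left, Over.pullback_map_left,
      Category.assoc]
    erw [Limits.pullback.lift_snd, Limits.pullback.lift_snd, Limits.pullback.lift_snd]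

theorem Pts.toBaseChange_mul [GrpObj X] (R' : Type) [CommRing R'] [Algebra R R']
    {B : Type} [CommRing B] [Algebra R B] [Algebra R' B] [IsScalarTower R R' B] (x y : Pts X B) :
    (x * y).toBaseChange R' = x.toBaseChange R' * y.toBaseChange R' := by
  rw [Pts.toBaseChange_eq, Pts.toBaseChange_eq R' x, Pts.toBaseChange_eq R' y, Functor.map_mul,
    MonObj.comp_mul]

end Points

/-! ### Generic fibre and reduction of points are homomorphisms -/

section Abelian

variable {p : ℕ} [Fact p.Prime] {K : Type} [Field K] [Algebra K ℂ_[p]] [Algebra K ℂ] {d : ℕ}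
  (𝒜 : AbelianScheme p K d)

omit [Algebra K ℂ] in
/-- `𝒜(𝒪_w) → A(K)` is a homomorphism of groups. -/
theorem gen_mul (x y : Pts 𝒜.X (Ow p K)) : 𝒜.gen (x * y) = 𝒜.gen x * 𝒜.gen y := by
  unfold AbelianScheme.gen
  rw [Pts.map_mul, Pts.toBaseChange_mul]

omit [Algebra K ℂ] in
/-- The reduction `𝒜(𝒪_w) → A₀(𝔽)` is a homomorphism of groups. -/
theorem red_mul (x y : Pts 𝒜.X (Ow p K)) : 𝒜.red (x * y) = 𝒜.red x * 𝒜.red y := by
  unfold AbelianScheme.red
  rw [Pts.map_mul, Pts.toBaseChange_mul]

variable {𝒜} (P : PeriodDatum 𝒜)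

/-- `exp_A((l + l')/n) = exp_A(l/n) exp_A(l'/n)`. -/
theorem tors_add (l l' : P.Λ) (n : ℕ) : P.tors (l + l') n = P.tors l n * P.tors l' n := by
  unfold PeriodDatum.tors
  rw [AddSubgroup.coe_add, smul_add, map_add, toMul_add, MonObj.mul_comp]

variable {P}

/-- **The `ℓ`-adic class of a divisor is additive in its first argument**, for every abelian scheme of
every dimension. -/
theorem IsEllChern.add_left {ℓ : ℕ} [Fact ℓ.Prime] (hℓ : ℓ ≠ p)
    {D : CartierDivisor 𝒜.special.left} {c : P.Λ → P.Λ → ℤ_[ℓ]} (h : IsEllChern P ℓ D c)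
    (l l' m : P.Λ) : c (l + l') m = c l m + c l' m := by
  rw [← PadicInt.ext_of_toZModPow]
  intro n
  obtain ⟨x, y, ζ, hx, hy, hζ, hW⟩ := h n l m
  obtain ⟨x', y', ζ', hx', hy', hζ', hW'⟩ := h n l' m
  obtain ⟨x'', y'', ζ'', hx'', hy'', hζ'', hW''⟩ := h n (l + l') m
  obtain rfl : y = y' := gen_injective 𝒜 (generic_map_injective 𝒜 (hy.trans hy'.symm))
  obtain rfl : y = y'' := gen_injective 𝒜 (generic_map_injective 𝒜 (hy.trans hy''.symm))
  have hinj : Function.Injective (algebraMap (Ow p K) ℂ) :=
    (algebraMap K ℂ).injective.comp Subtype.val_injective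
  obtain rfl : ζ = ζ' := hinj (hζ.trans hζ'.symm)
  obtain rfl : ζ = ζ'' := hinj (hζ.trans hζ''.symm)
  obtain rfl : x'' = x * x' := by
    apply gen_injective 𝒜
    apply generic_map_injective 𝒜
    rw [hx'', tors_add, gen_mul, Pts.map_mul, hx, hx']
  have := isProper_special 𝒜
  have h0 := hW.mul _ hW'
  rw [← red_mul, ← pow_add] at h0
  have h1 := IsWeilValue.unique _ hW'' h0
  have hcop : (ℓ ^ n).Coprime p :=
    Nat.Coprime.pow_left n ((Nat.coprime_primes Fact.out Fact.out).2 hℓ)
  have hpos : 0 < ℓ ^ n := pow_pos (Fact.out : ℓ.Prime).pos n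
  have : NeZero (ℓ ^ n) := ⟨hpos.ne'⟩
  have hprim := isPrimitiveRoot_reduction hcop hpos hζ
  have hmod : ∀ j : ℕ, algebraMap (Ow p K) (Fbar p) ζ ^ (j % ℓ ^ n) =
      algebraMap (Ow p K) (Fbar p) ζ ^ j := fun j => by
    conv_rhs => rw [← Nat.div_add_mod j (ℓ ^ n), pow_add, pow_mul, hprim.pow_eq_one, one_pow,
      _root_.one_mul]
  have h2 := hprim.pow_inj (ZMod.val_lt _) (Nat.mod_lt _ hpos) (h1.trans (hmod _).symm)
  have h3 := congrArg (Nat.cast : ℕ → ZMod (ℓ ^ n)) h2
  rw [ZMod.natCast_mod, Nat.cast_add, ZMod.natCast_zmod_val, ZMod.natCast_zmod_val,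
    ZMod.natCast_zmod_val] at h3
  rw [h3, map_add]

theorem IsEllChern.zero_left {ℓ : ℕ} [Fact ℓ.Prime] (hℓ : ℓ ≠ p)
    {D : CartierDivisor 𝒜.special.left} {c : P.Λ → P.Λ → ℤ_[ℓ]} (h : IsEllChern P ℓ D c)
    (m : P.Λ) : c 0 m = 0 := by
  have h1 := h.add_left hℓ 0 0 m
  rw [add_zero] at h1
  exact left_eq_add.1 h1

end Abelian

/-! ### The `ℓ`-adic half of `Statement` without divisors (`r = d`), in every dimension -/

section NoDivisor

/-- `lefschetzWedge` without divisors is the form itself (version for forms which are only assumed to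
be antisymmetric). -/
theorem lefschetzWedge_no_divisor' {S M : Type} [Field S] [CharZero S] (r : ℕ)
    (g : (Fin (2 * r) → M) → S)
    (hg : ∀ (v : Fin (2 * r) → M) (σ : Equiv.Perm (Fin (2 * r))),
      g (v ∘ σ) = ((Equiv.Perm.sign σ : ℤ) : S) * g v)
    (e : Fin 0 → M → M → S) (v : Fin (2 * r + 2 * 0) → M) :
    lefschetzWedge r 0 g e v = g v := by
  unfold lefschetzWedge
  have h1 : ∀ σ : Equiv.Perm (Fin (2 * r + 2 * 0)),
      ((Equiv.Perm.sign σ : ℤ) : S) * (g (fun a => v (σ (Fin.castAdd (2 * 0) a))) *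
        ∏ i : Fin 0, e i (v (σ (Fin.natAdd (2 * r) ⟨2 * i, by omega⟩)))
          (v (σ (Fin.natAdd (2 * r) ⟨2 * i + 1, by omega⟩)))) = g v := by
    intro σ
    have h2 : (fun a : Fin (2 * r) => v (σ (Fin.castAdd (2 * 0) a))) = v ∘ σ := by
      funext i; rfl
    rw [h2]
    have h3 := hg v σ
    rw [h3]
    rcases Int.units_eq_one_or (Equiv.Perm.sign σ) with h | h <;> simp [h]
  rw [Finset.sum_congr rfl (fun σ _ => h1 σ)]
  simp only [Finset.sum_const, Finset.card_univ, Fintype.card_perm, Fintype.card_fin, pow_zero,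
    _root_.mul_one, nsmul_eq_mul]
  have : (((2 * r).factorial : ℕ) : S) ≠ 0 := by exact_mod_cast (Nat.factorial_ne_zero _)
  have e0 : 2 * r + 2 * 0 = 2 * r := rfl
  simp only [e0]
  field_simp

variable {p : ℕ} [Fact p.Prime] {K : Type} [Field K] [Algebra K ℂ_[p]] [Algebra K ℂ]

/-- **The `ℓ`-adic half of the conclusion of `Statement` (copied verbatim) holds for `m = 0`**, i.e.
`r = d`, for every abelian scheme of every dimension, every point class and every class `g` of top
degree: `q` is the value of `g` on the basis on which the class of a point is `1`. -/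
theorem ell_half_no_divisor {r : ℕ} {𝒜 : AbelianScheme p K (r + 0)} {P : PeriodDatum 𝒜}
    {pt : BettiClass P (2 * r + 2 * 0) (r + 0)} (hpt : pt.IsPointClass)
    (g : BettiClass P (2 * r) r) (D : Fin 0 → CartierDivisor 𝒜.special.left) :
    ∃ q : ℚ,
      (∀ (ℓ : ℕ) [Fact ℓ.Prime], ℓ ≠ p →
        ∃ c : Fin 0 → P.Λ → P.Λ → ℤ_[ℓ], (∀ i, IsEllChern P ℓ (D i) (c i)) ∧
          ∀ l : Fin (2 * r + 2 * 0) → P.Λ,
            lefschetzWedge r 0 (fun x => ((g.rat x : ℚ) : ℚ_[ℓ]))
              (fun i x y => ((c i x y : ℤ_[ℓ]) : ℚ_[ℓ])) l =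
                (q : ℚ_[ℓ]) * ((pt.rat l : ℚ) : ℚ_[ℓ])) := by
  obtain ⟨b, -, -, -, -, -, hb⟩ := hpt
  refine ⟨g.rat b, fun ℓ _ _ => ⟨fun i => i.elim0, fun i => i.elim0, fun l => ?_⟩⟩
  rw [lefschetzWedge_no_divisor' r _ (fun v σ => by
    rw [AlternatingMap.map_perm]
    rcases Int.units_eq_one_or (Equiv.Perm.sign σ) with h | h <;> simp [h])]
  have h1 : g.rat l = (b.det l : ℚ) * g.rat b := alternating_eq_det b g.rat l
  have h2 : pt.rat l = (b.det l : ℚ) * pt.rat b := alternating_eq_det b pt.rat l
  rw [h1, h2, hb]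
  push_cast
  ring

end NoDivisor

end

end Claimed.Open.R001
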