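import Claimed.Open.R001.SanityChern

/-!
# Result 001: the divisor classes and the number `q` are unique, in every dimension

The other sanity files evaluate the predicates of sections 6 and 9 of `Statement.lean` at the abelian
scheme of dimension `0`, or at the point `x = 0`.  `Statement` quantifies these objects existentially
in its conclusion (`CLAIM.md`, deviation 5), so it matters that the predicates cannot be met by
several values.  This file proves it for EVERY abelian scheme `𝒜` over `𝒪_w`, of EVERY relative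
dimension `d`, every period datum and every divisor.

* `exists_global_of_forall_stalk` : a rational function on an integral scheme which lies in all the
  local rings is a global section (gluing);
* `exists_const_of_global` : on an integral universally closed `k`-scheme with a rational point
  the global sections are the constants (`Γ(X, 𝒪_X)` is a field by Mathlib's
  `isField_of_universallyClosed`, and evaluation at the point retracts it to `k`; no hypothesis on `k`);
* `fnPullback_mul`, `fnPullback_constFn`, `fnPullback_comp` : `fnPullback` is multiplicative, fixes the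
  constants and is functorial;
* **`IsWeilValue.unique`** : on an integral universally closed group scheme over a field
  `IsWeilValue X D n x y` accepts at most one constant: the Weil pairing is single valued;
* `IsWeilValue.mul`, `IsWeilValue.pow`, `IsWeilValue.pow_eq_one` : `e_n^D(x x', y) = e_n^D(x, y) e_n^D(x', y)`, and
  `e_n^D(x, y)^N = 1` as soon as `x^N = 1`: the accepted values are roots of unity;
* `Pts.map_injective`, `generic_map_injective`, `gen_injective` : `𝒜(𝒪_w) → A(K) → A(ℂ)` are injective
  (separatedness), so the torsion points `x`, `y` chosen inside `IsEllChern`, `IsRiemannForm` are unique;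
* **`IsEllChern.unique`** : `IsEllChern P ℓ D c` and `IsEllChern P ℓ D c'` imply `c = c'` (`ℓ ≠ p`);
* **`IsRiemannForm.unique`** : `IsRiemannForm H h` and `IsRiemannForm H h'` imply `h.rat = h'.rat`;
* `BettiClass.IsPointClass.rat_eq_or_neg` : two point classes have the same rational form up to the sign;
* **`statement_q_unique`** : the clause of `Statement` at ONE prime `ℓ ≠ p`, copied verbatim, is satisfied
  by at most one rational number `q`.  So `Statement` asserts that one well defined number, computed
  at any `ℓ`, works at all the other `ℓ` and at `p`: this is the content of the rationality conjecture;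
* `statement_iff_existsUnique` : `Statement` is equivalent to its verbatim copy with `∃! q` in the place of `∃ q`.
-/

open CategoryTheory AlgebraicGeometry MonoidalCategory CartesianMonoidalCategory MonObj
open TopologicalSpace Opposite

namespace Claimed.Open.R001

noncomputable section

/-! ### Rational functions without poles -/

section Glue

variable {X : Scheme.{0}} [IsIntegral X]

theorem genericPoint_mem_of_mem {U : X.Opens} {z : X} (hz : z ∈ U) : genericPoint X ∈ U :=
  ((genericPoint_spec X).mem_open_set_iff U.isOpen).mpr ⟨z, trivial, hz⟩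

/-- A rational function which lies in all the local rings of an integral scheme is a global
section. -/
theorem exists_global_of_forall_stalk (w : X.functionField)
    (h : ∀ z : X, ∃ u : X.presheaf.stalk z,
      algebraMap (X.presheaf.stalk z) X.functionField u = w) :
    ∃ s : Γ(X, ⊤), X.presheaf.germ ⊤ (genericPoint X) trivial s = w := by
  have h1 : ∀ z : X, ∃ (U : X.Opens) (hz : z ∈ U) (s : Γ(X, U)),
      X.presheaf.germ U (genericPoint X) (genericPoint_mem_of_mem hz) s = w := by
    intro z
    obtain ⟨u, hu⟩ := h z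
    obtain ⟨U, hz, s, rfl⟩ := X.presheaf.exists_germ_eq u
    refine ⟨U, hz, s, ?_⟩
    rw [← hu]
    have : Nonempty U := ⟨⟨z, hz⟩⟩
    exact (Scheme.algebraMap_germ_eq_germToFunctionField X hz s).symm
  choose U hU s hs using h1
  obtain ⟨t, ht, -⟩ := X.sheaf.existsUnique_gluing' U ⊤ (fun z => homOfLE le_top)
    (fun z _ => Opens.mem_iSup.2 ⟨z, hU z⟩) s (by
      intro i j
      have hg : genericPoint X ∈ U i ⊓ U j :=
        ⟨genericPoint_mem_of_mem (hU i), genericPoint_mem_of_mem (hU j)⟩
      apply germ_injective_of_isIntegral X (genericPoint X) hg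
      erw [X.presheaf.germ_res_apply, X.presheaf.germ_res_apply]
      rw [hs, hs])
  refine ⟨t, ?_⟩
  obtain ⟨z⟩ : Nonempty X := inferInstance
  rw [← hs z, ← ht z]
  erw [X.presheaf.germ_res_apply]

/-- If `a / F` and `b / F` are units of a local ring, so is `b / a`. -/
theorem UnitAt.div_div {z : X} {a b F : X.functionField}
    (ha : UnitAt z (a / F)) (hb : UnitAt z (b / F)) : UnitAt z (b / a) := by
  obtain ⟨u, hu⟩ := ha
  obtain ⟨v, hv⟩ := hb
  refine ⟨v * u⁻¹, ?_⟩
  have hu0 : algebraMap (X.presheaf.stalk z) X.functionField u ≠ 0 :=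
    (u.isUnit.map (algebraMap (X.presheaf.stalk z) X.functionField)).ne_zero
  have hF : F ≠ 0 := by
    rintro rfl
    rw [div_zero] at hu
    exact hu0 hu
  have ha0 : a ≠ 0 := by
    rintro rfl
    rw [zero_div] at hu
    exact hu0 hu
  have h1 : algebraMap (X.presheaf.stalk z) X.functionField (u⁻¹ : (X.presheaf.stalk z)ˣ) =
      (a / F)⁻¹ := by
    rw [← hu]
    apply eq_inv_of_mul_eq_one_left
    rw [← map_mul, ← Units.val_mul, inv_mul_cancel, Units.val_one, map_one]
  rw [Units.val_mul, map_mul, hv, h1]
  field_simp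

end Glue

/-! ### Pull back of rational functions -/

section Pullback

theorem fnPullback_mul {X Y : Scheme.{0}} [IsIntegral X] [IsIntegral Y] (f : X ⟶ Y)
    (h : f (genericPoint X) ⤳ genericPoint Y) (a b : Y.functionField) :
    fnPullback f (a * b) = fnPullback f a * fnPullback f b := by
  unfold fnPullback
  rw [dif_pos h, dif_pos h, dif_pos h, map_mul, map_mul]

/-- `(f ≫ g)^* = f^* ∘ g^*` on rational functions, for dominant morphisms. -/
theorem fnPullback_comp {X Y Z : Scheme.{0}} [IsIntegral X] [IsIntegral Y] [IsIntegral Z]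
    (f : X ⟶ Y) (g : Y ⟶ Z) (hf : f (genericPoint X) ⤳ genericPoint Y)
    (hg : g (genericPoint Y) ⤳ genericPoint Z) (s : Z.functionField) :
    fnPullback (f ≫ g) s = fnPullback f (fnPullback g s) := by
  have hfg : (f ≫ g) (genericPoint X) ⤳ genericPoint Z :=
    (g.base.hom.map_specializes hf).trans hg
  unfold fnPullback
  rw [dif_pos hf, dif_pos hg, dif_pos hfg]
  rw [← Scheme.Hom.stalkSpecializes_stalkMap_apply g _ _ hf]
  rw [← ConcreteCategory.comp_apply (Z.presheaf.stalkSpecializes hg),
    Z.presheaf.stalkSpecializes_comp]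
  rw [Scheme.Hom.stalkMap_comp]
  rfl

end Pullback

/-! ### The Weil pairing is single valued -/

section Const

variable {k : Type} [Field k] (X : Over (Spec (CommRingCat.of k))) [IsIntegral X.left]

/-- On an integral universally closed `k`-scheme with a `k`-rational point the global sections are
the constants: `Γ(X, 𝒪_X)` is a field, and evaluation at the point is a retraction to `k`. -/
theorem exists_const_of_global [UniversallyClosed X.hom] (e : Pts X k) (s : Γ(X.left, ⊤)) :
    ∃ c : k, X.hom.appTop ((Scheme.ΓSpecIso (CommRingCat.of k)).inv c) = s := by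
  have hF := isField_of_universallyClosed k X.hom
  let _ := hF.toField
  let E : Γ(X.left, ⊤) →+* k :=
    (Scheme.ΓSpecIso (CommRingCat.of k)).hom.hom.comp (e.left.appTop).hom
  refine ⟨E s, E.injective ?_⟩
  have hw : e.left ≫ X.hom = 𝟙 _ := by
    rw [Over.w e]
    simp [specOver]
  have h2 : X.hom.appTop ≫ e.left.appTop = 𝟙 _ := by
    rw [← Scheme.Hom.comp_appTop, hw]
    simp
  have h3 : ∀ t, e.left.appTop (X.hom.appTop t) = t := fun t => by
    rw [← ConcreteCategory.comp_apply, h2]
    rfl
  change (Scheme.ΓSpecIso (CommRingCat.of k)).hom (e.left.appTop (X.hom.appTop _)) = E s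
  rw [h3]
  simp

/-- The pull back of a constant along a `k`-morphism is the same constant. -/
theorem fnPullback_constFn (f : X ⟶ X) (h : f.left (genericPoint X.left) ⤳ genericPoint X.left)
    (c : k) : fnPullback f.left (constFn X c) = constFn X c := by
  unfold fnPullback constFn
  rw [dif_pos h]
  erw [X.left.presheaf.germ_stalkSpecializes_apply]
  erw [Scheme.Hom.germ_stalkMap_apply]
  have h1 : X.hom.appTop ≫ f.left.appTop = X.hom.appTop := by
    rw [← Scheme.Hom.comp_appTop, Over.w f]
  conv_rhs => rw [← h1]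
  rfl

/-- Two rational functions with the same divisor differ by a constant. -/
theorem exists_const_of_unitAt [UniversallyClosed X.hom] (e : Pts X k)
    {g g' : X.left.functionField} (hg : g ≠ 0) (h : ∀ z : X.left, UnitAt z (g' / g)) :
    ∃ a : k, g' = constFn X a * g := by
  obtain ⟨s, hs⟩ := exists_global_of_forall_stalk (g' / g) (fun z => by
    obtain ⟨u, hu⟩ := h z
    exact ⟨u, hu⟩)
  obtain ⟨a, rfl⟩ := exists_const_of_global X e s
  refine ⟨a, ?_⟩
  have : constFn X a = g' / g := hs
  rw [this]
  field_simp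

variable [GrpObj X]

/-- **The Weil pairing is single valued.**  On an integral, universally closed (e.g. proper) group
scheme over a field, `IsWeilValue X D n x y` accepts at most one constant. -/
theorem IsWeilValue.unique [UniversallyClosed X.hom] {D : CartierDivisor X.left} {n : ℕ}
    {x y : Pts X k} {c c' : k} (h : IsWeilValue X D n x y c) (h' : IsWeilValue X D n x y c') :
    c = c' := by
  obtain ⟨g, hg, hu, ht⟩ := h
  obtain ⟨g', hg', hu', ht'⟩ := h'
  obtain ⟨a, hgg⟩ := exists_const_of_unitAt X 1 hg (fun z => (hu z).div_div (hu' z))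
  have hx : (translation X x).left (genericPoint X.left) ⤳ genericPoint X.left := by
    rw [translation_genericPoint]
  have h1 : constFn X c' * g' = constFn X c * g' := by
    rw [← ht', hgg, fnPullback_mul _ hx, fnPullback_constFn X _ hx, ht]
    ring
  exact (constFn_injective X (mul_right_cancel₀ hg' h1)).symm

/-- The Weil pairing is multiplicative in its first argument. -/
theorem IsWeilValue.mul [UniversallyClosed X.hom] {D : CartierDivisor X.left} {n : ℕ}
    {x x' y : Pts X k} {c c' : k} (h : IsWeilValue X D n x y c) (h' : IsWeilValue X D n x' y c') :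
    IsWeilValue X D n (x * x') y (c * c') := by
  obtain ⟨g, hg, hu, ht⟩ := h
  obtain ⟨g', hg', hu', ht'⟩ := h'
  obtain ⟨a, ha⟩ := exists_const_of_unitAt X 1 hg (fun z => (hu z).div_div (hu' z))
  have ha0 : constFn X a ≠ 0 := by
    intro h0
    rw [h0, zero_mul] at ha
    exact hg' ha
  have hx : (translation X x).left (genericPoint X.left) ⤳ genericPoint X.left := by
    rw [translation_genericPoint]
  have hx' : (translation X x').left (genericPoint X.left) ⤳ genericPoint X.left := by
    rw [translation_genericPoint]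
  have ht2 : fnPullback (translation X x').left g = constFn X c' * g := by
    rw [ha, fnPullback_mul _ hx', fnPullback_constFn X _ hx'] at ht'
    apply mul_left_cancel₀ ha0
    rw [ht']
    ring
  refine ⟨g, hg, hu, ?_⟩
  rw [← translation_comp, Over.comp_left, fnPullback_comp _ _ hx hx', ht2, fnPullback_mul _ hx,
    fnPullback_constFn X _ hx, ht, constFn_eq, constFn_eq, constFn_eq, map_mul]
  ring

/-- If the pairing `e_n^D(x, y)` is defined, then `e_n^D(0, y) = 1`. -/
theorem IsWeilValue.at_one {D : CartierDivisor X.left} {n : ℕ}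
    {x y : Pts X k} {c : k} (h : IsWeilValue X D n x y c) : IsWeilValue X D n 1 y 1 := by
  obtain ⟨g, hg, hu, -⟩ := h
  refine ⟨g, hg, hu, ?_⟩
  rw [translation_one, Over.id_left, fnPullback_id, constFn_one, _root_.one_mul]

theorem IsWeilValue.pow [UniversallyClosed X.hom] {D : CartierDivisor X.left} {n : ℕ}
    {x y : Pts X k} {c : k} (h : IsWeilValue X D n x y c) (N : ℕ) :
    IsWeilValue X D n (x ^ N) y (c ^ N) := by
  induction N with
  | zero => simpa using h.at_one X
  | succ N ih => rw [pow_succ, pow_succ]; exact ih.mul X h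

/-- The values of the Weil pairing are roots of unity: `e_n^D(x, y)^N = 1` if `x^N = 1`. -/
theorem IsWeilValue.pow_eq_one [UniversallyClosed X.hom] {D : CartierDivisor X.left} {n : ℕ}
    {x y : Pts X k} {c : k} (h : IsWeilValue X D n x y c) {N : ℕ} (hx : x ^ N = 1) :
    c ^ N = 1 := by
  have h1 := h.pow X N
  rw [hx] at h1
  exact isWeilValue_at_one X h1

end Const

/-! ### Points of separated schemes -/

section Points

theorem isDominant_Spec_map_of_injective {R S : Type} [CommRing R] [CommRing S] (f : R →+* S)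
    (hf : Function.Injective f) : IsDominant (Spec.map (CommRingCat.ofHom f)) := by
  refine ⟨?_⟩
  have := (PrimeSpectrum.denseRange_comap_iff_ker_le_nilRadical (f := f)).2 (by
    rw [(RingHom.injective_iff_ker_eq_bot f).1 hf]; exact bot_le)
  exact this

/-- `X(B) → X(B')` is injective for `X` separated, `B` reduced and `B → B'` injective. -/
theorem Pts.map_injective {R : Type} [CommRing R] {X : Over (Spec (CommRingCat.of R))}
    [IsSeparated X.hom] {B : Type} [CommRing B] [Algebra R B] [_root_.IsReduced B]
    (B' : Type) [CommRing B'] [Algebra R B'] [Algebra B B'] [IsScalarTower R B B']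
    (hinj : Function.Injective (algebraMap B B')) :
    Function.Injective (Pts.map (X := X) (B := B) B') := by
  intro x x' h
  have h1 : (specOverMap (IsScalarTower.toAlgHom R B B')).left ≫ x.left =
      (specOverMap (IsScalarTower.toAlgHom R B B')).left ≫ x'.left := by
    rw [← Over.comp_left, ← Over.comp_left]
    exact congrArg (fun t => t.left) h
  have : IsDominant (specOverMap (IsScalarTower.toAlgHom R B B')).left :=
    isDominant_Spec_map_of_injective _ hinj
  have : AlgebraicGeometry.IsReduced (specOver R B).left :=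
    inferInstanceAs (AlgebraicGeometry.IsReduced (Spec (CommRingCat.of B)))
  ext1
  exact ext_of_isDominant_of_isSeparated X.hom ((Over.w x).trans (Over.w x').symm) _ h1

theorem Pts.ofBaseChange_toBaseChange {R : Type} [CommRing R] (R' : Type) [CommRing R']
    [Algebra R R'] {X : Over (Spec (CommRingCat.of R))}
    {B : Type} [CommRing B] [Algebra R B] [Algebra R' B] [IsScalarTower R R' B]
    (x : Pts X B) : Pts.ofBaseChange (x.toBaseChange R') = x := by
  ext1
  simp only [Pts.ofBaseChange, Pts.toBaseChange, Over.homMk_left]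
  exact Limits.pullback.lift_fst _ _ _

theorem Pts.toBaseChange_injective {R : Type} [CommRing R] (R' : Type) [CommRing R']
    [Algebra R R'] {X : Over (Spec (CommRingCat.of R))}
    {B : Type} [CommRing B] [Algebra R B] [Algebra R' B] [IsScalarTower R R' B] :
    Function.Injective (Pts.toBaseChange (X := X) (B := B) R') := by
  intro x x' h
  rw [← Pts.ofBaseChange_toBaseChange R' x, h, Pts.ofBaseChange_toBaseChange]

end Points

/-! ### The divisor classes of an abelian scheme of any dimension -/

section Abelian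

variable {p : ℕ} [Fact p.Prime] {K : Type} [Field K] [Algebra K ℂ_[p]] [Algebra K ℂ] {d : ℕ}
  (𝒜 : AbelianScheme p K d)

omit [Algebra K ℂ] in
/-- The generic fibre of an abelian scheme is proper. -/
theorem isProper_generic : IsProper 𝒜.generic.hom :=
  inferInstanceAs (IsProper (Limits.pullback.snd _ _))

omit [Algebra K ℂ] in
/-- The special fibre of an abelian scheme is proper. -/
theorem isProper_special : IsProper 𝒜.special.hom :=
  inferInstanceAs (IsProper (Limits.pullback.snd _ _))

/-- `A(K) → A(ℂ)` is injective. -/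
theorem generic_map_injective : Function.Injective (Pts.map (X := 𝒜.generic) (B := K) ℂ) :=
  have := isProper_generic 𝒜
  Pts.map_injective ℂ (algebraMap K ℂ).injective

omit [Algebra K ℂ] in
/-- `𝒜(𝒪_w) → A(K)` is injective. -/
theorem gen_injective : Function.Injective 𝒜.gen := by
  intro x x' h
  exact Pts.map_injective K Subtype.val_injective (Pts.toBaseChange_injective K h)

variable {𝒜} {P : PeriodDatum 𝒜}

/-- **`IsEllChern` pins the `ℓ`-adic class of a divisor**, for every abelian scheme of every
dimension. -/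
theorem IsEllChern.unique {ℓ : ℕ} [Fact ℓ.Prime] (hℓ : ℓ ≠ p) {D : CartierDivisor 𝒜.special.left}
    {c c' : P.Λ → P.Λ → ℤ_[ℓ]} (h : IsEllChern P ℓ D c) (h' : IsEllChern P ℓ D c') : c = c' := by
  funext l m
  rw [← PadicInt.ext_of_toZModPow]
  intro n
  obtain ⟨x, y, ζ, hx, hy, hζ, hW⟩ := h n l m
  obtain ⟨x', y', ζ', hx', hy', hζ', hW'⟩ := h' n l m
  obtain rfl : x = x' := gen_injective 𝒜 (generic_map_injective 𝒜 (hx.trans hx'.symm))
  obtain rfl : y = y' := gen_injective 𝒜 (generic_map_injective 𝒜 (hy.trans hy'.symm))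
  have hinj : Function.Injective (algebraMap (Ow p K) ℂ) :=
    (algebraMap K ℂ).injective.comp Subtype.val_injective
  obtain rfl : ζ = ζ' := hinj (hζ.trans hζ'.symm)
  have := isProper_special 𝒜
  have h1 := IsWeilValue.unique _ hW hW'
  have hcop : (ℓ ^ n).Coprime p :=
    Nat.Coprime.pow_left n ((Nat.coprime_primes Fact.out Fact.out).2 hℓ)
  have hpos : 0 < ℓ ^ n := pow_pos (Fact.out : ℓ.Prime).pos n
  have : NeZero (ℓ ^ n) := ⟨hpos.ne'⟩
  have h2 := (isPrimitiveRoot_reduction hcop hpos hζ).pow_inj (ZMod.val_lt _) (ZMod.val_lt _) h1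
  exact ZMod.val_injective _ h2

/-- **`IsRiemannForm` pins the rational form of the class of a divisor** of the generic fibre, for
every abelian scheme of every dimension. -/
theorem IsRiemannForm.unique {H : CartierDivisor 𝒜.generic.left} {h h' : BettiClass P 2 1}
    (hh : IsRiemannForm H h) (hh' : IsRiemannForm H h') : h.rat = h'.rat := by
  ext v
  obtain ⟨l, m, rfl⟩ : ∃ l m, v = ![l, m] := ⟨v 0, v 1, by
    funext i; fin_cases i <;> rfl⟩
  obtain ⟨-, -, -, a₁, -, -, -, ha₁, -⟩ := hh 1 one_pos l m
  obtain ⟨-, -, -, a₁', -, -, -, ha₁', -⟩ := hh' 1 one_pos l m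
  obtain ⟨x, y, ζ, a, hx, hy, hζ, ha, hW⟩ := hh ((a₁ - a₁').natAbs + 1) (Nat.succ_pos _) l m
  obtain ⟨x', y', ζ', a', hx', hy', hζ', ha', hW'⟩ :=
    hh' ((a₁ - a₁').natAbs + 1) (Nat.succ_pos _) l m
  obtain rfl : a = a₁ := by exact_mod_cast ha.symm.trans ha₁
  obtain rfl : a' = a₁' := by exact_mod_cast ha'.symm.trans ha₁'
  obtain rfl : x = x' := generic_map_injective 𝒜 (hx.trans hx'.symm)
  obtain rfl : y = y' := generic_map_injective 𝒜 (hy.trans hy'.symm)
  obtain rfl : ζ = ζ' := (algebraMap K ℂ).injective (hζ.trans hζ'.symm)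
  have := isProper_generic 𝒜
  have h1 := IsWeilValue.unique _ hW hW'
  have hprim : IsPrimitiveRoot ζ ((a - a').natAbs + 1) := by
    refine IsPrimitiveRoot.of_map_of_injective (f := algebraMap K ℂ) ?_ (algebraMap K ℂ).injective
    rw [hζ]
    exact Complex.isPrimitiveRoot_exp _ (Nat.succ_ne_zero _)
  have hζ0 : ζ ≠ 0 := hprim.ne_zero (Nat.succ_ne_zero _)
  have h2 : ζ ^ (a - a') = 1 := by
    rw [zpow_sub₀ hζ0, h1, div_self (zpow_ne_zero _ hζ0)]
  have h3 := (hprim.zpow_eq_one_iff_dvd _).1 h2
  have h4 : a - a' = 0 := by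
    apply Int.eq_zero_of_abs_lt_dvd h3
    push_cast
    rw [Int.abs_eq_natAbs]
    omega
  rw [ha, ha', sub_eq_zero.1 h4]

end Abelian

/-! ### The class of a point -/

section PointClass

/-- A `ℚ`-valued alternating form of top degree on a free `ℤ`-module is the determinant times its
value on the basis. -/
theorem alternating_eq_det {n : ℕ} {M : Type} [AddCommGroup M] (b : Module.Basis (Fin n) ℤ M)
    (f : AlternatingMap ℤ M ℚ (Fin n)) (v : Fin n → M) : f v = (b.det v : ℚ) * f b := by
  have key : f = (LinearMap.toSpanSingleton ℤ ℚ (f b)).compAlternatingMap b.det := by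
    apply Module.Basis.ext_alternating b
    intro w hw
    obtain ⟨σ, rfl⟩ : ∃ σ : Equiv.Perm (Fin n), w = σ :=
      ⟨Equiv.ofBijective w (Finite.injective_iff_bijective.1 hw), rfl⟩
    have h1 : (fun i => b (σ i)) = (b ∘ σ) := rfl
    rw [h1, AlternatingMap.map_perm, LinearMap.compAlternatingMap_apply, AlternatingMap.map_perm,
      Module.Basis.det_self]
    simp
  conv_lhs => rw [key]
  simp [LinearMap.toSpanSingleton_apply]

variable {p : ℕ} [Fact p.Prime] {K : Type} [Field K] [Algebra K ℂ_[p]] [Algebra K ℂ]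

/-- In every dimension the rational form of the class of a point is unique up to the sign (the sign is
what the orientation clause of `IsPointClass` is for; that part is not analysed here). -/
theorem BettiClass.IsPointClass.rat_eq_or_neg {r m : ℕ} {𝒜 : AbelianScheme p K (r + m)}
    {P : PeriodDatum 𝒜} {pt pt' : BettiClass P (2 * r + 2 * m) (r + m)}
    (h : pt.IsPointClass) (h' : pt'.IsPointClass) : pt'.rat = pt.rat ∨ pt'.rat = -pt.rat := by
  obtain ⟨b, -, -, -, -, -, hb⟩ := h
  obtain ⟨b', -, -, -, -, -, hb'⟩ := h'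
  have h1 : ∀ v, pt.rat v = (b.det v : ℚ) := fun v => by
    rw [alternating_eq_det b pt.rat v, hb, _root_.mul_one]
  have h2 : ∀ v, pt'.rat v = pt.rat v * pt'.rat b := fun v => by
    rw [alternating_eq_det b pt'.rat v, h1]
  have h3 : pt'.rat b = (b'.det b : ℚ) := by
    rw [alternating_eq_det b' pt'.rat b, hb', _root_.mul_one]
  rcases Int.isUnit_iff.1 (b'.isUnit_det b) with h4 | h4
  · left
    ext v
    rw [h2, h3, h4]
    simp
  · right
    ext v
    rw [h2, h3, h4]
    simp

end PointClass

/-! ### The number `q` of the theorem -/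

section Q

variable {p : ℕ} [Fact p.Prime] {K : Type} [Field K] [Algebra K ℂ_[p]] [Algebra K ℂ]

/-- **The number `q` of `Statement` is unique**, for every abelian scheme of every dimension: the
clause of `Statement` at one single prime `ℓ ≠ p` (copied verbatim) is satisfied by at most one
rational number. -/
theorem statement_q_unique {r m : ℕ} {𝒜 : AbelianScheme p K (r + m)} {P : PeriodDatum 𝒜}
    {pt : BettiClass P (2 * r + 2 * m) (r + m)} (hpt : pt.IsPointClass)
    (g : BettiClass P (2 * r) r) (D : Fin m → CartierDivisor 𝒜.special.left)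
    {ℓ : ℕ} [Fact ℓ.Prime] (hℓ : ℓ ≠ p) {q q' : ℚ}
    (hq : ∃ c : Fin m → P.Λ → P.Λ → ℤ_[ℓ], (∀ i, IsEllChern P ℓ (D i) (c i)) ∧
          ∀ l : Fin (2 * r + 2 * m) → P.Λ,
            lefschetzWedge r m (fun x => ((g.rat x : ℚ) : ℚ_[ℓ]))
              (fun i x y => ((c i x y : ℤ_[ℓ]) : ℚ_[ℓ])) l = (q : ℚ_[ℓ]) * ((pt.rat l : ℚ) : ℚ_[ℓ]))
    (hq' : ∃ c : Fin m → P.Λ → P.Λ → ℤ_[ℓ], (∀ i, IsEllChern P ℓ (D i) (c i)) ∧
          ∀ l : Fin (2 * r + 2 * m) → P.Λ,
            lefschetzWedge r m (fun x => ((g.rat x : ℚ) : ℚ_[ℓ]))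
              (fun i x y => ((c i x y : ℤ_[ℓ]) : ℚ_[ℓ])) l =
                (q' : ℚ_[ℓ]) * ((pt.rat l : ℚ) : ℚ_[ℓ])) : q = q' := by
  obtain ⟨c, hc, h⟩ := hq
  obtain ⟨c', hc', h'⟩ := hq'
  obtain rfl : c = c' := funext fun i => (hc i).unique hℓ (hc' i)
  obtain ⟨b, -, -, -, -, -, hb⟩ := hpt
  have h1 := (h b).symm.trans (h' b)
  rw [hb] at h1
  simpa using h1

end Q

/-! ### `Statement` is equivalent to its form with `∃! q` -/

/-- `Statement`, copied verbatim, with `∃! q` in the place of `∃ q`. -/
def StatementExistsUnique : Prop :=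
  ∀ (p : ℕ) [Fact p.Prime] (K : Type) [Field K] [Algebra ℚ K] [IsAlgClosure ℚ K]
    [Algebra K ℂ] [Algebra K ℂ_[p]]
    (r m : ℕ) (𝒜 : AbelianScheme p K (r + m)),
    Nonempty (PeriodDatum 𝒜) ∧
    ∀ P : PeriodDatum 𝒜,
    (∃ pt : BettiClass P (2 * r + 2 * m) (r + m), pt.IsPointClass) ∧
    ∀ (pt : BettiClass P (2 * r + 2 * m) (r + m)), pt.IsPointClass →
    ∀ (g : BettiClass P (2 * r) r), g.IsHodge →
    ∀ (D : Fin m → CartierDivisor 𝒜.special.left),
    ∃! q : ℚ,
      (∀ (ℓ : ℕ) [Fact ℓ.Prime], ℓ ≠ p →
        ∃ c : Fin m → P.Λ → P.Λ → ℤ_[ℓ], (∀ i, IsEllChern P ℓ (D i) (c i)) ∧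
          ∀ l : Fin (2 * r + 2 * m) → P.Λ,
            lefschetzWedge r m (fun x => ((g.rat x : ℚ) : ℚ_[ℓ]))
              (fun i x y => ((c i x y : ℤ_[ℓ]) : ℚ_[ℓ])) l = (q : ℚ_[ℓ]) * ((pt.rat l : ℚ) : ℚ_[ℓ])) ∧
      (∃ (gp : AlternatingMap ℂ_[p] (P.HdR ℂ_[p]) ℂ_[p] (Fin (2 * r)))
         (ptp : AlternatingMap ℂ_[p] (P.HdR ℂ_[p]) ℂ_[p] (Fin (2 * r + 2 * m)))
         (c : Fin m → P.HdR ℂ_[p] → P.HdR ℂ_[p] → ℂ_[p]),
          g.IsCrisSpecialization gp ∧ pt.IsCrisSpecialization ptp ∧
          (∀ i, IsCrisChern P (D i) (c i)) ∧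
          ∀ v : Fin (2 * r + 2 * m) → P.HdR ℂ_[p],
            lefschetzWedge r m gp c v = (q : ℂ_[p]) * ptp v)

theorem exists_prime_ne (p : ℕ) : ∃ ℓ : ℕ, ℓ.Prime ∧ ℓ ≠ p := by
  by_cases h : p = 2
  · exact ⟨3, Nat.prime_three, by omega⟩
  · exact ⟨2, Nat.prime_two, fun h' => h h'.symm⟩

/-- The rational number which `Statement` asserts to exist is unique: `Statement` is equivalent to its
form with `∃! q`. -/
theorem statement_iff_existsUnique : Statement ↔ StatementExistsUnique := by
  constructor
  · intro h p _ K _ _ _ _ _ r m 𝒜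
    obtain ⟨h1, h2⟩ := h p K r m 𝒜
    refine ⟨h1, fun P => ⟨(h2 P).1, fun pt hpt g hg D => ?_⟩⟩
    obtain ⟨q, hq⟩ := (h2 P).2 pt hpt g hg D
    refine ⟨q, hq, fun q' hq' => ?_⟩
    obtain ⟨ℓ, hℓ, hne⟩ := exists_prime_ne p
    have : Fact ℓ.Prime := ⟨hℓ⟩
    exact statement_q_unique hpt g D hne (hq'.1 ℓ hne) (hq.1 ℓ hne)
  · intro h p _ K _ _ _ _ _ r m 𝒜
    obtain ⟨h1, h2⟩ := h p K r m 𝒜
    exact ⟨h1, fun P => ⟨(h2 P).1, fun pt hpt g hg D => ((h2 P).2 pt hpt g hg D).exists⟩⟩

end

end Claimed.Open.R001
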