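import Claimed.Open.R001.SanityGa
import Claimed.Open.R001.SanityGm
import Claimed.Open.R001.SanityDimZero

/-!
# Result 001: unit tests of `VectorExtension`, `IsUniversal`, `IsVertical` at positive rank

In `Statement.lean` the first de Rham homology is `Lie E(A)`, where `E(A)` is the universal vector extension.  The other sanity
files meet `VectorExtension` only at rank `0`.  Here, for the trivial group `G` over a field `K` (any `G` with `G ⟶ Spec K` an
isomorphism, e.g. the generic fibre of the abelian scheme of dimension `0`):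

* `gaExt G : VectorExtension G`: **`𝔾_a → G` is a vector extension of rank `1`.**  All clauses are met: commutative group scheme
  (`ga_isCommMonObj`), `π` a flat, surjective, quasi-compact homomorphism, and the kernel clause for **every** test scheme `T` over
  `K`, affine or not: `x ↦ x^* X` is a bijection `Hom_K(T, 𝔾_a) ≃ Γ(T, 𝒪_T)` (`gaCoordT`, `gaOfCoord`, `gaCoordT_gaOfCoord`,
  `gaCoordT_injective`), additive (`gaCoordT_mul`) and natural in `T` (`gaCoordT_comp`);
* `not_isUniversal_gaExt`: **`IsUniversal` refuses it** (first non-example of `IsUniversal`), whereas the extension of rank `0` is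
  universal (`isUniversal_trivialExt_and_not_gaExt`); `periodDatum_ext_ne_gaExt`: no `PeriodDatum` of the point scheme can use it;
* `gaExt_isVertical`, `finrank_lie_gaExt`: all tangent vectors of `gaExt G` are vertical, and they form a space of dimension
  `1 = rank` (first case in which `IsVertical` holds for a non-zero vector);
* `VectorExtension.eq_one_of_pow_eq_one`: for **every** vector extension of **every** group scheme `A` over a field of characteristic `0`
  the kernel of `π` has no torsion, on any test scheme (`kerEquiv_one`, `kerEquiv_pow`);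
* `gm_not_in_vectorExtension`: **non-example of `VectorExtension`**: `𝔾_m` is not, and does not embed in, the total space of a vector
  extension of the trivial group (`-1` is a torsion point), so the kernel clause has teeth.
-/

open CategoryTheory AlgebraicGeometry MonoidalCategory CartesianMonoidalCategory MonObj
open Filter Topology TensorProduct Polynomial

noncomputable section

namespace Claimed.Open.R001

section VecExt

/-- the ring homomorphism `R → Γ(Y, 𝒪_Y)` of a morphism `Y ⟶ Spec R`, evaluated at `r` -/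
def sharpAt {Y : Scheme.{0}} {R : Type} [CommRing R] (g : Y ⟶ Spec (CommRingCat.of R)) (r : R) : Γ(Y, ⊤) :=
  g.appTop ((Scheme.ΓSpecIso (CommRingCat.of R)).inv r)

theorem sharpAt_add {Y : Scheme.{0}} {R : Type} [CommRing R] (g : Y ⟶ Spec (CommRingCat.of R)) (r s : R) :
    sharpAt g (r + s) = sharpAt g r + sharpAt g s := by
  unfold sharpAt
  rw [map_add, map_add]

theorem sharpAt_comp_specMap {Y : Scheme.{0}} {R₁ R₂ : Type} [CommRing R₁] [CommRing R₂]
    (g : Y ⟶ Spec (CommRingCat.of R₂)) (φ : R₁ →+* R₂) (r : R₁) :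
    sharpAt (g ≫ Spec.map (CommRingCat.ofHom φ)) r = sharpAt g (φ r) := by
  unfold sharpAt
  have h := Scheme.ΓSpecIso_inv_naturality (CommRingCat.ofHom φ)
  have h2 : (Scheme.ΓSpecIso (CommRingCat.of R₂)).inv (φ r) =
      (Spec.map (CommRingCat.ofHom φ)).appTop ((Scheme.ΓSpecIso (CommRingCat.of R₁)).inv r) := congr($h r)
  rw [h2, Scheme.Hom.comp_appTop]
  rfl

theorem sharpAt_comp {Y Z : Scheme.{0}} {R : Type} [CommRing R] (f : Z ⟶ Y)
    (g : Y ⟶ Spec (CommRingCat.of R)) (r : R) : sharpAt (f ≫ g) r = f.appTop (sharpAt g r) := by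
  unfold sharpAt
  rw [Scheme.Hom.comp_appTop]
  rfl

/-- the ring homomorphism `R → Γ(Y, 𝒪_Y)` of a morphism `Y ⟶ Spec R` -/
def sharpHom {Y : Scheme.{0}} {R : Type} [CommRing R] (g : Y ⟶ Spec (CommRingCat.of R)) : R →+* Γ(Y, ⊤) :=
  (g.appTop).hom.comp (Scheme.ΓSpecIso (CommRingCat.of R)).inv.hom

theorem sharpHom_apply {Y : Scheme.{0}} {R : Type} [CommRing R] (g : Y ⟶ Spec (CommRingCat.of R)) (r : R) :
    sharpHom g r = sharpAt g r := rfl

theorem ext_sharpAt {Y : Scheme.{0}} {R : Type} [CommRing R] {f g : Y ⟶ Spec (CommRingCat.of R)}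
    (h : ∀ r, sharpAt f r = sharpAt g r) : f = g := by
  apply ext_to_Spec
  ext r
  exact h r

theorem sharpAt_toSpecΓ {Y : Scheme.{0}} (s : Γ(Y, ⊤)) :
    sharpAt (R := Γ(Y, ⊤)) Y.toSpecΓ s = s := by
  unfold sharpAt
  rw [Scheme.toSpecΓ_appTop]
  simp

variable {K : Type} [Field K]

/-- The coordinate `x^* X ∈ Γ(T, 𝒪_T)` of a `T`-valued point of `𝔾_a`. -/
def gaCoordT {T : Over (Spec (CommRingCat.of K))} (x : T ⟶ Ga K) : Γ(T.left, ⊤) :=
  sharpAt (R := K[X]) x.left X

theorem gaCoordT_mul {T : Over (Spec (CommRingCat.of K))} (x y : T ⟶ Ga K) :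
    gaCoordT (x * y) = gaCoordT x + gaCoordT y := by
  unfold gaCoordT
  rw [Hom.mul_def]
  have hμ : (μ[Ga K]).left = (pullbackSpecIso K K[X] K[X]).hom ≫
      Spec.map (CommRingCat.ofHom (Bialgebra.comulAlgHom K K[X]).toRingHom) := rfl
  have h1 : (CartesianMonoidalCategory.lift x y ≫ μ[Ga K]).left =
      ((CartesianMonoidalCategory.lift x y).left ≫ (pullbackSpecIso K K[X] K[X]).hom) ≫
      Spec.map (CommRingCat.ofHom (Bialgebra.comulAlgHom K K[X]).toRingHom) := by
    rw [Over.comp_left, hμ, Category.assoc]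
  rw [h1, sharpAt_comp_specMap]
  have h2 : (Bialgebra.comulAlgHom K K[X]).toRingHom X =
      Algebra.TensorProduct.includeLeftRingHom (X : K[X]) +
        (Algebra.TensorProduct.includeRight : K[X] →ₐ[K] K[X] ⊗[K] K[X]).toRingHom (X : K[X]) :=
    ga_comul_X K
  rw [h2, sharpAt_add, ← sharpAt_comp_specMap, ← sharpAt_comp_specMap, Category.assoc, Category.assoc,
    pullbackSpecIso_hom_fst]
  erw [pullbackSpecIso_hom_snd]
  congr 1
  · congr 1
    rw [Over.lift_left]
    exact Limits.pullback.lift_fst _ _ _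
  · congr 1
    rw [Over.lift_left]
    exact Limits.pullback.lift_snd _ _ _

theorem gaCoordT_comp {T T' : Over (Spec (CommRingCat.of K))} (f : T' ⟶ T) (x : T ⟶ Ga K) :
    gaCoordT (f ≫ x) = f.left.appTop (gaCoordT x) := by
  unfold gaCoordT
  rw [Over.comp_left, sharpAt_comp]

/-- the point of `𝔾_a(T)` with coordinate `b` -/
def gaOfCoord {T : Over (Spec (CommRingCat.of K))} (b : Γ(T.left, ⊤)) : T ⟶ Ga K :=
  Over.homMk (T.left.toSpecΓ ≫ Spec.map (CommRingCat.ofHom (eval₂RingHom (sharpHom T.hom) b))) (by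
    apply ext_sharpAt
    intro c
    show sharpAt ((T.left.toSpecΓ ≫ Spec.map (CommRingCat.ofHom (eval₂RingHom (sharpHom T.hom) b))) ≫
      Spec.map (CommRingCat.ofHom (algebraMap K K[X]))) c = sharpAt T.hom c
    rw [sharpAt_comp_specMap, sharpAt_comp_specMap, sharpAt_toSpecΓ]
    simp [sharpHom_apply])

theorem gaCoordT_gaOfCoord {T : Over (Spec (CommRingCat.of K))} (b : Γ(T.left, ⊤)) :
    gaCoordT (gaOfCoord b) = b := by
  show sharpAt (T.left.toSpecΓ ≫ Spec.map (CommRingCat.ofHom (eval₂RingHom (sharpHom T.hom) b))) X = b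
  rw [sharpAt_comp_specMap, sharpAt_toSpecΓ]
  simp

theorem gaCoordT_injective {T : Over (Spec (CommRingCat.of K))} :
    Function.Injective (gaCoordT (K := K) (T := T)) := by
  intro x y h
  ext1
  apply ext_sharpAt (R := K[X])
  intro r
  have hx : sharpHom (R := K[X]) x.left = sharpHom (R := K[X]) y.left := by
    apply Polynomial.ringHom_ext
    · intro c
      have h1 : ∀ z : T ⟶ Ga K, sharpHom (R := K[X]) z.left (C c) = sharpAt T.hom c := by
        intro z
        rw [← Over.w z]
        exact (sharpAt_comp_specMap z.left (algebraMap K K[X]) c).symm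
      rw [h1, h1]
    · exact h
  exact congr($hx r)

/-- `𝔾_a` is commutative. -/
instance ga_isCommMonObj : IsCommMonObj (Ga K) where
  mul_comm := by
    have h1 : (β_ (Ga K) (Ga K)).hom ≫ μ[Ga K] = snd (Ga K) (Ga K) * fst (Ga K) (Ga K) := by
      rw [Hom.mul_def]
      congr 1
    have h2 : μ[Ga K] = fst (Ga K) (Ga K) * snd (Ga K) (Ga K) := by
      rw [Hom.mul_def, lift_fst_snd, Category.id_comp]
    rw [h1]
    conv_rhs => rw [h2]
    apply gaCoordT_injective
    rw [gaCoordT_mul, gaCoordT_mul, add_comm]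

instance ga_flat : Flat (Ga K).hom := by
  show Flat (Spec.map (CommRingCat.ofHom (algebraMap K K[X])))
  rw [Flat.SpecMap_iff]
  show (algebraMap K K[X]).Flat
  rw [RingHom.flat_algebraMap_iff]
  infer_instance

instance ga_surjective : Surjective (Ga K).hom := by
  refine ⟨fun x => ?_⟩
  have y : (Ga K).left := (1 : Pts (Ga K) K).left (IsLocalRing.closedPoint K)
  exact ⟨y, Subsingleton.elim _ _⟩

instance ga_quasiCompact : QuasiCompact (Ga K).hom := by
  show QuasiCompact (Spec.map (CommRingCat.ofHom (algebraMap K K[X])))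
  infer_instance

variable (G : Over (Spec (CommRingCat.of K))) [IsIso G.hom] [GrpObj G]

/-- **`𝔾_a` as a vector extension of rank one of the trivial group.** -/
def gaExt : VectorExtension G :=
  haveI hs : ∀ T : Over (Spec (CommRingCat.of K)), Subsingleton (T ⟶ G) := subsingleton_hom_of_isIso G
  { E := Ga K
    π := Over.homMk ((Ga K).hom ≫ inv G.hom) (by simp)
    hom := ⟨Subsingleton.elim _ _, Subsingleton.elim _ _⟩
    flat := (inferInstance : Flat ((Ga K).hom ≫ inv G.hom))
    surj := (inferInstance : Surjective ((Ga K).hom ≫ inv G.hom))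
    qc := (inferInstance : QuasiCompact ((Ga K).hom ≫ inv G.hom))
    rank := 1
    kerEquiv := fun T =>
      { toFun := fun x _ => gaCoordT x.1
        invFun := fun b => ⟨gaOfCoord (b 0), Subsingleton.elim _ _⟩
        left_inv := fun x => Subtype.ext (gaCoordT_injective (gaCoordT_gaOfCoord _))
        right_inv := fun b => by
          funext i
          rw [Subsingleton.elim i 0]
          exact gaCoordT_gaOfCoord _ }
    kerEquiv_mul := fun T x y z h => by
      funext i
      show gaCoordT z.1 = gaCoordT x.1 + gaCoordT y.1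
      rw [h, gaCoordT_mul]
    kerEquiv_comp := fun T T' f x z h => by
      funext i
      show gaCoordT z.1 = f.left.appTop (gaCoordT x.1)
      rw [h, gaCoordT_comp] }

theorem gaExt_rank : (gaExt G).rank = 1 := rfl

/-- `𝔾_a → Spec K` is not an isomorphism: `𝔾_a(K) = K` has more than one element. -/
theorem not_isIso_ga_hom : ¬ IsIso (Ga K).hom := by
  intro h
  have hs := subsingleton_hom_of_isIso (Ga K) (specOver K K)
  have h01 : gaPt (K := K) (L := K) 0 = gaPt (K := K) (L := K) 1 := Subsingleton.elim _ _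
  exact zero_ne_one (gaPt_injective h01)

/-- **Non-example of `IsUniversal`**: the vector extension `𝔾_a` of the trivial group is not universal. -/
theorem not_isUniversal_gaExt : ¬ (gaExt G).IsUniversal := fun h =>
  not_isIso_ga_hom (isIso_of_isUniversal G (gaExt G) h)

/-- All tangent vectors of the vector extension `𝔾_a` of the trivial group are vertical. -/
theorem gaExt_isVertical {L : Type} [Field L] [Algebra K L] (v : Lie (gaExt G).E L) :
    (gaExt G).IsVertical v := by
  intro U h f
  have hsub := subsingleton_left_of_isIso G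
  have htop : U = ⊤ := by
    ext x
    simp only [TopologicalSpace.Opens.coe_top, Set.mem_univ, iff_true]
    rw [Subsingleton.elim x ((gaExt G).π.left (idPt (gaExt G).E))]; exact h
  subst htop
  have : IsIso G.hom.appTop := inferInstanceAs (IsIso (G.hom.app ⊤))
  set c : K := (Scheme.ΓSpecIso (CommRingCat.of K)).hom (inv G.hom.appTop f) with hc
  have hf : f = G.hom.appTop ((Scheme.ΓSpecIso (CommRingCat.of K)).inv c) := by simp [hc]
  have key : (gaExt G).π.left.appTop f =
      (Ga K).hom.appTop ((Scheme.ΓSpecIso (CommRingCat.of K)).inv c) := by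
    have hw : (Ga K).hom = (gaExt G).π.left ≫ G.hom := (Over.w (gaExt G).π).symm
    rw [hf, hw, Scheme.Hom.comp_appTop]
    rfl
  show v.1 ((Ga K).left.presheaf.germ ⊤ (idPt (Ga K)) trivial ((gaExt G).π.left.appTop f)) = 0
  rw [key]
  exact v.2.2.2 c

/-- The space of vertical vectors of `𝔾_a → (trivial group)` has dimension `1 = rank`. -/
theorem finrank_lie_gaExt {L : Type} [Field L] [Algebra K L] :
    Module.finrank L (Lie (gaExt G).E L) = (gaExt G).rank := finrank_lie_ga

/-- The trivial extension is universal, and `𝔾_a` is not: `IsUniversal` separates the two vector extensions of the trivial group. -/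
theorem isUniversal_trivialExt_and_not_gaExt :
    (trivialExt G).IsUniversal ∧ ¬ (gaExt G).IsUniversal :=
  ⟨isUniversal_of_isIso G (trivialExt G), not_isUniversal_gaExt G⟩

end VecExt

/-! ## The kernel clause of `VectorExtension` has teeth -/

section Torsion

variable {K : Type} [Field K] {A : Over (Spec (CommRingCat.of K))} [GrpObj A] (X : VectorExtension A)

theorem VectorExtension.kerEquiv_one (T : Over (Spec (CommRingCat.of K)))
    (z : {x : T ⟶ X.E // x ≫ X.π = 1}) (hz : z.1 = 1) : X.kerEquiv T z = 0 := by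
  have h := X.kerEquiv_mul T z z z (by rw [hz, _root_.mul_one])
  exact left_eq_add.1 h

theorem VectorExtension.kerEquiv_pow (T : Over (Spec (CommRingCat.of K)))
    (x : {x : T ⟶ X.E // x ≫ X.π = 1}) :
    ∀ (n : ℕ) (z : {x : T ⟶ X.E // x ≫ X.π = 1}), z.1 = x.1 ^ n → X.kerEquiv T z = n • X.kerEquiv T x
  | 0, z, hz => by
    rw [zero_smul]
    exact X.kerEquiv_one T z (by rw [hz, pow_zero])
  | n + 1, z, hz => by
    have hw : (x.1 ^ n) ≫ X.π = 1 := by rw [MonObj.pow_comp, x.2, one_pow]
    rw [X.kerEquiv_mul T ⟨x.1 ^ n, hw⟩ x z (by rw [hz, pow_succ]),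
      VectorExtension.kerEquiv_pow T x n ⟨_, hw⟩ rfl, succ_nsmul]

/-- In characteristic zero the kernel of a vector extension has no torsion, on any test scheme. -/
theorem VectorExtension.eq_one_of_pow_eq_one [CharZero K] (T : Over (Spec (CommRingCat.of K)))
    (x : T ⟶ X.E) (hx : x ≫ X.π = 1) {n : ℕ} (hn : 0 < n) (h : x ^ n = 1) : x = 1 := by
  have h1 : ((1 : T ⟶ X.E)) ≫ X.π = 1 := MonObj.one_comp _
  have hpow := X.kerEquiv_pow T ⟨x, hx⟩ n ⟨1, h1⟩ h.symm
  rw [X.kerEquiv_one T ⟨1, h1⟩ rfl] at hpow
  have hb : X.kerEquiv T ⟨x, hx⟩ = 0 := by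
    funext i
    have h2 : (n : Γ(T.left, ⊤)) * X.kerEquiv T ⟨x, hx⟩ i = 0 := by
      have := congrFun hpow i
      simpa [nsmul_eq_mul] using this.symm
    have h3 : sharpHom T.hom ((n : K)⁻¹) * (n : Γ(T.left, ⊤)) = 1 := by
      have : (n : Γ(T.left, ⊤)) = sharpHom T.hom (n : K) := (map_natCast _ n).symm
      rw [this, ← map_mul, inv_mul_cancel₀ (Nat.cast_ne_zero.2 hn.ne'), map_one]
    calc X.kerEquiv T ⟨x, hx⟩ i
        = (sharpHom T.hom ((n : K)⁻¹) * (n : Γ(T.left, ⊤))) * X.kerEquiv T ⟨x, hx⟩ i := by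
          rw [h3, _root_.one_mul]
      _ = 0 := by rw [_root_.mul_assoc, h2, mul_zero]
  have h4 : (⟨x, hx⟩ : {x : T ⟶ X.E // x ≫ X.π = 1}) = ⟨1, h1⟩ :=
    (X.kerEquiv T).injective (by rw [hb, X.kerEquiv_one T ⟨1, h1⟩ rfl])
  exact congrArg Subtype.val h4

/-- **Non-example of `VectorExtension`**: `𝔾_m` is not (and does not embed in) the total space of a vector extension of the
trivial group: `-1 ∈ 𝔾_m(K)` is a torsion point. -/
theorem gm_not_in_vectorExtension [CharZero K] (G : Over (Spec (CommRingCat.of K))) [IsIso G.hom] [GrpObj G]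
    (Y : VectorExtension G) (e : Gm K ⟶ Y.E) [IsMonHom e] [Mono e] : False := by
  have hs := subsingleton_hom_of_isIso G (specOver K K)
  set x : Pts (Gm K) K := gmPt (-1 : Kˣ) with hx
  have hx2 : x ^ 2 = 1 := by rw [hx, gmPt_pow, neg_one_sq, gmPt_one]
  have h1 : (x ≫ e) ^ 2 = 1 := by rw [← MonObj.pow_comp, hx2, MonObj.one_comp]
  have h2 : x ≫ e = 1 := Y.eq_one_of_pow_eq_one _ (x ≫ e) (Subsingleton.elim _ _) two_pos h1
  have h3 : x = 1 := by
    rw [← cancel_mono e, h2, MonObj.one_comp]
  rw [hx, ← gmPt_one] at h3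
  have h4 : (-1 : Kˣ) = 1 := gmPt_injective h3
  have h5 : (-1 : K) = 1 := by
    have := congrArg Units.val h4
    simpa using this
  have h6 : (2 : K) = 0 := by linear_combination -h5
  exact two_ne_zero h6

end Torsion

section Point

variable {p : ℕ} [Fact p.Prime] {K : Type} [Field K] [Algebra K ℂ_[p]] [Algebra K ℂ]

/-- At the abelian scheme of dimension `0`: the vector extension `𝔾_a` of the generic fibre is not the `ext` of any period datum
(if it were allowed, `H_1^{dR}` would have dimension `1` while `H_1(A(ℂ), ℤ) = ker exp = 0`, see `gaExp_ker`). -/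
theorem periodDatum_ext_ne_gaExt (P : PeriodDatum (pointScheme p K)) :
    P.ext ≠ gaExt (pointScheme p K).generic := fun h =>
  not_isUniversal_gaExt (pointScheme p K).generic (h ▸ P.univ)

end Point

end Claimed.Open.R001
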