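import Claimed.Open.R001.Statement

/-!
# open001 (Milne's rationality conjecture): the laws of the cup product formula `lefschetzWedge`, for ALL `r`, `m`

`SanityWedge.lean` checks `lefschetzWedge r m g e v = (g ∧ e_0 ∧ ⋯ ∧ e_{m-1})(v)` for `m ≤ 1` and on two numerical examples.  Here, for every `r`, `m`, every field `S`, every
`g`, `e`, `v` (no hypothesis on `g`, `e` unless stated):

* `lefschetzWedge_comp_perm` : the product is ALTERNATING in `v` (`v ∘ τ` multiplies it by `sign τ`); `lefschetzWedge_eq_zero_of_eq` : it vanishes when two of the vectors agree (`2 ≠ 0`);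
* `lefschetzWedge_perm_divisors` : it does NOT depend on the ORDER of the divisor classes (classes of even degree commute): `e ∘ π` gives the same value for every `π : Perm (Fin m)`
  (`blockPerm`, the permutation of the `m` pairs of slots, is even: `sign_blockPerm`);
* `lefschetzWedge_add_left`, `lefschetzWedge_smul_left`, `lefschetzWedge_add_divisor`, `lefschetzWedge_smul_divisor` : it is additive and homogeneous in `g` and in each `e i`
  (this is the linearity used in the remark after Theorem 1.1: "by linearity the same conclusion holds for every rational Lefschetz class of complementary codimension");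
* `lefschetzWedge_eq_zero_of_symm` : a SYMMETRIC form in one of the slots `e i` gives `0` (`2 ≠ 0`): only the alternating part of the `e i` is seen.
* `conclusion_perm_divisors` : hence the conclusion of `Statement`, copied verbatim for a given `q` (both halves), holds for the list `D ∘ π` as soon as it holds for the list `D`.
-/

namespace Claimed.Open.R001

section laws

variable {S M : Type} [Field S]

/-- the summand of `lefschetzWedge` at the permutation `σ` -/
def wedgeSummand (r m : ℕ) (g : (Fin (2 * r) → M) → S) (e : Fin m → M → M → S) (v : Fin (2 * r + 2 * m) → M)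
    (σ : Equiv.Perm (Fin (2 * r + 2 * m))) : S :=
  ((Equiv.Perm.sign σ : ℤ) : S) * (g (fun a => v (σ (Fin.castAdd (2 * m) a))) *
      ∏ i : Fin m, e i (v (σ (Fin.natAdd (2 * r) ⟨2 * i, by omega⟩)))
        (v (σ (Fin.natAdd (2 * r) ⟨2 * i + 1, by omega⟩))))

/-- `lefschetzWedge` is the normalised sum of the summands (by definition). -/
theorem lefschetzWedge_eq_sum (r m : ℕ) (g : (Fin (2 * r) → M) → S) (e : Fin m → M → M → S) (v : Fin (2 * r + 2 * m) → M) :
    lefschetzWedge r m g e v = ((((2 * r).factorial : ℕ) : S) * 2 ^ m)⁻¹ * ∑ σ, wedgeSummand r m g e v σ := rfl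

theorem sign_mul_self_cast {n : ℕ} (τ : Equiv.Perm (Fin n)) : ((Equiv.Perm.sign τ : ℤ) : S) * ((Equiv.Perm.sign τ : ℤ) : S) = 1 := by
  rcases Int.units_eq_one_or (Equiv.Perm.sign τ) with h | h <;> simp [h]

theorem wedgeSummand_comp_perm (r m : ℕ) (g : (Fin (2 * r) → M) → S) (e : Fin m → M → M → S)
    (v : Fin (2 * r + 2 * m) → M) (τ σ : Equiv.Perm (Fin (2 * r + 2 * m))) :
    wedgeSummand r m g e (v ∘ τ) σ = ((Equiv.Perm.sign τ : ℤ) : S) * wedgeSummand r m g e v (τ * σ) := by
  unfold wedgeSummand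
  simp only [Equiv.Perm.sign_mul, Equiv.Perm.coe_mul, Function.comp_apply, Units.val_mul, Int.cast_mul]
  have h : ∀ t u A : S, t * t = 1 → u * A = t * ((t * u) * A) := by
    intro t u A ht
    linear_combination (-(u * A)) * ht
  exact h _ _ _ (sign_mul_self_cast τ)

/-- The product is alternating in the vectors: a permutation of the `2r + 2m` vectors multiplies it by the sign. -/
theorem lefschetzWedge_comp_perm (r m : ℕ) (g : (Fin (2 * r) → M) → S) (e : Fin m → M → M → S)
    (v : Fin (2 * r + 2 * m) → M) (τ : Equiv.Perm (Fin (2 * r + 2 * m))) :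
    lefschetzWedge r m g e (v ∘ τ) = ((Equiv.Perm.sign τ : ℤ) : S) * lefschetzWedge r m g e v := by
  have hs : ∑ σ, wedgeSummand r m g e (v ∘ τ) σ = ((Equiv.Perm.sign τ : ℤ) : S) * ∑ σ, wedgeSummand r m g e v σ := by
    rw [Finset.mul_sum]
    calc ∑ σ, wedgeSummand r m g e (v ∘ τ) σ = ∑ σ, ((Equiv.Perm.sign τ : ℤ) : S) * wedgeSummand r m g e v (τ * σ) :=
          Finset.sum_congr rfl fun σ _ => wedgeSummand_comp_perm r m g e v τ σ
      _ = ∑ σ, ((Equiv.Perm.sign τ : ℤ) : S) * wedgeSummand r m g e v σ :=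
          Equiv.sum_comp (Equiv.mulLeft τ) (fun σ => ((Equiv.Perm.sign τ : ℤ) : S) * wedgeSummand r m g e v σ)
  rw [lefschetzWedge_eq_sum, lefschetzWedge_eq_sum, hs]
  ring

/-- The product vanishes when two of the vectors agree. -/
theorem lefschetzWedge_eq_zero_of_eq (h2 : (2 : S) ≠ 0) (r m : ℕ) (g : (Fin (2 * r) → M) → S) (e : Fin m → M → M → S)
    (v : Fin (2 * r + 2 * m) → M) {i j : Fin (2 * r + 2 * m)} (hij : i ≠ j) (hv : v i = v j) :
    lefschetzWedge r m g e v = 0 := by
  have h := lefschetzWedge_comp_perm r m g e v (Equiv.swap i j)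
  have hvs : v ∘ Equiv.swap i j = v := by
    funext k
    by_cases hi : k = i
    · subst hi; simp [hv]
    · by_cases hj : k = j
      · subst hj; simp [hv]
      · simp [Equiv.swap_apply_of_ne_of_ne hi hj]
  rw [hvs, Equiv.Perm.sign_swap hij] at h
  have h' : (2 : S) * lefschetzWedge r m g e v = 0 := by
    have : lefschetzWedge r m g e v = - lefschetzWedge r m g e v := by
      simpa using h
    linear_combination this
  exact (mul_eq_zero.1 h').resolve_left h2

/-- Additive in the `2r`-class. -/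
theorem lefschetzWedge_add_left (r m : ℕ) (g g' : (Fin (2 * r) → M) → S) (e : Fin m → M → M → S) (v : Fin (2 * r + 2 * m) → M) :
    lefschetzWedge r m (fun x => g x + g' x) e v = lefschetzWedge r m g e v + lefschetzWedge r m g' e v := by
  have hs : ∑ σ, wedgeSummand r m (fun x => g x + g' x) e v σ = ∑ σ, wedgeSummand r m g e v σ + ∑ σ, wedgeSummand r m g' e v σ := by
    rw [← Finset.sum_add_distrib]
    refine Finset.sum_congr rfl fun σ _ => ?_
    unfold wedgeSummand
    ring
  rw [lefschetzWedge_eq_sum, lefschetzWedge_eq_sum, lefschetzWedge_eq_sum, hs]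
  ring

/-- Homogeneous in the `2r`-class. -/
theorem lefschetzWedge_smul_left (a : S) (r m : ℕ) (g : (Fin (2 * r) → M) → S) (e : Fin m → M → M → S) (v : Fin (2 * r + 2 * m) → M) :
    lefschetzWedge r m (fun x => a * g x) e v = a * lefschetzWedge r m g e v := by
  have hs : ∑ σ, wedgeSummand r m (fun x => a * g x) e v σ = a * ∑ σ, wedgeSummand r m g e v σ := by
    rw [Finset.mul_sum]
    refine Finset.sum_congr rfl fun σ _ => ?_
    unfold wedgeSummand
    ring
  rw [lefschetzWedge_eq_sum, lefschetzWedge_eq_sum, hs]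
  ring

/-- the product over the divisor slots when one slot is replaced -/
theorem prod_update_slot {m : ℕ} (e : Fin m → M → M → S) (i : Fin m) (c : M → M → S) (X Y : Fin m → M) :
    ∏ j, (Function.update e i c) j (X j) (Y j) = c (X i) (Y i) * ∏ j ∈ Finset.univ.erase i, e j (X j) (Y j) := by
  rw [← Finset.mul_prod_erase Finset.univ _ (Finset.mem_univ i), Function.update_self]
  congr 1
  refine Finset.prod_congr rfl fun j hj => ?_
  rw [Function.update_of_ne (Finset.ne_of_mem_erase hj)]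

/-- Additive in each divisor class. -/
theorem lefschetzWedge_add_divisor (r m : ℕ) (g : (Fin (2 * r) → M) → S) (e : Fin m → M → M → S) (i : Fin m) (c c' : M → M → S)
    (v : Fin (2 * r + 2 * m) → M) :
    lefschetzWedge r m g (Function.update e i (fun x y => c x y + c' x y)) v =
      lefschetzWedge r m g (Function.update e i c) v + lefschetzWedge r m g (Function.update e i c') v := by
  have hs : ∑ σ, wedgeSummand r m g (Function.update e i (fun x y => c x y + c' x y)) v σ =
      ∑ σ, wedgeSummand r m g (Function.update e i c) v σ + ∑ σ, wedgeSummand r m g (Function.update e i c') v σ := by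
    rw [← Finset.sum_add_distrib]
    refine Finset.sum_congr rfl fun σ _ => ?_
    unfold wedgeSummand
    rw [prod_update_slot, prod_update_slot, prod_update_slot]
    ring
  rw [lefschetzWedge_eq_sum, lefschetzWedge_eq_sum, lefschetzWedge_eq_sum, hs]
  ring

/-- Homogeneous in each divisor class. -/
theorem lefschetzWedge_smul_divisor (a : S) (r m : ℕ) (g : (Fin (2 * r) → M) → S) (e : Fin m → M → M → S) (i : Fin m) (c : M → M → S)
    (v : Fin (2 * r + 2 * m) → M) :
    lefschetzWedge r m g (Function.update e i (fun x y => a * c x y)) v = a * lefschetzWedge r m g (Function.update e i c) v := by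
  have hs : ∑ σ, wedgeSummand r m g (Function.update e i (fun x y => a * c x y)) v σ = a * ∑ σ, wedgeSummand r m g (Function.update e i c) v σ := by
    rw [Finset.mul_sum]
    refine Finset.sum_congr rfl fun σ _ => ?_
    unfold wedgeSummand
    rw [prod_update_slot, prod_update_slot]
    ring
  rw [lefschetzWedge_eq_sum, lefschetzWedge_eq_sum, hs]
  ring

/-! ### the order of the divisor classes -/

/-- the `2r + 2m` slots: `2r` slots of the class `g` and `m` pairs of slots -/
def slotEquiv (r m : ℕ) : Fin (2 * r) ⊕ (Fin m × Fin 2) ≃ Fin (2 * r + 2 * m) :=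
  (Equiv.sumCongr (Equiv.refl _) (finProdFinEquiv.trans (finCongr (Nat.mul_comm m 2)))).trans finSumFinEquiv

theorem slotEquiv_inl (r m : ℕ) (a : Fin (2 * r)) : slotEquiv r m (Sum.inl a) = Fin.castAdd (2 * m) a := by
  simp [slotEquiv]

theorem slotEquiv_inr_zero (r m : ℕ) (i : Fin m) : slotEquiv r m (Sum.inr (i, 0)) = Fin.natAdd (2 * r) ⟨2 * i, by omega⟩ := by
  apply Fin.ext
  simp [slotEquiv]

theorem slotEquiv_inr_one (r m : ℕ) (i : Fin m) : slotEquiv r m (Sum.inr (i, 1)) = Fin.natAdd (2 * r) ⟨2 * i + 1, by omega⟩ := by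
  apply Fin.ext
  simp [slotEquiv]
  omega

/-- the permutation of the slots which permutes the `m` pairs by `π` -/
def blockPerm (r m : ℕ) (π : Equiv.Perm (Fin m)) : Equiv.Perm (Fin (2 * r + 2 * m)) :=
  (slotEquiv r m).permCongr (Equiv.Perm.sumCongr 1 (Equiv.prodCongrLeft fun _ : Fin 2 => π))

theorem blockPerm_castAdd (r m : ℕ) (π : Equiv.Perm (Fin m)) (a : Fin (2 * r)) :
    blockPerm r m π (Fin.castAdd (2 * m) a) = Fin.castAdd (2 * m) a := by
  rw [← slotEquiv_inl, blockPerm, Equiv.permCongr_apply, Equiv.symm_apply_apply]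
  simp

theorem blockPerm_even (r m : ℕ) (π : Equiv.Perm (Fin m)) (i : Fin m) :
    blockPerm r m π (Fin.natAdd (2 * r) ⟨2 * i, by omega⟩) = Fin.natAdd (2 * r) ⟨2 * π i, by omega⟩ := by
  rw [← slotEquiv_inr_zero, ← slotEquiv_inr_zero, blockPerm, Equiv.permCongr_apply, Equiv.symm_apply_apply]
  simp

theorem blockPerm_odd (r m : ℕ) (π : Equiv.Perm (Fin m)) (i : Fin m) :
    blockPerm r m π (Fin.natAdd (2 * r) ⟨2 * i + 1, by omega⟩) = Fin.natAdd (2 * r) ⟨2 * π i + 1, by omega⟩ := by
  rw [← slotEquiv_inr_one, ← slotEquiv_inr_one, blockPerm, Equiv.permCongr_apply, Equiv.symm_apply_apply]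
  simp

/-- a permutation of PAIRS of slots is even -/
theorem sign_blockPerm (r m : ℕ) (π : Equiv.Perm (Fin m)) : Equiv.Perm.sign (blockPerm r m π) = 1 := by
  rw [blockPerm, Equiv.Perm.sign_permCongr, Equiv.Perm.sign_sumCongr, Equiv.Perm.sign_one, one_mul, Equiv.Perm.sign_prodCongrLeft]
  simp only [Finset.prod_const, Finset.card_univ, Fintype.card_fin]
  exact Int.units_sq _

theorem wedgeSummand_blockPerm (r m : ℕ) (g : (Fin (2 * r) → M) → S) (e : Fin m → M → M → S)
    (v : Fin (2 * r + 2 * m) → M) (π : Equiv.Perm (Fin m)) (σ : Equiv.Perm (Fin (2 * r + 2 * m))) :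
    wedgeSummand r m g (e ∘ π) v (σ * blockPerm r m π) = wedgeSummand r m g e v σ := by
  unfold wedgeSummand
  simp only [Equiv.Perm.sign_mul, sign_blockPerm, mul_one, Equiv.Perm.coe_mul, Function.comp_apply, blockPerm_castAdd, blockPerm_even,
    blockPerm_odd]
  congr 2
  exact Equiv.prod_comp π (fun j : Fin m => e j (v (σ (Fin.natAdd (2 * r) ⟨2 * j, by omega⟩))) (v (σ (Fin.natAdd (2 * r) ⟨2 * j + 1, by omega⟩))))

/-- **The product does not depend on the order of the divisor classes** (classes of even degree commute). -/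
theorem lefschetzWedge_perm_divisors (r m : ℕ) (g : (Fin (2 * r) → M) → S) (e : Fin m → M → M → S)
    (v : Fin (2 * r + 2 * m) → M) (π : Equiv.Perm (Fin m)) :
    lefschetzWedge r m g (e ∘ π) v = lefschetzWedge r m g e v := by
  have hs : ∑ σ, wedgeSummand r m g (e ∘ π) v σ = ∑ σ, wedgeSummand r m g e v σ :=
    calc ∑ σ, wedgeSummand r m g (e ∘ π) v σ = ∑ σ, wedgeSummand r m g (e ∘ π) v (σ * blockPerm r m π) :=
          (Equiv.sum_comp (Equiv.mulRight (blockPerm r m π)) (fun σ => wedgeSummand r m g (e ∘ π) v σ)).symm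
      _ = ∑ σ, wedgeSummand r m g e v σ := Finset.sum_congr rfl fun σ _ => wedgeSummand_blockPerm r m g e v π σ
  rw [lefschetzWedge_eq_sum, lefschetzWedge_eq_sum, hs]

/-! ### only the alternating part of the divisor classes is seen -/

/-- the transposition of the two slots of the `i`-th pair -/
def slotSwap (r m : ℕ) (i : Fin m) : Equiv.Perm (Fin (2 * r + 2 * m)) :=
  Equiv.swap (Fin.natAdd (2 * r) ⟨2 * i, by omega⟩) (Fin.natAdd (2 * r) ⟨2 * i + 1, by omega⟩)

theorem sign_slotSwap (r m : ℕ) (i : Fin m) : Equiv.Perm.sign (slotSwap r m i) = -1 := by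
  refine Equiv.Perm.sign_swap ?_
  intro h
  have := congrArg Fin.val h
  simp at this

theorem slotSwap_castAdd (r m : ℕ) (i : Fin m) (x : Fin (2 * r)) : slotSwap r m i (Fin.castAdd (2 * m) x) = Fin.castAdd (2 * m) x := by
  refine Equiv.swap_apply_of_ne_of_ne ?_ ?_
  all_goals
    intro h
    have := congrArg Fin.val h
    simp at this
    omega

theorem slotSwap_even_self (r m : ℕ) (i : Fin m) :
    slotSwap r m i (Fin.natAdd (2 * r) ⟨2 * i, by omega⟩) = Fin.natAdd (2 * r) ⟨2 * i + 1, by omega⟩ := Equiv.swap_apply_left _ _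

theorem slotSwap_odd_self (r m : ℕ) (i : Fin m) :
    slotSwap r m i (Fin.natAdd (2 * r) ⟨2 * i + 1, by omega⟩) = Fin.natAdd (2 * r) ⟨2 * i, by omega⟩ := Equiv.swap_apply_right _ _

theorem slotSwap_even_ne (r m : ℕ) {i j : Fin m} (hj : j ≠ i) :
    slotSwap r m i (Fin.natAdd (2 * r) ⟨2 * j, by omega⟩) = Fin.natAdd (2 * r) ⟨2 * j, by omega⟩ := by
  have hj' : (j : ℕ) ≠ (i : ℕ) := fun h => hj (Fin.ext h)
  refine Equiv.swap_apply_of_ne_of_ne ?_ ?_
  all_goals
    intro h
    have := congrArg Fin.val h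
    simp at this
    omega

theorem slotSwap_odd_ne (r m : ℕ) {i j : Fin m} (hj : j ≠ i) :
    slotSwap r m i (Fin.natAdd (2 * r) ⟨2 * j + 1, by omega⟩) = Fin.natAdd (2 * r) ⟨2 * j + 1, by omega⟩ := by
  have hj' : (j : ℕ) ≠ (i : ℕ) := fun h => hj (Fin.ext h)
  refine Equiv.swap_apply_of_ne_of_ne ?_ ?_
  all_goals
    intro h
    have := congrArg Fin.val h
    simp at this
    omega

theorem wedgeSummand_slotSwap (r m : ℕ) (g : (Fin (2 * r) → M) → S) (e : Fin m → M → M → S) (v : Fin (2 * r + 2 * m) → M) (i : Fin m)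
    (hsym : ∀ x y, e i x y = e i y x) (σ : Equiv.Perm (Fin (2 * r + 2 * m))) :
    wedgeSummand r m g e v (σ * slotSwap r m i) = - wedgeSummand r m g e v σ := by
  have hp : ∀ j : Fin m,
      e j (v (σ (slotSwap r m i (Fin.natAdd (2 * r) ⟨2 * j, by omega⟩)))) (v (σ (slotSwap r m i (Fin.natAdd (2 * r) ⟨2 * j + 1, by omega⟩)))) =
      e j (v (σ (Fin.natAdd (2 * r) ⟨2 * j, by omega⟩))) (v (σ (Fin.natAdd (2 * r) ⟨2 * j + 1, by omega⟩))) := by
    intro j
    by_cases hj : j = i
    · subst hj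
      rw [slotSwap_even_self, slotSwap_odd_self, hsym]
    · rw [slotSwap_even_ne r m hj, slotSwap_odd_ne r m hj]
  unfold wedgeSummand
  simp only [Equiv.Perm.coe_mul, Function.comp_apply, slotSwap_castAdd, hp, Equiv.Perm.sign_mul, sign_slotSwap]
  simp

/-- **A symmetric form in one of the divisor slots gives `0`**: only the alternating part of the `e i` is seen by the product. -/
theorem lefschetzWedge_eq_zero_of_symm (h2 : (2 : S) ≠ 0) (r m : ℕ) (g : (Fin (2 * r) → M) → S) (e : Fin m → M → M → S)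
    (v : Fin (2 * r + 2 * m) → M) (i : Fin m) (hsym : ∀ x y, e i x y = e i y x) : lefschetzWedge r m g e v = 0 := by
  have hs : ∑ σ, wedgeSummand r m g e v σ = - ∑ σ, wedgeSummand r m g e v σ :=
    calc ∑ σ, wedgeSummand r m g e v σ
        = ∑ σ, wedgeSummand r m g e v (σ * slotSwap r m i) :=
          (Equiv.sum_comp (Equiv.mulRight (slotSwap r m i)) (fun σ => wedgeSummand r m g e v σ)).symm
      _ = ∑ σ, - wedgeSummand r m g e v σ := Finset.sum_congr rfl fun σ _ => wedgeSummand_slotSwap r m g e v i hsym σ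
      _ = - ∑ σ, wedgeSummand r m g e v σ := Finset.sum_neg_distrib _
  have h0 : ∑ σ, wedgeSummand r m g e v σ = 0 := by
    have h' : (2 : S) * ∑ σ, wedgeSummand r m g e v σ = 0 := by linear_combination hs
    exact (mul_eq_zero.1 h').resolve_left h2
  rw [lefschetzWedge_eq_sum, h0, mul_zero]

end laws

/-! ### consequence for `Statement`: the order of the divisors is immaterial -/

/-- **The conclusion of `Statement` (copied verbatim, for a given `q`) does not depend on the order of the divisors `D_0, …, D_{m-1}`**: if `q` is the common value of the traces for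
the list `D`, it is the common value for every reordering `D ∘ π`. -/
theorem conclusion_perm_divisors (p : ℕ) [Fact p.Prime] (K : Type) [Field K] [Algebra ℚ K] [IsAlgClosure ℚ K]
    [Algebra K ℂ] [Algebra K ℂ_[p]] (r m : ℕ) (𝒜 : AbelianScheme p K (r + m)) (P : PeriodDatum 𝒜)
    (pt : BettiClass P (2 * r + 2 * m) (r + m)) (g : BettiClass P (2 * r) r)
    (D : Fin m → CartierDivisor 𝒜.special.left) (π : Equiv.Perm (Fin m)) (q : ℚ)
    (h : (∀ (ℓ : ℕ) [Fact ℓ.Prime], ℓ ≠ p →
        ∃ c : Fin m → P.Λ → P.Λ → ℤ_[ℓ], (∀ i, IsEllChern P ℓ (D i) (c i)) ∧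
          ∀ l : Fin (2 * r + 2 * m) → P.Λ,
            lefschetzWedge r m (fun x => ((g.rat x : ℚ) : ℚ_[ℓ]))
              (fun i x y => ((c i x y : ℤ_[ℓ]) : ℚ_[ℓ])) l = (q : ℚ_[ℓ]) * ((pt.rat l : ℚ) : ℚ_[ℓ])) ∧
      (∃ (gp : AlternatingMap ℂ_[p] (P.HdR ℂ_[p]) ℂ_[p] (Fin (2 * r)))
         (ptp : AlternatingMap ℂ_[p] (P.HdR ℂ_[p]) ℂ_[p] (Fin (2 * r + 2 * m)))
         (c : Fin m → P.HdR ℂ_[p] → P.HdR ℂ_[p] → ℂ_[p]),
          g.IsCrisSpecialization gp ∧ pt.IsCrisSpecialization ptp ∧
          (∀ i, IsCrisChern P (D i) (c i)) ∧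
          ∀ v : Fin (2 * r + 2 * m) → P.HdR ℂ_[p],
            lefschetzWedge r m gp c v = (q : ℂ_[p]) * ptp v)) :
    (∀ (ℓ : ℕ) [Fact ℓ.Prime], ℓ ≠ p →
        ∃ c : Fin m → P.Λ → P.Λ → ℤ_[ℓ], (∀ i, IsEllChern P ℓ ((D ∘ π) i) (c i)) ∧
          ∀ l : Fin (2 * r + 2 * m) → P.Λ,
            lefschetzWedge r m (fun x => ((g.rat x : ℚ) : ℚ_[ℓ]))
              (fun i x y => ((c i x y : ℤ_[ℓ]) : ℚ_[ℓ])) l = (q : ℚ_[ℓ]) * ((pt.rat l : ℚ) : ℚ_[ℓ])) ∧
      (∃ (gp : AlternatingMap ℂ_[p] (P.HdR ℂ_[p]) ℂ_[p] (Fin (2 * r)))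
         (ptp : AlternatingMap ℂ_[p] (P.HdR ℂ_[p]) ℂ_[p] (Fin (2 * r + 2 * m)))
         (c : Fin m → P.HdR ℂ_[p] → P.HdR ℂ_[p] → ℂ_[p]),
          g.IsCrisSpecialization gp ∧ pt.IsCrisSpecialization ptp ∧
          (∀ i, IsCrisChern P ((D ∘ π) i) (c i)) ∧
          ∀ v : Fin (2 * r + 2 * m) → P.HdR ℂ_[p],
            lefschetzWedge r m gp c v = (q : ℂ_[p]) * ptp v) := by
  obtain ⟨hl, gp, ptp, c, h1, h2, h3, h4⟩ := h
  refine ⟨?_, gp, ptp, c ∘ π, h1, h2, fun i => h3 (π i), fun v => ?_⟩
  · intro ℓ _ hℓ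
    obtain ⟨c, hc, hw⟩ := hl ℓ hℓ
    refine ⟨c ∘ π, fun i => hc (π i), fun l => ?_⟩
    rw [← hw l]
    exact lefschetzWedge_perm_divisors r m (fun x => ((g.rat x : ℚ) : ℚ_[ℓ])) (fun i x y => ((c i x y : ℤ_[ℓ]) : ℚ_[ℓ])) l π
  · rw [← h4 v]
    exact lefschetzWedge_perm_divisors r m gp c v π

end Claimed.Open.R001
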