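import Claimed.Open.R001.SanityWedgeLaws

/-!
# open001 (Milne's rationality conjecture): the cup product formula `lefschetzWedge` lands in the model of cohomology

In `Statement` the cohomology group `H^n` is the space of alternating `n`-forms on `H_1`.  Here: for every `r`, `m`, every field `S`, every multilinear `g` and bilinear `e i`,
`v ↦ lefschetzWedge r m g e v` is LINEAR IN EACH of the `2r + 2m` vectors (`lefschetzWedge_isLinearMap_slot`).  With `lefschetzWedge_comp_perm` and `lefschetzWedge_eq_zero_of_eq` of
`SanityWedgeLaws.lean` (alternating), the product of a `2r`-class and of `m` two-classes is again an alternating multilinear form of degree `2r + 2m`, i.e. an element of the model of `H^{2d}`: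
`lefschetzWedgeAlt`, `lefschetzWedgeAlt_apply`.
-/

namespace Claimed.Open.R001

section multi

variable {S M : Type} [Field S] [AddCommGroup M] [Module S M]

omit [AddCommGroup M] [Module S M] in
/-- the summand at `σ` is the summand at `1` of the permuted vectors -/
theorem wedgeSummand_eq_one (r m : ℕ) (g : (Fin (2 * r) → M) → S) (e : Fin m → M → M → S)
    (v : Fin (2 * r + 2 * m) → M) (σ : Equiv.Perm (Fin (2 * r + 2 * m))) :
    wedgeSummand r m g e v σ = ((Equiv.Perm.sign σ : ℤ) : S) * wedgeSummand r m g e (v ∘ σ) 1 := by
  rw [wedgeSummand_comp_perm, mul_one, ← mul_assoc, sign_mul_self_cast, one_mul]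

omit [AddCommGroup M] [Module S M] in
theorem wedgeSummand_one (r m : ℕ) (g : (Fin (2 * r) → M) → S) (e : Fin m → M → M → S) (v : Fin (2 * r + 2 * m) → M) :
    wedgeSummand r m g e v 1 = g (fun a => v (Fin.castAdd (2 * m) a)) *
      ∏ i : Fin m, e i (v (Fin.natAdd (2 * r) ⟨2 * i, by omega⟩)) (v (Fin.natAdd (2 * r) ⟨2 * i + 1, by omega⟩)) := by
  unfold wedgeSummand
  simp

theorem isLinearMap_mul_const {φ : M → S} (h : IsLinearMap S φ) (c : S) : IsLinearMap S (fun x => φ x * c) :=
  ⟨fun x y => by rw [h.map_add, add_mul], fun a x => by rw [h.map_smul, smul_eq_mul, smul_eq_mul, mul_assoc]⟩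

theorem isLinearMap_const_mul {φ : M → S} (h : IsLinearMap S φ) (c : S) : IsLinearMap S (fun x => c * φ x) :=
  ⟨fun x y => by rw [h.map_add, mul_add], fun a x => by rw [h.map_smul, smul_eq_mul, smul_eq_mul, mul_left_comm]⟩

/-- the summand at `1` is linear in each vector -/
theorem wedgeSummand_one_isLinearMap (r m : ℕ) (g : MultilinearMap S (fun _ : Fin (2 * r) => M) S) (e : Fin m → M →ₗ[S] M →ₗ[S] S)
    (v : Fin (2 * r + 2 * m) → M) (k : Fin (2 * r + 2 * m)) :
    IsLinearMap S (fun x => wedgeSummand r m (fun w => g w) (fun i a b => e i a b) (Function.update v k x) 1) := by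
  simp only [wedgeSummand_one]
  obtain ⟨s, rfl⟩ := (slotEquiv r m).surjective k
  rcases s with a | ⟨i, j⟩
  · -- a slot of `g`
    rw [slotEquiv_inl]
    have h1 : ∀ x : M, (fun a' : Fin (2 * r) => Function.update v (Fin.castAdd (2 * m) a) x (Fin.castAdd (2 * m) a')) =
        Function.update (fun a' => v (Fin.castAdd (2 * m) a')) a x := by
      intro x
      funext a'
      by_cases h : a' = a
      · subst h; simp
      · rw [Function.update_of_ne h, Function.update_of_ne]
        intro hh
        exact h (Fin.castAdd_injective _ _ hh)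
    have h2 : ∀ (x : M) (z : Fin (2 * m)), Function.update v (Fin.castAdd (2 * m) a) x (Fin.natAdd (2 * r) z) = v (Fin.natAdd (2 * r) z) := by
      intro x z
      refine Function.update_of_ne ?_ _ _
      intro hh
      have := congrArg Fin.val hh
      simp at this
      omega
    simp only [h1, h2]
    exact isLinearMap_mul_const (g.toLinearMap _ a).isLinear _
  · -- a slot of `e i`
    have h1 : ∀ (x : M) (a' : Fin (2 * r)), Function.update v (slotEquiv r m (Sum.inr (i, j))) x (Fin.castAdd (2 * m) a') = v (Fin.castAdd (2 * m) a') := by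
      intro x a'
      refine Function.update_of_ne ?_ _ _
      rw [← slotEquiv_inl]
      intro hh
      have := (slotEquiv r m).injective hh
      simp at this
    have h2 : ∀ (x : M) (i' : Fin m), i' ≠ i → ∀ j' : Fin 2,
        Function.update v (slotEquiv r m (Sum.inr (i, j))) x (slotEquiv r m (Sum.inr (i', j'))) = v (slotEquiv r m (Sum.inr (i', j'))) := by
      intro x i' hi j'
      refine Function.update_of_ne ?_ _ _
      intro hh
      have := (slotEquiv r m).injective hh
      simp at this
      exact hi this.1
    simp only [h1, ← slotEquiv_inr_zero, ← slotEquiv_inr_one]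
    refine isLinearMap_const_mul ?_ _
    have h3 : ∀ x : M, ∏ i' : Fin m, e i' (Function.update v (slotEquiv r m (Sum.inr (i, j))) x (slotEquiv r m (Sum.inr (i', 0))))
        (Function.update v (slotEquiv r m (Sum.inr (i, j))) x (slotEquiv r m (Sum.inr (i', 1)))) =
        e i (Function.update v (slotEquiv r m (Sum.inr (i, j))) x (slotEquiv r m (Sum.inr (i, 0))))
          (Function.update v (slotEquiv r m (Sum.inr (i, j))) x (slotEquiv r m (Sum.inr (i, 1)))) *
        ∏ i' ∈ Finset.univ.erase i, e i' (v (slotEquiv r m (Sum.inr (i', 0)))) (v (slotEquiv r m (Sum.inr (i', 1)))) := by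
      intro x
      rw [← Finset.mul_prod_erase Finset.univ _ (Finset.mem_univ i)]
      congr 1
      refine Finset.prod_congr rfl fun i' hi' => ?_
      rw [h2 x i' (Finset.ne_of_mem_erase hi') 0, h2 x i' (Finset.ne_of_mem_erase hi') 1]
    simp only [h3]
    refine isLinearMap_mul_const ?_ _
    have h01 : slotEquiv r m (Sum.inr (i, (0 : Fin 2))) ≠ slotEquiv r m (Sum.inr (i, (1 : Fin 2))) := by
      intro hh
      have := (slotEquiv r m).injective hh
      simp at this
    fin_cases j
    · simp only [Fin.zero_eta, Function.update_self, Function.update_of_ne h01.symm]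
      exact ⟨fun x y => by rw [map_add, LinearMap.add_apply], fun a x => by rw [map_smul, LinearMap.smul_apply]⟩
    · simp only [Fin.mk_one, Function.update_self, Function.update_of_ne h01]
      exact (e i _).isLinear

/-- **`lefschetzWedge` is linear in each of the `2r + 2m` vectors** (for `g` multilinear and the `e i` bilinear). -/
theorem lefschetzWedge_isLinearMap_slot (r m : ℕ) (g : MultilinearMap S (fun _ : Fin (2 * r) => M) S) (e : Fin m → M →ₗ[S] M →ₗ[S] S)
    (v : Fin (2 * r + 2 * m) → M) (k : Fin (2 * r + 2 * m)) :
    IsLinearMap S (fun x => lefschetzWedge r m (fun w => g w) (fun i a b => e i a b) (Function.update v k x)) := by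
  have hσ : ∀ σ : Equiv.Perm (Fin (2 * r + 2 * m)),
      IsLinearMap S (fun x => wedgeSummand r m (fun w => g w) (fun i a b => e i a b) (Function.update v k x) σ) := by
    intro σ
    have h := wedgeSummand_one_isLinearMap r m g e (v ∘ σ) (σ.symm k)
    have e1 : ∀ x : M, Function.update v k x ∘ σ = Function.update (v ∘ σ) (σ.symm k) x := fun x => Function.update_comp_equiv v σ k x
    simp only [wedgeSummand_eq_one r m _ _ (Function.update v k _) σ, e1]
    exact isLinearMap_const_mul h _
  simp only [lefschetzWedge_eq_sum]
  refine isLinearMap_const_mul ?_ _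
  constructor
  · intro x y
    rw [← Finset.sum_add_distrib]
    exact Finset.sum_congr rfl fun σ _ => (hσ σ).map_add x y
  · intro a x
    rw [Finset.smul_sum]
    exact Finset.sum_congr rfl fun σ _ => (hσ σ).map_smul a x

/-- **The product of a `2r`-class and of `m` two-classes as an element of the model of `H^{2r+2m}`**: an alternating multilinear form whose values are those of `lefschetzWedge`. -/
def lefschetzWedgeAlt (h2 : (2 : S) ≠ 0) (r m : ℕ) (g : MultilinearMap S (fun _ : Fin (2 * r) => M) S) (e : Fin m → M →ₗ[S] M →ₗ[S] S) :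
    M [⋀^Fin (2 * r + 2 * m)]→ₗ[S] S where
  toFun v := lefschetzWedge r m (fun w => g w) (fun i a b => e i a b) v
  map_update_add' := by
    intro inst v k x y
    have h := (lefschetzWedge_isLinearMap_slot r m g e v k).map_add x y
    convert h
  map_update_smul' := by
    intro inst v k a x
    have h := (lefschetzWedge_isLinearMap_slot r m g e v k).map_smul a x
    convert h
  map_eq_zero_of_eq' := fun v i j hv hij => lefschetzWedge_eq_zero_of_eq h2 r m _ _ v hij hv

theorem lefschetzWedgeAlt_apply (h2 : (2 : S) ≠ 0) (r m : ℕ) (g : MultilinearMap S (fun _ : Fin (2 * r) => M) S) (e : Fin m → M →ₗ[S] M →ₗ[S] S)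
    (v : Fin (2 * r + 2 * m) → M) : lefschetzWedgeAlt h2 r m g e v = lefschetzWedge r m (fun w => g w) (fun i a b => e i a b) v := rfl

end multi

end Claimed.Open.R001
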