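import Claimed.Open.R001.SanityBasic
import Claimed.Open.R001.SanityBilinear
import Claimed.Open.R001.SanityChern
import Claimed.Open.R001.SanityDimZero
import Claimed.Open.R001.SanityDivisor
import Claimed.Open.R001.SanityGa
import Claimed.Open.R001.SanityGm
import Claimed.Open.R001.SanityLinearEquiv
import Claimed.Open.R001.SanityNon
import Claimed.Open.R001.SanityOrientation
import Claimed.Open.R001.SanityPrincipal
import Claimed.Open.R001.SanityReduction
import Claimed.Open.R001.SanityTopDegree
import Claimed.Open.R001.SanityUnique
import Claimed.Open.R001.SanityVecExt
import Claimed.Open.R001.SanityWedge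
import Claimed.Open.R001.SanityWedgeLaws
import Claimed.Open.R001.SanityWedgeMulti
import Claimed.Open.R001.SanityWeil

/-!
# Result 001: the hypotheses of `Statement` can be met

This file collects the checked examples (the other `Sanity*.lean` files hold the details).

* `hypotheses_can_be_met` : for each prime `p` there are an algebraic closure `K` of `ℚ`, embeddings
  `K → ℂ` and `K → ℂ_p`, an abelian scheme `𝒜` over `𝒪_w`, a period datum `P`, a point class `pt` and
  a non-zero Hodge class `g`: all the data over which `Statement` quantifies exist together.
* `statement_point` (in `SanityDimZero.lean`): the whole body of `Statement` is proved for the abelian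
  scheme of relative dimension `0` (for every `p`, `K` and embeddings), and
  `statement_point_is_instance` shows that it is literally an instance of `Statement`.

An abelian scheme of positive dimension cannot be written down with today's Mathlib (it has no
elliptic curves or Jacobians as group schemes), so the checked instance has `d = 0`.  The definitions
which are trivial for `d = 0` are tested separately: see `SanityWedge.lean` (cup products),
`SanityWeil.lean` (translations, divisors, Weil pairing), `SanityBasic.lean` (logarithm, classes,
orientation), and, on the positive dimensional group `𝔾_a`, `SanityAffine.lean`,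
`SanityAffineGroup.lean`, `SanityGa.lean` (`Lie`, `ComplexExp` exists and is unique, `HasLog`,
`IsBoundedSet` with an example and a non-example).  Further non-examples are in `SanityNon.lean`
(`not_isPointClass_two`, `not_isPointClass_zero`: the point class is normalised; `not_isWeilValue_at_one`:
`e_n^D(0, y)` is `1` and nothing else).  The predicates on divisor classes (`IsEllChern`, `IsRiemannForm`, `IsRosatiRel`,
`IsCrisRealization`, `IsCrisChern`), which `statement_point` (`m = 0`) never meets, are tested in `SanityChern.lean`.  On `𝔾_m` (`SanityGm.lean`) the kernel of the exponential is `2πi ℤ ≠ 0`.  In `SanityUnique.lean`, for every abelian scheme of every dimension: the Weil pairing is single valued, `IsEllChern` and `IsRiemannForm` pin their classes, and the number `q` of `Statement` is unique (`statement_iff_existsUnique`); in `SanityReduction.lean`: the reduction of points is a homomorphism, the `ℓ`-adic class is additive in its first argument, and the `ℓ`-adic half of the conclusion is proved for `m = 0` in every dimension (`ell_half_no_divisor`); in `SanityOrientation.lean`: the class of a point is unique in every dimension (`BettiClass.IsPointClass.rat_unique`: the orientation clause fixes the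 sign); in `SanityDivisor.lean`: all predicates on divisors depend on the divisor only, not on its presentation (`IsWeilValue.congr`), and the universal vector extension is unique up to a unique isomorphism; in `SanityBilinear.lean`: every function accepted by `IsEllChern` is biadditive and alternating; in `SanityLinearEquiv.lean`: the `ℓ`-adic class depends on the linear equivalence class of the divisor only and is additive in the divisor; in `SanityPrincipal.lean`: principal divisors have class `0`, and then `q = 0`; in `SanityTopDegree.lean`: the `ℓ`-adic clause of `Statement` is equivalent to one scalar equation (`ell_clause_iff`).  `SanityVecExt.lean` tests `VectorExtension`, `IsUniversal` and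
`IsVertical` at positive rank: `𝔾_a` is a vector extension of rank `1` of the trivial group (`gaExt`; the kernel clause is checked on every test
scheme), `IsUniversal` refuses it (`not_isUniversal_gaExt`), and `𝔾_m` is not a vector extension (`gm_not_in_vectorExtension`).  This file imports all of them, so that building
it checks every one.
`SanityWedgeLaws.lean`: laws of `lefschetzWedge` for ALL `r`, `m` (alternating in `v`, the order of the divisor classes is immaterial, linear in `g` and in each `e i`, a symmetric
slot gives `0`); `conclusion_perm_divisors`.  `SanityWedgeMulti.lean`: `lefschetzWedge` is linear in each vector; `lefschetzWedgeAlt` (the product as an alternating map).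
-/

open CategoryTheory AlgebraicGeometry

noncomputable section

namespace Claimed.Open.R001

/-- The structure of `ℚ`-algebra of `AlgebraicClosure ℚ` for which Mathlib knows that it is an
algebraic closure. -/
abbrev algQQbar : Algebra ℚ (AlgebraicClosure ℚ) := AlgebraicClosure.instAlgebra ℚ

/-- An embedding `ℚ̄ → ℂ`. -/
abbrev algQbarComplex : Algebra (AlgebraicClosure ℚ) ℂ :=
  letI := algQQbar
  (IsAlgClosed.lift (R := ℚ) (S := AlgebraicClosure ℚ) (M := ℂ)).toRingHom.toAlgebra

/-- An embedding `ℚ̄ → ℂ_p`, i.e. a `p`-adic place of `ℚ̄`. -/
abbrev algQbarPadic (p : ℕ) [Fact p.Prime] : Algebra (AlgebraicClosure ℚ) ℂ_[p] :=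
  letI := algQQbar
  ((algebraMap (PadicAlgCl p) ℂ_[p]).comp
    (IsAlgClosed.lift (R := ℚ) (S := AlgebraicClosure ℚ) (M := PadicAlgCl p)).toRingHom).toAlgebra

/-- All the data over which `Statement` quantifies exist together, with a non-zero Hodge class. -/
theorem hypotheses_can_be_met (p : ℕ) [Fact p.Prime] :
    ∃ (K : Type) (_ : Field K) (_ : Algebra ℚ K) (_ : IsAlgClosure ℚ K)
      (_ : Algebra K ℂ) (_ : Algebra K ℂ_[p]) (𝒜 : AbelianScheme p K (0 + 0))
      (P : PeriodDatum 𝒜) (pt : BettiClass P (2 * 0 + 2 * 0) (0 + 0)) (g : BettiClass P (2 * 0) 0),
      pt.IsPointClass ∧ g.IsHodge ∧ g.rat ≠ 0 := by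
  let _ := algQbarComplex
  let _ := algQbarPadic p
  refine ⟨AlgebraicClosure ℚ, inferInstance, algQQbar, inferInstance, inferInstance,
    inferInstance, pointScheme p (AlgebraicClosure ℚ), pointDatum p (AlgebraicClosure ℚ),
    constClass _ 1, BettiClass.unit _, constClass_one_isPointClass _, BettiClass.unit_isHodge _, ?_⟩
  intro h
  have := congrArg (fun f => f (fun a => a.elim0)) h
  simp [BettiClass.unit] at this

end Claimed.Open.R001
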