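import Claimed.Open.R001.Statement

/-!
# Result 001: unit tests of the definitions of `Statement.lean` on affine group schemes, I

General lemmas on the evaluation `evalAt` of regular functions at field valued points:

* `evalAt` is a ring homomorphism in the function and is compatible with restriction;
* on `Spec R`, the value of the global function `r` at the point given by `φ : R → L` is `φ r`;
* `exists_fraction_eval`: near a point `e` of `Spec R` a regular function is a fraction `a / b`
  with `b(e) ≠ 0`, and this computes its germ at `e` and its values.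
-/

open CategoryTheory AlgebraicGeometry
open Filter Topology
noncomputable section
namespace Claimed.Open.R001

section Eval
variable {X : Scheme.{0}} {L : Type} [Field L] (x : Spec (CommRingCat.of L) ⟶ X)

theorem evalAt_of_mem (U : X.Opens) (h : imagePt x ∈ U) (f : Γ(X, U)) :
    evalAt x U f = germValue x (X.presheaf.germ U (imagePt x) h f) := dif_pos h

theorem evalAt_of_not_mem (U : X.Opens) (h : imagePt x ∉ U) (f : Γ(X, U)) :
    evalAt x U f = 0 := dif_neg h

theorem evalAt_mul (U : X.Opens) (h : imagePt x ∈ U) (f g : Γ(X, U)) :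
    evalAt x U (f * g) = evalAt x U f * evalAt x U g := by
  simp only [evalAt_of_mem x U h, map_mul]

theorem evalAt_add (U : X.Opens) (h : imagePt x ∈ U) (f g : Γ(X, U)) :
    evalAt x U (f + g) = evalAt x U f + evalAt x U g := by
  simp only [evalAt_of_mem x U h, map_add]

theorem evalAt_one (U : X.Opens) (h : imagePt x ∈ U) : evalAt x U 1 = 1 := by
  simp only [evalAt_of_mem x U h, map_one]

theorem evalAt_res {U V : X.Opens} (i : V ≤ U) (h : imagePt x ∈ V) (f : Γ(X, U)) :
    evalAt x V (X.presheaf.map (homOfLE i).op f) = evalAt x U f := by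
  rw [evalAt_of_mem x V h, evalAt_of_mem x U (i h)]
  congr 1
  exact TopCat.Presheaf.germ_res_apply _ _ _ _ _
end Eval

section Affine
variable {R : Type} [CommRing R]

/-- The basic open subset `D(c)` of `Spec R`. -/
def bOpen (c : R) : (Spec (CommRingCat.of R)).Opens := PrimeSpectrum.basicOpen c

theorem imagePt_specMap_mem_bOpen {L : Type} [Field L] (φ : R →+* L) (c : R) :
    imagePt (Spec.map (CommRingCat.ofHom φ)) ∈ bOpen c ↔ φ c ≠ 0 := by
  show c ∉ Ideal.comap φ (IsLocalRing.maximalIdeal L) ↔ _
  simp

theorem evalAt_top {L : Type} [Field L] (φ : R →+* L) (r : R) :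
    evalAt (Spec.map (CommRingCat.ofHom φ)) ⊤ ((Scheme.ΓSpecIso (CommRingCat.of R)).inv r) = φ r := by
  rw [evalAt_of_mem _ ⊤ trivial]
  have := Scheme.germ_stalkClosedPointTo_Spec (CommRingCat.ofHom φ)
  have h2 := congr($this ((Scheme.ΓSpecIso (CommRingCat.of R)).inv r))
  simp at h2
  exact h2

/-- The restriction to the open set `V` of the global function `r` on `Spec R`. -/
def resFn (V : (Spec (CommRingCat.of R)).Opens) : R →+* Γ(Spec (CommRingCat.of R), V) :=
  ((Scheme.ΓSpecIso (CommRingCat.of R)).inv ≫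
    (Spec (CommRingCat.of R)).presheaf.map (homOfLE le_top).op).hom

theorem evalAt_resFn {L : Type} [Field L] (φ : R →+* L) (V : (Spec (CommRingCat.of R)).Opens)
    (h : imagePt (Spec.map (CommRingCat.ofHom φ)) ∈ V) (r : R) :
    evalAt (Spec.map (CommRingCat.ofHom φ)) V (resFn V r) = φ r := by
  rw [← evalAt_top φ r]
  exact evalAt_res _ le_top h _

theorem exists_fraction_basicOpen (c : R)
    (z : Γ(Spec (CommRingCat.of R), bOpen c)) :
    ∃ (a : R) (n : ℕ), z * resFn _ (c ^ n) = resFn _ a := by
  obtain ⟨⟨a, ⟨_, n, rfl⟩⟩, h⟩ := @IsLocalization.surj R _ (Submonoid.powers c) _ _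
    (StructureSheaf.openAlgebra R (Opposite.op (PrimeSpectrum.basicOpen c)))
    (StructureSheaf.IsLocalization.to_basicOpen R c) z
  exact ⟨a, n, h⟩

theorem exists_fraction (U : (Spec (CommRingCat.of R)).Opens) (e : Spec (CommRingCat.of R))
    (he : e ∈ U) (f : Γ(Spec (CommRingCat.of R), U)) :
    ∃ (a c : R) (n : ℕ) (hc : bOpen c ≤ U), e ∈ bOpen c ∧
      (Spec (CommRingCat.of R)).presheaf.map (homOfLE hc).op f * resFn _ (c ^ n) = resFn _ a := by
  obtain ⟨_, ⟨_, ⟨c, rfl⟩, rfl⟩, hec, hcU⟩ :=
    PrimeSpectrum.isBasis_basic_opens.exists_subset_of_mem_open he U.2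
  have hc : bOpen c ≤ U := hcU
  obtain ⟨a, n, h⟩ := exists_fraction_basicOpen c
    ((Spec (CommRingCat.of R)).presheaf.map (homOfLE hc).op f)
  exact ⟨a, c, n, hc, hec, h⟩

/-- The germ at `e` of the global function `r` on `Spec R`. -/
def germFn (e : Spec (CommRingCat.of R)) : R →+* (Spec (CommRingCat.of R)).presheaf.stalk e :=
  ((Scheme.ΓSpecIso (CommRingCat.of R)).inv ≫
    (Spec (CommRingCat.of R)).presheaf.germ ⊤ e trivial).hom

/-- A regular function `f` defined on a neighbourhood `U` of a point `e` of `Spec R` is a fraction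
`a / b` with `b(e) ≠ 0`, and this computes its values at all points where `b` does not vanish. -/
theorem exists_fraction_eval (U : (Spec (CommRingCat.of R)).Opens) (e : Spec (CommRingCat.of R))
    (he : e ∈ U) (f : Γ(Spec (CommRingCat.of R), U)) :
    ∃ a b : R, b ∉ e.asIdeal ∧
      (Spec (CommRingCat.of R)).presheaf.germ U e he f * germFn e b = germFn e a ∧
      ∀ {L : Type} [Field L] (φ : R →+* L), φ b ≠ 0 →
        imagePt (Spec.map (CommRingCat.ofHom φ)) ∈ U ∧
        evalAt (Spec.map (CommRingCat.ofHom φ)) U f * φ b = φ a := by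
  obtain ⟨a, c, n, hc, hec, h⟩ := exists_fraction U e he f
  have h' : (Spec (CommRingCat.of R)).presheaf.map (homOfLE hc).op f * resFn _ (c ^ (n + 1)) =
      resFn _ (a * c) := by
    rw [pow_succ, map_mul, map_mul, ← h, mul_assoc]
  refine ⟨a * c, c ^ (n + 1), ?_, ?_, ?_⟩
  · intro hmem
    exact hec (e.isPrime.mem_of_pow_mem _ hmem)
  · have := congr((Spec (CommRingCat.of R)).presheaf.germ (bOpen c) e hec $h')
    rw [map_mul] at this
    have h1 : (Spec (CommRingCat.of R)).presheaf.germ (bOpen c) e hec
        ((Spec (CommRingCat.of R)).presheaf.map (homOfLE hc).op f) =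
        (Spec (CommRingCat.of R)).presheaf.germ U e he f :=
      TopCat.Presheaf.germ_res_apply _ _ _ _ _
    have h2 : ∀ r : R, (Spec (CommRingCat.of R)).presheaf.germ (bOpen c) e hec (resFn _ r) =
        germFn e r := fun r => TopCat.Presheaf.germ_res_apply _ _ _ _ _
    rw [h1, h2, h2] at this
    exact this
  · intro L _ φ hφ
    have hφc : φ c ≠ 0 := by
      intro h0
      apply hφ
      rw [map_pow, h0, zero_pow (Nat.succ_ne_zero n)]
    have hmem := (imagePt_specMap_mem_bOpen φ c).2 hφc
    refine ⟨hc hmem, ?_⟩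
    have := congr(evalAt (Spec.map (CommRingCat.ofHom φ)) (bOpen c) $h')
    rw [evalAt_mul _ _ hmem, evalAt_resFn φ _ hmem, evalAt_resFn φ _ hmem,
      evalAt_res _ hc hmem] at this
    exact this

end Affine
section Loc
variable {R : Type} [CommRing R] (e : Spec (CommRingCat.of R))

/-- The stalk of `Spec R` at `e` is the localisation of `R` at the prime ideal `e`. -/
theorem isLocalization_germFn :
    @IsLocalization.AtPrime R _ ((Spec (CommRingCat.of R)).presheaf.stalk e) _
      (germFn e).toAlgebra e.asIdeal e.isPrime :=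
  StructureSheaf.IsLocalization.to_stalk R e

/-- Extension to the stalk at `e` of a ring homomorphism which inverts the functions which do not
vanish at `e`. -/
def stalkLift {P : Type} [CommRing P] (ψ : R →+* P) (hψ : ∀ b : R, b ∉ e.asIdeal → IsUnit (ψ b)) :
    (Spec (CommRingCat.of R)).presheaf.stalk e →+* P :=
  @IsLocalization.lift R _ (@Ideal.primeCompl _ _ e.asIdeal e.isPrime) ((Spec (CommRingCat.of R)).presheaf.stalk e) _
    (germFn e).toAlgebra P _ (isLocalization_germFn e) ψ (fun y => hψ y.1 y.2)

theorem stalkLift_germFn {P : Type} [CommRing P] (ψ : R →+* P)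
    (hψ : ∀ b : R, b ∉ e.asIdeal → IsUnit (ψ b)) (r : R) : stalkLift e ψ hψ (germFn e r) = ψ r :=
  @IsLocalization.lift_eq R _ (@Ideal.primeCompl _ _ e.asIdeal e.isPrime) ((Spec (CommRingCat.of R)).presheaf.stalk e) _
    (germFn e).toAlgebra P _ (isLocalization_germFn e) ψ (fun y => hψ y.1 y.2) r

theorem stalk_ringHom_ext {P : Type} [CommRing P]
    {f g : (Spec (CommRingCat.of R)).presheaf.stalk e →+* P}
    (h : ∀ r, f (germFn e r) = g (germFn e r)) : f = g :=
  @IsLocalization.ringHom_ext R _ (@Ideal.primeCompl _ _ e.asIdeal e.isPrime)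
    ((Spec (CommRingCat.of R)).presheaf.stalk e) _ (germFn e).toAlgebra
    (isLocalization_germFn e) P _ f g (RingHom.ext h)

end Loc
end Claimed.Open.R001
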