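import Claimed.Open.R001.SanityAffine

/-!
# Result 001: unit tests of the definitions of `Statement.lean` on affine group schemes, II

Let `H` be a commutative Hopf algebra over a field `K` and `G = Spec H` (a `GrpObj` by Mathlib).

* `G(L) = Hom_K(H, L)` with the convolution product (`specOverMap_mul`, `specOverMap_unitHom`);
* `Lie G L` is the space of `K`-derivations `H → L` over the counit: `lieD`, `lie_ext`,
  `lieOfDeriv`, `lieD_lieOfDeriv`;
* `tendsto_evalAt`: the limits in `ComplexExp.deriv` and in `HasLog` may be tested on the global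
  functions `r ∈ H`;
* `isBoundedSet_iff`: a set of points of `G` is bounded if and only if each `r ∈ H` is bounded on it.
-/

open CategoryTheory AlgebraicGeometry MonoidalCategory CartesianMonoidalCategory MonObj
open Filter Topology TensorProduct
noncomputable section
namespace Claimed.Open.R001

section AffGrp
variable (K : Type) [Field K] (H : Type) [CommRing H] [HopfAlgebra K H]

/-- The affine group scheme `Spec H` over `K`, for a commutative Hopf algebra `H` over `K`. -/
instance affGrpObj : GrpObj (specOver K H) :=
  inferInstanceAs (GrpObj ((Spec (CommRingCat.of H)).asOver (Spec (CommRingCat.of K))))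

variable {K H} {L : Type} [Field L] [Algebra K L]

theorem specOverMap_eq (φ : H →ₐ[K] L) : (specOverMap φ : Pts (specOver K H) L) =
    Spec.mapMulEquiv (R := K) (S := H) (T := L) (WithConv.toConv φ) := rfl

theorem specOverMap_mul (φ ψ : H →ₐ[K] L) :
    (specOverMap φ * specOverMap ψ : Pts (specOver K H) L) =
      specOverMap (WithConv.toConv φ * WithConv.toConv ψ).ofConv := by
  rw [specOverMap_eq, specOverMap_eq, specOverMap_eq]
  erw [← map_mul]
  rfl

variable (K H L) in
/-- The identity of `G(L)`, as a homomorphism of algebras. -/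
def unitHom : H →ₐ[K] L := (Algebra.ofId K L).comp (Bialgebra.counitAlgHom K H)

theorem specOverMap_unitHom : (specOverMap (unitHom K H L) : Pts (specOver K H) L) = 1 := by
  rw [specOverMap_eq]
  erw [← map_one (Spec.mapMulEquiv (R := K) (S := H) (T := L))]
  rfl

theorem exists_specOverMap (x : Pts (specOver K H) L) : ∃ φ : H →ₐ[K] L, x = specOverMap φ := by
  obtain ⟨φ, rfl⟩ := (Spec.mapMulEquiv (R := K) (S := H) (T := L)).surjective x
  exact ⟨φ.ofConv, rfl⟩

theorem specOverMap_left (φ : H →ₐ[K] L) : (specOverMap φ : Pts (specOver K H) L).left =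
    Spec.map (CommRingCat.ofHom φ.toRingHom) := rfl

variable (K H) in
/-- The identity point of `Spec H`. -/
def idPt' : Spec (CommRingCat.of H) := idPt (specOver K H)

example : (specOver K H).left = Spec (CommRingCat.of H) := rfl

theorem idPt'_eq : idPt' K H = imagePt (Spec.map (CommRingCat.ofHom (unitHom K H K).toRingHom)) := by
  unfold idPt' idPt
  rw [← specOverMap_unitHom]
  rfl

theorem mem_bOpen_idPt' (b : H) : idPt' K H ∈ bOpen b ↔ Coalgebra.counit (R := K) b ≠ 0 := by
  rw [idPt'_eq, imagePt_specMap_mem_bOpen]
  rfl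

variable (K) in
/-- The germ at the identity of the global function `r ∈ H`. -/
def germId : H →+* (specOver K H).left.presheaf.stalk (idPt (specOver K H)) := germFn (idPt' K H)

theorem evalAt_one_top (r : H) : evalAt (1 : Pts (specOver K H) L).left ⊤
    ((Scheme.ΓSpecIso (CommRingCat.of H)).inv r) = algebraMap K L (Coalgebra.counit r) := by
  rw [← specOverMap_unitHom, specOverMap_left]
  exact evalAt_top _ r

variable (K H) in
/-- Evaluation of germs at the identity. -/
def evId : (specOver K H).left.presheaf.stalk (idPt (specOver K H)) →+* K :=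
  germValue (1 : Pts (specOver K H) K).left

theorem evId_germId (r : H) : evId K H (germId K r) = Coalgebra.counit r := by
  have h := evalAt_one_top (K := K) (L := K) r
  rw [evalAt_of_mem _ ⊤ trivial] at h
  exact h

theorem constGerm_eq (c : K) : constGerm (specOver K H) c = germId K (algebraMap K H c) := by
  have h := Scheme.ΓSpecIso_inv_naturality (CommRingCat.ofHom (algebraMap K H))
  have h2 : (Scheme.ΓSpecIso (CommRingCat.of H)).inv (algebraMap K H c) =
      (Spec.map (CommRingCat.ofHom (algebraMap K H))).appTop
        ((Scheme.ΓSpecIso (CommRingCat.of K)).inv c) := congr($h c)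
  show (Spec (CommRingCat.of H)).presheaf.germ ⊤ (idPt' K H) trivial _ =
    (Spec (CommRingCat.of H)).presheaf.germ ⊤ (idPt' K H) trivial _
  congr 1
  exact h2.symm

/-- The derivation `H → L` attached to a tangent vector. -/
def lieD (v : Lie (specOver K H) L) (r : H) : L := v.1 (germId K r)

theorem lie_mul (v : Lie (specOver K H) L)
    (f g : (specOver K H).left.presheaf.stalk (idPt (specOver K H))) :
    v.1 (f * g) = algebraMap K L (evId K H f) * v.1 g + algebraMap K L (evId K H g) * v.1 f :=
  v.2.2.1 f g

theorem lieD_add (v : Lie (specOver K H) L) (r s : H) : lieD v (r + s) = lieD v r + lieD v s := by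
  unfold lieD
  rw [map_add, v.2.1]

theorem lieD_mul (v : Lie (specOver K H) L) (r s : H) :
    lieD v (r * s) = algebraMap K L (Coalgebra.counit r) * lieD v s +
      algebraMap K L (Coalgebra.counit s) * lieD v r := by
  unfold lieD
  rw [map_mul, lie_mul, evId_germId, evId_germId]

theorem lieD_algebraMap (v : Lie (specOver K H) L) (c : K) : lieD v (algebraMap K H c) = 0 := by
  unfold lieD
  rw [← constGerm_eq, v.2.2.2]

theorem lie_d_eq (v : Lie (specOver K H) L) (U : (specOver K H).left.Opens)
    (h : idPt (specOver K H) ∈ U) (f : Γ((specOver K H).left, U)) (a b : H)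
    (hb : Coalgebra.counit (R := K) b ≠ 0)
    (hab : (specOver K H).left.presheaf.germ U _ h f * germId K b = germId K a) :
    Lie.d v U h f = (lieD v a - algebraMap K L (Coalgebra.counit a / Coalgebra.counit b) * lieD v b) /
      algebraMap K L (Coalgebra.counit b) := by
  have hb' : algebraMap K L (Coalgebra.counit b) ≠ 0 := by
    simpa using hb
  have h1 := congr(evId K H $hab)
  rw [map_mul, evId_germId, evId_germId] at h1
  have h2 := congr(v.1 $hab)
  rw [lie_mul, evId_germId] at h2
  have h3 : evId K H ((specOver K H).left.presheaf.germ U _ h f) =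
      Coalgebra.counit a / Coalgebra.counit b := by
    rw [eq_div_iff hb, h1]
  rw [h3] at h2
  rw [eq_div_iff hb']
  unfold Lie.d lieD
  rw [← h2]
  ring

theorem lie_ext {v w : Lie (specOver K H) L} (h : ∀ r, lieD v r = lieD w r) : v = w := by
  apply Subtype.ext
  funext s
  obtain ⟨U, hU, f, rfl⟩ := (specOver K H).left.presheaf.exists_germ_eq s
  obtain ⟨a, b, hb, hab, -⟩ := exists_fraction_eval U (idPt' K H) hU f
  have hb' := (mem_bOpen_idPt' b).1 hb
  have h1 := lie_d_eq v U hU f a b hb' hab
  have h2 := lie_d_eq w U hU f a b hb' hab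
  rw [h a, h b, ← h2] at h1
  exact h1

theorem idStalk_ringHom_ext {P : Type} [CommRing P]
    {f g : (specOver K H).left.presheaf.stalk (idPt (specOver K H)) →+* P}
    (h : ∀ r, f (germId K r) = g (germId K r)) : f = g :=
  stalk_ringHom_ext (idPt' K H) h

section OfDeriv

variable (D : H → L) (hadd : ∀ r s, D (r + s) = D r + D s)
  (hmul : ∀ r s, D (r * s) = algebraMap K L (Coalgebra.counit r) * D s +
    algebraMap K L (Coalgebra.counit s) * D r)
  (hconst : ∀ c : K, D (algebraMap K H c) = 0)

/-- The point of `G` with values in the dual numbers `L[ε]` given by a derivation. -/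
def dualHom : H →+* TrivSqZeroExt L L where
  toFun r := TrivSqZeroExt.inl (algebraMap K L (Coalgebra.counit r)) + TrivSqZeroExt.inr (D r)
  map_one' := by
    have h1 : D 1 = 0 := by simpa using hconst 1
    ext <;> simp [h1]
  map_mul' r s := by
    ext
    · simp
    · simp [hmul]
      ring
  map_zero' := by
    have h1 : D 0 = 0 := by simpa using hconst 0
    ext <;> simp [h1]
  map_add' r s := by
    ext <;> simp [hadd]

theorem isUnit_dualHom (b : H) (hb : b ∉ (idPt' K H).asIdeal) :
    IsUnit (dualHom D hadd hmul hconst b) := by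
  rw [TrivSqZeroExt.isUnit_iff_isUnit_fst]
  have h1 : Coalgebra.counit (R := K) b ≠ 0 := (mem_bOpen_idPt' b).1 hb
  simpa [dualHom] using h1

/-- The extension of `dualHom` to the local ring at the identity. -/
def dualLift : (specOver K H).left.presheaf.stalk (idPt (specOver K H)) →+* TrivSqZeroExt L L :=
  stalkLift (idPt' K H) (dualHom D hadd hmul hconst) (isUnit_dualHom D hadd hmul hconst)

theorem dualLift_germId (r : H) : dualLift D hadd hmul hconst (germId K r) =
    TrivSqZeroExt.inl (algebraMap K L (Coalgebra.counit r)) + TrivSqZeroExt.inr (D r) :=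
  stalkLift_germFn _ _ _ r

theorem fst_dualLift (s : (specOver K H).left.presheaf.stalk (idPt (specOver K H))) :
    (dualLift D hadd hmul hconst s).fst = algebraMap K L (evId K H s) := by
  have h : (TrivSqZeroExt.fstHom L L L).toRingHom.comp (dualLift D hadd hmul hconst) =
      (algebraMap K L).comp (evId K H) := by
    apply idStalk_ringHom_ext
    intro r
    rw [RingHom.comp_apply, RingHom.comp_apply, dualLift_germId, evId_germId]
    simp
  exact congr($h s)

/-- The tangent vector at the identity given by a derivation `D : H → L`. -/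
def lieOfDeriv : Lie (specOver K H) L :=
  ⟨fun s => (dualLift D hadd hmul hconst s).snd, by
    refine ⟨fun f g => by simp, fun f g => ?_, fun c => ?_⟩
    · show (dualLift D hadd hmul hconst (f * g)).snd =
        algebraMap K L (evId K H f) * (dualLift D hadd hmul hconst g).snd +
          algebraMap K L (evId K H g) * (dualLift D hadd hmul hconst f).snd
      rw [map_mul, TrivSqZeroExt.snd_mul, fst_dualLift, fst_dualLift]
      simp [_root_.mul_comm]
    · show (dualLift D hadd hmul hconst (constGerm (specOver K H) c)).snd = 0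
      rw [constGerm_eq, dualLift_germId]
      simp [hconst]⟩

theorem lieD_lieOfDeriv (r : H) : lieD (lieOfDeriv D hadd hmul hconst) r = D r := by
  show (dualLift D hadd hmul hconst (germId K r)).snd = D r
  rw [dualLift_germId]
  simp

end OfDeriv

end AffGrp

section Analytic

variable {K : Type} [Field K] {H : Type} [CommRing H] [HopfAlgebra K H]
  {L : Type} [NormedField L] [Algebra K L]

/-- The criterion used to compute exponentials and logarithms on `G = Spec H`: if `x_n ∈ G(L)` tends
to the identity and `s_n (r(x_n) - r(e)) → v(r)` for the *global* functions `r ∈ H`, then the same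
holds for all regular functions defined near the identity. -/
theorem tendsto_evalAt (v : Lie (specOver K H) L) (φ : ℕ → H →ₐ[K] L) (s : ℕ → L)
    (h0 : ∀ r : H, Tendsto (fun n => φ n r) atTop (𝓝 (algebraMap K L (Coalgebra.counit r))))
    (h1 : ∀ r : H, Tendsto (fun n => s n * (φ n r - algebraMap K L (Coalgebra.counit r))) atTop
      (𝓝 (lieD v r)))
    (U : (specOver K H).left.Opens) (h : idPt (specOver K H) ∈ U)
    (f : Γ((specOver K H).left, U)) :
    Tendsto (fun n => s n * (evalAt (specOverMap (φ n) : Pts (specOver K H) L).left U f -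
      evalAt (1 : Pts (specOver K H) L).left U f)) atTop (𝓝 (Lie.d v U h f)) := by
  obtain ⟨a, b, hb, hab, hev⟩ := exists_fraction_eval U (idPt' K H) h f
  have hb' : Coalgebra.counit (R := K) b ≠ 0 := (mem_bOpen_idPt' b).1 hb
  have hB : algebraMap K L (Coalgebra.counit b) ≠ 0 := by simpa using hb'
  set A := algebraMap K L (Coalgebra.counit a) with hA
  set B := algebraMap K L (Coalgebra.counit b) with hBdef
  have ev1 : evalAt (1 : Pts (specOver K H) L).left U f * B = A := by
    rw [← specOverMap_unitHom]
    exact (hev (unitHom K H L).toRingHom hB).2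
  have hne : ∀ᶠ n in atTop, φ n b ≠ 0 := (h0 b).eventually_ne hB
  have hlim : Tendsto (fun n => (s n * (φ n a - A) * B - A * (s n * (φ n b - B))) / (φ n b * B))
      atTop (𝓝 ((lieD v a * B - A * lieD v b) / (B * B))) :=
    (((h1 a).mul_const B).sub ((h1 b).const_mul A)).div ((h0 b).mul_const B) (mul_ne_zero hB hB)
  have hval : Lie.d v U h f = (lieD v a * B - A * lieD v b) / (B * B) := by
    rw [lie_d_eq v U h f a b hb' hab, map_div₀, ← hA, ← hBdef]
    field_simp
  rw [hval]
  refine hlim.congr' ?_
  filter_upwards [hne] with n hn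
  have ev2 : evalAt (specOverMap (φ n) : Pts (specOver K H) L).left U f * φ n b = φ n a :=
    (hev (φ n).toRingHom hn).2
  have e1 : evalAt (1 : Pts (specOver K H) L).left U f = A / B := by
    rw [eq_div_iff hB, ev1]
  have e2 : evalAt (specOverMap (φ n) : Pts (specOver K H) L).left U f = φ n a / φ n b := by
    rw [eq_div_iff hn, ev2]
  rw [e1, e2]
  field_simp
  ring

/-- A set of points of the affine scheme `G = Spec H` is bounded in the sense of `IsBoundedSet` if
and only if each global function is bounded on it. -/
theorem isBoundedSet_iff (S : Set (Pts (specOver K H) L)) :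
    IsBoundedSet (specOver K H) S ↔
      ∀ r : H, ∃ C : ℝ, ∀ φ : H →ₐ[K] L, specOverMap φ ∈ S → ‖φ r‖ ≤ C := by
  constructor
  · rintro ⟨n, U, P, -, hS, hP⟩ r
    choose hmem C hC using fun i => (⟨(hP i).1, (hP i).2 (resFn (U i) r)⟩ :
      (∀ x ∈ P i, imagePt x.left ∈ U i) ∧
        ∃ C : ℝ, ∀ x ∈ P i, ‖evalAt x.left (U i) (resFn (U i) r)‖ ≤ C)
    refine ⟨∑ i, |C i|, fun φ hφ => ?_⟩
    obtain ⟨i, hi⟩ := Set.mem_iUnion.1 (hS hφ)
    have h1 := hC i _ hi
    have h2 : evalAt (specOverMap φ : Pts (specOver K H) L).left (U i) (resFn (U i) r) = φ r :=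
      evalAt_resFn φ.toRingHom (U i) (hmem i _ hi) r
    rw [h2] at h1
    calc ‖φ r‖ ≤ C i := h1
      _ ≤ |C i| := le_abs_self _
      _ ≤ ∑ j, |C j| := Finset.single_le_sum (f := fun j => |C j|) (fun j _ => abs_nonneg _)
          (Finset.mem_univ i)
  · intro h
    refine ⟨1, fun _ => ⊤, fun _ => S, fun _ => isAffineOpen_top (Spec (CommRingCat.of H)), ?_, fun _ => ⟨fun _ _ => trivial, ?_⟩⟩
    · intro x hx
      exact Set.mem_iUnion.2 ⟨0, hx⟩
    · intro f
      obtain ⟨C, hC⟩ := h ((Scheme.ΓSpecIso (CommRingCat.of H)).hom f)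
      refine ⟨C, fun x hx => ?_⟩
      obtain ⟨φ, rfl⟩ := exists_specOverMap x
      have h2 := evalAt_top φ.toRingHom ((Scheme.ΓSpecIso (CommRingCat.of H)).hom f)
      rw [Iso.hom_inv_id_apply] at h2
      have h3 := hC φ hx
      rw [← show _ = φ _ from h2] at h3
      exact h3

end Analytic
end Claimed.Open.R001
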