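import Claimed.Open.R001.Statement

/-!
# Result 001: unit tests of the definitions of `Statement.lean` (basic part)

* the `p`-adic logarithm `HasLog` is single valued;
* `0` is a Hodge class, and for `r = 0` the constant `1` is a Hodge class;
* the de Rham--crystalline specialisation of `0` is `0`;
* the zero divisor and principal divisors are Cartier divisors;
* the orientation formula in `BettiClass.IsPointClass` for `ℂ / (ℤ + ℤ τ)`.
-/

open CategoryTheory AlgebraicGeometry MonoidalCategory CartesianMonoidalCategory MonObj
open Filter Topology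

noncomputable section

namespace Claimed.Open.R001

/-- The logarithm is single valued. -/
theorem HasLog.unique {K : Type} [Field K] (G : Over (Spec (CommRingCat.of K))) [GrpObj G]
    (p : ℕ) [Fact p.Prime] [Algebra K ℂ_[p]] {y : Pts G ℂ_[p]} {v v' : Lie G ℂ_[p]}
    (h : HasLog G p y v) (h' : HasLog G p y v') : v = v' := by
  apply Subtype.ext
  funext s
  obtain ⟨U, hU, f, rfl⟩ := G.left.presheaf.exists_germ_eq s
  exact tendsto_nhds_unique (h U hU f) (h' U hU f)

/-- The logarithm of the identity is `0`. -/
theorem HasLog.one {K : Type} [Field K] (G : Over (Spec (CommRingCat.of K))) [GrpObj G]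
    (p : ℕ) [Fact p.Prime] [Algebra K ℂ_[p]] : HasLog G p (1 : Pts G ℂ_[p]) 0 := by
  intro U hU f
  simp only [one_pow, sub_self, mul_zero]
  exact tendsto_const_nhds

section Classes

variable {p : ℕ} [Fact p.Prime] {K : Type} [Field K] [Algebra K ℂ_[p]] [Algebra K ℂ] {d : ℕ}
variable {𝒜 : AbelianScheme p K d} (P : PeriodDatum 𝒜)

/-- The zero class. -/
def BettiClass.zero (n r : ℕ) : BettiClass P n r where
  rat := 0
  cplx := 0
  compat := by intro l; simp

/-- `0` is a Hodge class. -/
theorem BettiClass.zero_isHodge (r : ℕ) : (BettiClass.zero P (2 * r) r).IsHodge := by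
  intro v S _ _
  rfl

/-- The specialisation of `0` is `0`. -/
theorem BettiClass.zero_isCrisSpecialization (n r : ℕ) :
    (BettiClass.zero P n r).IsCrisSpecialization 0 := by
  intro v
  exact ⟨0, by simp [BettiClass.zero], by simp⟩

instance isEmptyFinTwoMulZero : IsEmpty (Fin (2 * 0)) := inferInstanceAs (IsEmpty (Fin 0))

/-- The unit class `1 ∈ H^0(A(ℂ), ℚ)`. -/
def BettiClass.unit : BettiClass P (2 * 0) 0 where
  rat := AlternatingMap.constOfIsEmpty ℤ _ _ 1
  cplx := AlternatingMap.constOfIsEmpty ℂ _ _ 1
  compat := by intro l; simp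

/-- `1 ∈ H^0` is a Hodge class. -/
theorem BettiClass.unit_isHodge : (BettiClass.unit P).IsHodge := by
  intro v S hS _
  exfalso
  have : S = ∅ := by
    ext i
    exact i.elim0
  simp [this] at hS

/-- The specialisation of `1` is `1`. -/
theorem BettiClass.unit_isCrisSpecialization :
    (BettiClass.unit P).IsCrisSpecialization (AlternatingMap.constOfIsEmpty ℂ_[p] _ _ 1) := by
  intro v
  exact ⟨1, by simp [BettiClass.unit], by simp⟩

end Classes

section Divisors

variable (X : Scheme.{0}) [IsIntegral X]

theorem UnitAt.one (y : X) : UnitAt y (1 : X.functionField) := ⟨1, by simp⟩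

/-- The principal divisor of a non-zero rational function. -/
def CartierDivisor.principal (f : X.functionField) (hf : f ≠ 0) : CartierDivisor X where
  eq := fun _ => f
  ne_zero := fun _ => hf
  coherent := fun x => ⟨⊤, trivial, fun y _ => by rw [div_self hf]; exact UnitAt.one X y⟩

/-- The zero divisor. -/
def CartierDivisor.zero : CartierDivisor X := CartierDivisor.principal X 1 one_ne_zero

end Divisors

/-- The orientation formula of `BettiClass.IsPointClass` for `d = 1`, `Λ = ℤ + ℤ τ ⊂ ℂ`, `ω = dz`:
the basis `(1, τ)` is positively oriented if and only if `Im τ > 0`. -/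
theorem orientation_formula_dim_one (τ : ℂ) :
    (Complex.I / 2) ^ 1 * (-1) ^ (1 * (1 - 1) / 2) *
      Matrix.det !![1, τ; (starRingEnd ℂ) 1, (starRingEnd ℂ) τ] = (τ.im : ℂ) := by
  simp only [Matrix.det_fin_two_of, map_one]
  apply Complex.ext <;> simp
  ring

end Claimed.Open.R001
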