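import Mathlib

/-!
# Result 001: Milne's rationality conjecture for abelian varieties

This file states Theorem 1.1 (`thm:main`) of the paper
*Milne's rationality conjecture for abelian varieties* (OpenAI, October 7, 2026):

> Fix `ℚ̄ ⊂ ℂ`, a prime `p` and a `p`-adic place `w` of `ℚ̄`.  Let `A/ℚ̄` be an abelian variety of
> dimension `d` with good reduction `A₀/𝔽` at `w`, let `0 ≤ r ≤ d`, and let
> `γ ∈ H^{2r}(A(ℂ), ℚ(r))` be a rational Hodge class.  For every list of Cartier divisors
> `D₁, …, D_{d-r}` on `A₀` there is a number `q ∈ ℚ` such that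
> `Tr_ℓ(γ_{0,ℓ} c_{1,ℓ}(D₁) ⋯ c_{1,ℓ}(D_{d-r})) = q` in `ℚ_ℓ` for all `ℓ ≠ p`, and
> `Tr_p(γ_{0,p} c_{1,cris}(D₁) ⋯ c_{1,cris}(D_{d-r})) = q` in `ℂ_w`.

Mathlib has neither étale, nor crystalline, nor de Rham cohomology of varieties with the
structures which the theorem needs.  As the paper does (§2, "We use the exterior-algebra
description of abelian cohomology"; §3, Hodge classes "represented on `V = H_1(A(ℂ), ℚ)` by an
alternating form"), we use that in each realisation the cohomology ring of an abelian variety is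
the algebra of alternating forms on its first homology `H_1`, the cup product being the wedge
product.  The first homology groups are defined honestly:

* **Betti and de Rham.**  `H_1^{dR}(A/ℚ̄) = Lie E(A)`, where `E(A) → A` is the universal vector
  extension, and `H_1(A(ℂ), ℤ) = ker (exp : Lie E(A)_ℂ → E(A)(ℂ))`.  The inclusion
  `H_1(A(ℂ), ℤ) ⊂ H_1^{dR}(A/ℚ̄) ⊗ ℂ` is the period isomorphism, and the Hodge filtration is
  `ker (Lie E(A) → Lie A)`.
* **`ℓ`-adic, `ℓ ≠ p`.**  `T_ℓ A₀ ≅ T_ℓ A ≅ H_1(A(ℂ), ℤ) ⊗ ℤ_ℓ` by reduction of torsion points and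
  `λ ↦ (exp_A(λ / ℓ^n))_n`; the class of a divisor is its Riemann form (Weil pairing).
* **Crystalline.**  `H_1^{cris}(A₀/W) ⊗ ℂ_p = Lie E(A) ⊗ ℂ_p` (Mazur–Messing, Berthelot–Ogus); the
  action of the endomorphisms of the reduction on it, which is what crystalline cohomology adds to
  de Rham cohomology, is computed by the quasi-logarithm on the universal cover
  (Scholze–Weinstein).

`CLAIM.md` explains each definition, with references, and lists the deviations.
-/

open CategoryTheory AlgebraicGeometry MonoidalCategory CartesianMonoidalCategory MonObj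
open Filter Topology

noncomputable section

namespace Claimed.Open.R001

/-! ## 1. Points of schemes -/

/-- `Spec B` as a scheme over `Spec R`, for an `R`-algebra `B`. -/
abbrev specOver (R B : Type) [CommRing R] [CommRing B] [Algebra R B] :
    Over (Spec (CommRingCat.of R)) :=
  Over.mk (Spec.map (CommRingCat.ofHom (algebraMap R B)))

/-- The set `X(B) = Hom_R(Spec B, X)` of `B`-valued points of an `R`-scheme `X`.  If `X` is a group
scheme (`GrpObj X`), this is a group, written multiplicatively (`CategoryTheory.Hom.group`). -/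
abbrev Pts {R : Type} [CommRing R] (X : Over (Spec (CommRingCat.of R)))
    (B : Type) [CommRing B] [Algebra R B] : Type :=
  specOver R B ⟶ X

/-- The morphism `Spec B' ⟶ Spec B` over `Spec R` given by a homomorphism of `R`-algebras. -/
def specOverMap {R : Type} [CommRing R]
    {B B' : Type} [CommRing B] [Algebra R B] [CommRing B'] [Algebra R B']
    (f : B →ₐ[R] B') : specOver R B' ⟶ specOver R B :=
  Over.homMk (Spec.map (CommRingCat.ofHom f.toRingHom)) (by
    simp only [specOver, Over.mk_hom, ← Spec.map_comp, ← CommRingCat.ofHom_comp]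
    congr 2
    exact f.comp_algebraMap)

/-- The map `X(B) → X(B')` for a tower of rings `R → B → B'`. -/
def Pts.map {R : Type} [CommRing R] {X : Over (Spec (CommRingCat.of R))}
    {B : Type} [CommRing B] [Algebra R B] (B' : Type) [CommRing B'] [Algebra R B']
    [Algebra B B'] [IsScalarTower R B B'] (x : Pts X B) : Pts X B' :=
  specOverMap (IsScalarTower.toAlgHom R B B') ≫ x

/-- The base change `X ⊗_R R'` of an `R`-scheme. -/
abbrev baseChange {R : Type} [CommRing R] (R' : Type) [CommRing R'] [Algebra R R']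
    (X : Over (Spec (CommRingCat.of R))) : Over (Spec (CommRingCat.of R')) :=
  (Over.pullback (Spec.map (CommRingCat.ofHom (algebraMap R R')))).obj X

/-- The base change of a group scheme is a group scheme. -/
instance baseChangeGrpObj {R : Type} [CommRing R] (R' : Type) [CommRing R'] [Algebra R R']
    (X : Over (Spec (CommRingCat.of R))) [GrpObj X] : GrpObj (baseChange R' X) :=
  Functor.grpObjObj

/-- The bijection `(X ⊗_R R')(B) → X(B)` for a tower of rings `R → R' → B`. -/
def Pts.ofBaseChange {R : Type} [CommRing R] {R' : Type} [CommRing R'] [Algebra R R']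
    {X : Over (Spec (CommRingCat.of R))}
    {B : Type} [CommRing B] [Algebra R B] [Algebra R' B] [IsScalarTower R R' B]
    (x : Pts (baseChange R' X) B) : Pts X B :=
  Over.homMk (x.left ≫ Limits.pullback.fst _ _) (by
    have h := Over.w x
    simp only [specOver, Over.mk_hom, baseChange] at h ⊢
    rw [Category.assoc, Limits.pullback.condition, ← Category.assoc]
    erw [h]
    rw [← Spec.map_comp, ← CommRingCat.ofHom_comp, IsScalarTower.algebraMap_eq R R' B])

/-- The bijection `X(B) → (X ⊗_R R')(B)` for a tower of rings `R → R' → B`, inverse to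
`Pts.ofBaseChange`. -/
def Pts.toBaseChange {R : Type} [CommRing R] (R' : Type) [CommRing R'] [Algebra R R']
    {X : Over (Spec (CommRingCat.of R))}
    {B : Type} [CommRing B] [Algebra R B] [Algebra R' B] [IsScalarTower R R' B]
    (x : Pts X B) : Pts (baseChange R' X) B :=
  Over.homMk (Limits.pullback.lift x.left (Spec.map (CommRingCat.ofHom (algebraMap R' B))) (by
    have h := Over.w x
    simp only [specOver, Over.mk_hom] at h
    rw [h, ← Spec.map_comp, ← CommRingCat.ofHom_comp, IsScalarTower.algebraMap_eq R R' B])) (by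
    exact Limits.pullback.lift_snd _ _ _)

/-! ## 2. Values of regular functions at field valued points -/

/-- The point of the underlying space of `X` which is the image of an `L`-valued point. -/
def imagePt {X : Scheme.{0}} {L : Type} [Field L] (x : Spec (CommRingCat.of L) ⟶ X) : X :=
  x (IsLocalRing.closedPoint L)

/-- The value in `L` of the germ of a regular function at the image of an `L`-valued point. -/
def germValue {X : Scheme.{0}} {L : Type} [Field L] (x : Spec (CommRingCat.of L) ⟶ X) :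
    X.presheaf.stalk (imagePt x) →+* L :=
  (Scheme.stalkClosedPointTo x).hom

open Classical in
/-- The value `f(x) ∈ L` of a regular function `f ∈ Γ(X, U)` at an `L`-valued point `x` of `X`
(with the junk value `0` if `x` does not lie in `U`). -/
def evalAt {X : Scheme.{0}} {L : Type} [Field L] (x : Spec (CommRingCat.of L) ⟶ X)
    (U : X.Opens) (f : Γ(X, U)) : L :=
  if h : imagePt x ∈ U then germValue x (X.presheaf.germ U (imagePt x) h f) else 0

/-! ## 3. The Lie algebra of a group scheme over a field -/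

section Lie

variable {K : Type} [Field K] (G : Over (Spec (CommRingCat.of K))) [GrpObj G]

/-- The identity point `e` of a group scheme `G` over a field `K`. -/
def idPt : G.left := imagePt (1 : Pts G K).left

/-- The germ at `e` of the constant function `c ∈ K`. -/
def constGerm (c : K) : G.left.presheaf.stalk (idPt G) :=
  G.left.presheaf.germ ⊤ (idPt G) trivial
    (G.hom.appTop ((Scheme.ΓSpecIso (CommRingCat.of K)).inv c))

/-- `Lie G L = Der_K(𝒪_{G,e}, L)`: the tangent space of `G` at the identity with coefficients in an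
extension field `L` of `K`, where `𝒪_{G,e}` acts on `L` through evaluation at `e`.  For `G` locally
of finite type this is `Lie(G) ⊗_K L = Lie(G_L)`.  It is realised as an `L`-subspace of the space of
all functions `𝒪_{G,e} → L`. -/
def Lie (L : Type) [Field L] [Algebra K L] :
    Submodule L (G.left.presheaf.stalk (idPt G) → L) where
  carrier := {v | (∀ f g, v (f + g) = v f + v g) ∧
    (∀ f g, v (f * g) = algebraMap K L (germValue (1 : Pts G K).left f) * v g +
        algebraMap K L (germValue (1 : Pts G K).left g) * v f) ∧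
    (∀ c : K, v (constGerm G c) = 0)}
  add_mem' := by
    rintro a b ⟨ha1, ha2, ha3⟩ ⟨hb1, hb2, hb3⟩
    refine ⟨fun f g => ?_, fun f g => ?_, fun c => ?_⟩
    · simp only [Pi.add_apply, ha1, hb1]; ring
    · simp only [Pi.add_apply, ha2, hb2]; ring
    · simp only [Pi.add_apply, ha3, hb3]; ring
  zero_mem' := by
    refine ⟨fun f g => ?_, fun f g => ?_, fun c => ?_⟩ <;> simp
  smul_mem' := by
    rintro c a ⟨ha1, ha2, ha3⟩
    refine ⟨fun f g => ?_, fun f g => ?_, fun c => ?_⟩
    · simp only [Pi.smul_apply, ha1, smul_eq_mul]; ring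
    · simp only [Pi.smul_apply, ha2, smul_eq_mul]; ring
    · simp only [Pi.smul_apply, ha3, smul_eq_mul]; ring

variable {G} in
/-- The derivative `v(f) ∈ L` of a regular function `f`, defined on a neighbourhood `U` of `e`, in
the direction of the tangent vector `v ∈ Lie G L`. -/
def Lie.d {L : Type} [Field L] [Algebra K L] (v : Lie G L) (U : G.left.Opens)
    (h : idPt G ∈ U) (f : Γ(G.left, U)) : L :=
  v.1 (G.left.presheaf.germ U (idPt G) h f)

/-- The `K`-structure `Lie(G) = Lie G K → Lie G L = Lie(G) ⊗_K L`, `v ↦ v ⊗ 1`. -/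
def Lie.ofBase (L : Type) [Field L] [Algebra K L] (v : Lie G K) : Lie G L :=
  ⟨fun f => algebraMap K L (v.1 f), by
    obtain ⟨v, h1, h2, h3⟩ := v
    refine ⟨fun f g => ?_, fun f g => ?_, fun c => ?_⟩
    · simp [h1]
    · simp [h2]
    · simp [h3]⟩

end Lie

/-! ## 4. The complex exponential, the `p`-adic logarithm, bounded sets of points -/

section ExpLog

variable {K : Type} [Field K] (G : Over (Spec (CommRingCat.of K))) [GrpObj G]

/-- The exponential map `exp : Lie(G) ⊗_K ℂ → G(ℂ)` of the commutative complex Lie group `G(ℂ)`: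
a homomorphism of groups whose derivative at `0` is the identity, i.e.
`lim_n n (f(exp(v/n)) - f(e)) = v(f)` for each tangent vector `v` and each regular function `f`
defined near `e`.  (Taking `f = 1` on `U`, the junk value of `evalAt` forces `exp(v/n) ∈ U` for
large `n`.)  For a commutative group scheme of finite type over `K ⊂ ℂ` there is exactly one such
map. -/
structure ComplexExp [Algebra K ℂ] where
  /-- the exponential, a homomorphism from the additive group of the Lie algebra to `G(ℂ)` -/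
  toFun : Lie G ℂ →+ Additive (Pts G ℂ)
  /-- its derivative at `0` is the identity -/
  deriv : ∀ (v : Lie G ℂ) (U : G.left.Opens) (h : idPt G ∈ U) (f : Γ(G.left, U)),
    Tendsto (fun n : ℕ => (n : ℂ) *
        (evalAt (toFun ((n : ℂ)⁻¹ • v)).toMul.left U f - evalAt (1 : Pts G ℂ).left U f))
      atTop (𝓝 (Lie.d v U h f))

/-- `HasLog G p y v`: the `p`-adic logarithm of `y ∈ G(ℂ_p)` is `v ∈ Lie(G) ⊗_K ℂ_p`, i.e.
`v(f) = lim_n (f(n! y) - f(e)) / n!` for each regular function `f` defined near `e`.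

For the groups `G` to which this is applied (vector extensions of abelian varieties with good
reduction) one has `n! y → e` for every `y ∈ G(ℂ_p)`, and
`f(z) - f(e) = log(z)(f) + O(|log z|²)` near `e`, `log(n! y) = n! log(y)`; so this is the usual
logarithm `log_G : G(ℂ_p) → Lie(G) ⊗ ℂ_p` of the `p`-adic Lie group `G(ℂ_p)` (Bourbaki, Lie III,
§7.6). -/
def HasLog (p : ℕ) [Fact p.Prime] [Algebra K ℂ_[p]] (y : Pts G ℂ_[p]) (v : Lie G ℂ_[p]) : Prop :=
  ∀ (U : G.left.Opens) (h : idPt G ∈ U) (f : Γ(G.left, U)),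
    Tendsto (fun n : ℕ => ((n.factorial : ℕ) : ℂ_[p])⁻¹ *
        (evalAt (y ^ n.factorial).left U f - evalAt (1 : Pts G ℂ_[p]).left U f))
      atTop (𝓝 (Lie.d v U h f))

/-- Bounded subsets of `G(L)`, for a normed field `L` (Bosch–Lütkebohmert–Raynaud, *Néron models*,
1.1, Definition 2): `S` is covered by finitely many sets `P i`, each contained in `U i (L)` for an
affine open `U i`, such that each regular function on `U i` is bounded on `P i`. -/
def IsBoundedSet {L : Type} [NormedField L] [Algebra K L] (S : Set (Pts G L)) : Prop :=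
  ∃ (n : ℕ) (U : Fin n → G.left.Opens) (P : Fin n → Set (Pts G L)),
    (∀ i, IsAffineOpen (U i)) ∧ S ⊆ ⋃ i, P i ∧
    ∀ i, (∀ x ∈ P i, imagePt x.left ∈ U i) ∧
      ∀ f : Γ(G.left, U i), ∃ C : ℝ, ∀ x ∈ P i, ‖evalAt x.left (U i) f‖ ≤ C

end ExpLog

/-! ## 5. The universal vector extension -/

section VectorExtension

variable {K : Type} [Field K] (A : Over (Spec (CommRingCat.of K))) [GrpObj A]

/-- An extension `0 → 𝔾_a^rank → E → A → 0` of the group scheme `A` over the field `K` by a vector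
group: a commutative group scheme `E`, a faithfully flat quasi-compact homomorphism `π : E → A`, and
an isomorphism of group functors between the kernel of `π` and `T ↦ Γ(T, 𝒪_T)^rank`. -/
structure VectorExtension where
  /-- the total space -/
  E : Over (Spec (CommRingCat.of K))
  [grp : GrpObj E]
  [comm : IsCommMonObj E]
  /-- the projection -/
  π : E ⟶ A
  [hom : IsMonHom π]
  [flat : Flat π.left]
  [surj : Surjective π.left]
  [qc : QuasiCompact π.left]
  /-- the dimension of the vector group -/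
  rank : ℕ
  /-- the kernel of `π` represents the functor `T ↦ Γ(T, 𝒪_T)^rank` -/
  kerEquiv : ∀ T : Over (Spec (CommRingCat.of K)),
    {x : T ⟶ E // x ≫ π = 1} ≃ (Fin rank → Γ(T.left, ⊤))
  kerEquiv_mul : ∀ (T : Over (Spec (CommRingCat.of K))) (x y z : {x : T ⟶ E // x ≫ π = 1}),
    z.1 = x.1 * y.1 → kerEquiv T z = kerEquiv T x + kerEquiv T y
  kerEquiv_comp : ∀ (T T' : Over (Spec (CommRingCat.of K))) (f : T' ⟶ T)
    (x : {x : T ⟶ E // x ≫ π = 1}) (z : {x : T' ⟶ E // x ≫ π = 1}), z.1 = f ≫ x.1 →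
    kerEquiv T' z = fun i => f.left.appTop (kerEquiv T x i)

attribute [instance] VectorExtension.grp VectorExtension.comm VectorExtension.hom
  VectorExtension.flat VectorExtension.surj VectorExtension.qc

variable {A}

/-- `X` is the universal vector extension `E(A)` of `A` (Rosenlicht; Mazur–Messing, *Universal
extensions and one dimensional crystalline cohomology*, I.1): it is initial among the vector
extensions of `A`.  (In characteristic `0` homomorphisms between vector groups are linear.) -/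
def VectorExtension.IsUniversal (X : VectorExtension A) : Prop :=
  ∀ Y : VectorExtension A, ∃! f : X.E ⟶ Y.E, IsMonHom f ∧ f ≫ Y.π = X.π

/-- The tangent vector `v ∈ Lie(E) ⊗ L` is vertical: it lies in the kernel of
`dπ : Lie(E) ⊗ L → Lie(A) ⊗ L`, i.e. it kills the functions pulled back from `A`. -/
def VectorExtension.IsVertical (X : VectorExtension A) {L : Type} [Field L] [Algebra K L]
    (v : Lie X.E L) : Prop :=
  ∀ (U : A.left.Opens) (h : X.π.left (idPt X.E) ∈ U) (f : Γ(A.left, U)),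
    Lie.d v (X.π.left ⁻¹ᵁ U) h (X.π.left.app U f) = 0

end VectorExtension

/-! ## 6. Cartier divisors and the Weil pairing -/

section Divisors

variable {X Y : Scheme.{0}} [IsIntegral X] [IsIntegral Y]

/-- The rational function `g` is a unit of the local ring `𝒪_{X,y}`. -/
def UnitAt (y : X) (g : X.functionField) : Prop :=
  ∃ u : (X.presheaf.stalk y)ˣ, algebraMap (X.presheaf.stalk y) X.functionField u = g

open Classical in
/-- The pull back `f^* s` of a rational function along a dominant morphism of integral schemes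
(with the junk value `0` if `f` is not dominant). -/
def fnPullback (f : X ⟶ Y) (s : Y.functionField) : X.functionField :=
  if h : f (genericPoint X) ⤳ genericPoint Y then
    f.stalkMap (genericPoint X) (Y.presheaf.stalkSpecializes h s)
  else 0

/-- A Cartier divisor on an integral scheme `X` (Hartshorne II.6): a global section of
`𝒦^× / 𝒪^×`, presented by a local equation `eq x ∈ K(X)^×` at each point `x`, which is also a
local equation at all points of a neighbourhood of `x`. -/
structure CartierDivisor (X : Scheme.{0}) [IsIntegral X] where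
  /-- a local equation at each point -/
  eq : X → X.functionField
  ne_zero : ∀ x, eq x ≠ 0
  coherent : ∀ x, ∃ U : X.Opens, x ∈ U ∧ ∀ y ∈ U, UnitAt y (eq y / eq x)

end Divisors

section Weil

variable {k : Type} [Field k] (X : Over (Spec (CommRingCat.of k))) [GrpObj X]

/-- The constant morphism `X ⟶ X` with value `x ∈ X(k)`. -/
def constMap (x : Pts X k) : X ⟶ X :=
  (Over.homMk X.hom (by simp) : X ⟶ specOver k k) ≫ x

/-- The translation `t_x : z ↦ z + x` of the group scheme `X`, for `x ∈ X(k)`. -/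
def translation (x : Pts X k) : X ⟶ X := 𝟙 X * constMap X x

/-- Multiplication by `n` on the group scheme `X`. -/
def mulBy (n : ℕ) : X ⟶ X := (𝟙 X) ^ n

variable [IsIntegral X.left]

/-- The constant rational function `c ∈ k ⊂ k(X)`. -/
def constFn (c : k) : X.left.functionField :=
  X.left.presheaf.germ ⊤ (genericPoint X.left) trivial
    (X.hom.appTop ((Scheme.ΓSpecIso (CommRingCat.of k)).inv c))

/-- `IsWeilValue X D n x y c` says that `e_n^D(x, y) := e_n(x, φ_D(y)) = c`, where `X` is an abelian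
variety over an algebraically closed field `k`, `D` is a divisor on `X`, `x, y ∈ X[n](k)`,
`φ_D(y)` is the class of `t_y^* D - D` in `X^∨[n]`, and `e_n` is the Weil pairing
(Mumford, *Abelian varieties*, §20): if `g` is a rational function with divisor
`n_X^*(t_y^* D - D)`, then `g(z + x) = c g(z)`. -/
def IsWeilValue (D : CartierDivisor X.left) (n : ℕ) (x y : Pts X k) (c : k) : Prop :=
  ∃ g : X.left.functionField, g ≠ 0 ∧
    (∀ z : X.left, UnitAt z (g / fnPullback (mulBy X n).left
      (fnPullback (translation X y).left (D.eq ((translation X y).left ((mulBy X n).left z))) /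
        D.eq ((mulBy X n).left z)))) ∧
    fnPullback (translation X x).left g = constFn X c * g

end Weil

/-! ## 7. The arithmetic set-up

`K` is an algebraic closure of `ℚ`.  The embedding `ℚ̄ ⊂ ℂ` is an instance `[Algebra K ℂ]`.  The
`p`-adic place `w` is given by an embedding of `K` into Mathlib's `ℂ_[p]`, an instance
`[Algebra K ℂ_[p]]`; as `K` is dense in `ℂ_[p]`, this identifies `ℂ_w` with `ℂ_[p]`. -/

section Setup

variable (p : ℕ) [Fact p.Prime] (K : Type) [Field K] [Algebra K ℂ_[p]]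

/-- The valuation ring `𝒪_w ⊂ K = ℚ̄` of the place `w`. -/
abbrev Ow : ValuationSubring K := (𝓞_ℂ_[p]).comap (algebraMap K ℂ_[p])

/-- The inclusion `𝒪_w → 𝒪_{ℂ_p}`. -/
instance algOwOC : Algebra (Ow p K) 𝓞_ℂ_[p] :=
  RingHom.toAlgebra
    { toFun := fun x => ⟨algebraMap K ℂ_[p] x.1, x.2⟩
      map_one' := by ext; simp
      map_mul' := fun x y => by ext; simp
      map_zero' := by ext; simp
      map_add' := fun x y => by ext; simp }

instance towerOwOCCp : IsScalarTower (Ow p K) 𝓞_ℂ_[p] ℂ_[p] :=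
  IsScalarTower.of_algebraMap_eq (fun _ => rfl)

/-- The ring `𝒪_{ℂ_p} / p`. -/
abbrev OCmodP : Type := 𝓞_ℂ_[p] ⧸ Ideal.span {(p : 𝓞_ℂ_[p])}

/-- The residue field `𝔽` of `𝒪_{ℂ_p}`, an algebraic closure of `𝔽_p`; the residue field of `𝒪_w`
maps isomorphically to it. -/
abbrev Fbar : Type := IsLocalRing.ResidueField 𝓞_ℂ_[p]

/-- An abelian scheme of relative dimension `d` over `𝒪_w`: a proper smooth group scheme with
geometrically integral fibres.  Its generic fibre is an abelian variety `A` over `K = ℚ̄` with good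
reduction at `w`, and its special fibre is the reduction `A₀`.  Conversely, if `A/ℚ̄` has good
reduction at `w` in the sense of the paper (after descent to a number field and a finite extension),
the base change to `𝒪_w` of the abelian scheme over the localisation of the ring of integers is such
a model. -/
structure AbelianScheme (d : ℕ) where
  /-- the underlying scheme over `Spec 𝒪_w` -/
  X : Over (Spec (CommRingCat.of (Ow p K)))
  [grp : GrpObj X]
  [proper : IsProper X.hom]
  [smooth : SmoothOfRelativeDimension d X.hom]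
  [geomIntegral : GeometricallyIntegral X.hom]

attribute [instance] AbelianScheme.grp AbelianScheme.proper AbelianScheme.smooth
  AbelianScheme.geomIntegral

variable {p K} {d : ℕ} (𝒜 : AbelianScheme p K d)

/-- The generic fibre `A / K`. -/
abbrev AbelianScheme.generic : Over (Spec (CommRingCat.of K)) := baseChange K 𝒜.X

/-- The special fibre `A₀ / 𝔽`. -/
abbrev AbelianScheme.special : Over (Spec (CommRingCat.of (Fbar p))) := baseChange (Fbar p) 𝒜.X

instance isIntegral_generic : IsIntegral 𝒜.generic.left :=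
  GeometricallyIntegral.geometrically_isIntegral (f := 𝒜.X.hom) _ _ _ (.of_hasPullback _ _)

instance isIntegral_special : IsIntegral 𝒜.special.left :=
  GeometricallyIntegral.geometrically_isIntegral (f := 𝒜.X.hom) _ _ _ (.of_hasPullback _ _)

/-- The generic fibre `A(K)` of an integral point `x ∈ 𝒜(𝒪_w)`. -/
def AbelianScheme.gen (x : Pts 𝒜.X (Ow p K)) : Pts 𝒜.generic K :=
  (x.map K).toBaseChange K

/-- The reduction `A₀(𝔽)` of an integral point `x ∈ 𝒜(𝒪_w)`. -/
def AbelianScheme.red (x : Pts 𝒜.X (Ow p K)) : Pts 𝒜.special (Fbar p) :=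
  (x.map (Fbar p)).toBaseChange (Fbar p)

end Setup

/-! ## 8. Betti and de Rham homology, Hodge classes -/

section Realisations

variable {p : ℕ} [Fact p.Prime] {K : Type} [Field K] [Algebra K ℂ_[p]] [Algebra K ℂ] {d : ℕ}

/-- The universal vector extension `E(A) → A` of the generic fibre, with the exponential map of the
complex Lie group `E(A)(ℂ)`.  Both exist and are unique up to unique isomorphism. -/
structure PeriodDatum (𝒜 : AbelianScheme p K d) where
  /-- the universal vector extension `E(A) → A` -/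
  ext : VectorExtension 𝒜.generic
  univ : ext.IsUniversal
  /-- the exponential map of `E(A)(ℂ)` -/
  exp : ComplexExp ext.E

variable {𝒜 : AbelianScheme p K d} (P : PeriodDatum 𝒜)

/-- The first de Rham homology `H_1^{dR}(A/K) ⊗_K L = Lie E(A) ⊗_K L`, the dual of
`H^1_{dR}(A/K) ⊗_K L` (Mazur–Messing I.4). -/
abbrev PeriodDatum.HdR (L : Type) [Field L] [Algebra K L] : Type := Lie P.ext.E L

/-- The first Betti homology `H_1(A(ℂ), ℤ) = ker (exp_{E(A)}) ⊂ H_1^{dR}(A/K) ⊗_K ℂ`.

As the kernel of `E(A) → A` is a vector group, `Lie E(A)_ℂ → Lie A_ℂ` maps `ker (exp_{E(A)})`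
isomorphically to `ker (exp_A) = H_1(A(ℂ), ℤ)`; the inclusion into `Lie E(A)_ℂ` is the period
isomorphism `H_1(A(ℂ), ℤ) ⊗ ℂ ≅ H_1^{dR}(A/K) ⊗_K ℂ`. -/
abbrev PeriodDatum.Λ : AddSubgroup (P.HdR ℂ) := P.exp.toFun.ker

/-- The `n`-torsion point `exp_A(l / n) ∈ A(ℂ)`, for `l ∈ H_1(A(ℂ), ℤ)`. -/
def PeriodDatum.tors (l : P.Λ) (n : ℕ) : Pts 𝒜.generic ℂ :=
  (P.exp.toFun ((n : ℂ)⁻¹ • l.1)).toMul ≫ P.ext.π

/-- A class in `H^n(A(ℂ), ℚ(r)) = (2πi)^r H^n(A(ℂ), ℚ) ⊂ H^n(A(ℂ), ℂ) = H^n_{dR}(A/K) ⊗_K ℂ`: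
a rational alternating `n`-form `rat` on `H_1(A(ℂ), ℤ)`, together with the `ℂ`-multilinear
alternating form `cplx` on `H_1^{dR}(A/K) ⊗_K ℂ = H_1(A(ℂ), ℤ) ⊗ ℂ` which extends `(2πi)^r rat`
(it exists and is unique). -/
structure BettiClass (n r : ℕ) where
  /-- the rational alternating form on `H_1(A(ℂ), ℤ)` -/
  rat : AlternatingMap ℤ P.Λ ℚ (Fin n)
  /-- the `ℂ`-linear extension of `(2πi)^r rat` -/
  cplx : AlternatingMap ℂ (P.HdR ℂ) ℂ (Fin n)
  compat : ∀ l : Fin n → P.Λ,
    cplx (fun i => (l i).1) = (2 * Real.pi * Complex.I) ^ r * (rat l : ℂ)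

variable {P}

/-- A class `c ∈ H^{2r}(A(ℂ), ℚ(r))` is a Hodge class if it lies in `F^r H^{2r}(A(ℂ), ℂ)` (a
rational class of `F^r` is of type `(r, r)`).  As `F^1 H^1` is the annihilator of
`ker (Lie E(A)_ℂ → Lie A_ℂ)`, a `2r`-form lies in `F^r` if and only if it vanishes as soon as more
than `r` of its arguments are vertical. -/
def BettiClass.IsHodge {r : ℕ} (c : BettiClass P (2 * r) r) : Prop :=
  ∀ (v : Fin (2 * r) → P.HdR ℂ) (S : Finset (Fin (2 * r))), r < S.card →
    (∀ i ∈ S, P.ext.IsVertical (v i)) → c.cplx v = 0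

/-- `c.IsCrisSpecialization cp`: the form `cp` on `H_1^{cris}(A₀/W) ⊗ ℂ_p = H_1^{dR}(A/K) ⊗_K ℂ_p`
is the de Rham–crystalline specialisation `c_{0,p}` of the Betti class `c`.  That is: the de Rham
realisation of `c` is defined over `K = ℚ̄` (for Hodge classes this is part of Deligne's theorem
that Hodge classes on abelian varieties are absolute Hodge), and `cp` is its scalar extension along
`K → ℂ_p`: on `K`-rational vectors, `c.cplx` and `cp` take the same values in `K`. -/
def BettiClass.IsCrisSpecialization {n r : ℕ} (c : BettiClass P n r)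
    (cp : AlternatingMap ℂ_[p] (P.HdR ℂ_[p]) ℂ_[p] (Fin n)) : Prop :=
  ∀ v : Fin n → P.HdR K, ∃ a : K,
    c.cplx (fun i => Lie.ofBase P.ext.E ℂ (v i)) = algebraMap K ℂ a ∧
    cp (fun i => Lie.ofBase P.ext.E ℂ_[p] (v i)) = algebraMap K ℂ_[p] a

/-- `pt` is the class of a point in `H^{2d}(A(ℂ), ℚ(d))`, `d = r + m`: it takes the value `1` on a
`ℤ`-basis `b` of `H_1(A(ℂ), ℤ)` which is positively oriented for the complex structure of
`H_1(A(ℂ), ℤ) ⊗ ℝ = Lie A_ℂ`.  The orientation is tested with a basis `ω` of the holomorphic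
one-forms (linear forms killing the vertical vectors):
`∏_k (i/2) ω_k ∧ \bar ω_k = (i/2)^d (-1)^{d(d-1)/2} ω_1 ∧ ⋯ ∧ ω_d ∧ \bar ω_1 ∧ ⋯ ∧ \bar ω_d` is a
positive volume form. -/
def BettiClass.IsPointClass {r m : ℕ} {𝒜 : AbelianScheme p K (r + m)} {P : PeriodDatum 𝒜}
    (pt : BettiClass P (2 * r + 2 * m) (r + m)) : Prop :=
  ∃ (b : Module.Basis (Fin (2 * r + 2 * m)) ℤ P.Λ) (ω : Fin (r + m) → P.HdR ℂ →ₗ[ℂ] ℂ) (t : ℝ),
    (∀ k v, P.ext.IsVertical v → ω k v = 0) ∧ 0 < t ∧
    (Complex.I / 2) ^ (r + m) * (-1) ^ ((r + m) * (r + m - 1) / 2) *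
      Matrix.det (Matrix.of fun (a i : Fin (2 * r + 2 * m)) =>
        if h : (a : ℕ) < r + m then ω ⟨a, h⟩ (b i).1
        else (starRingEnd ℂ) (ω ⟨a - (r + m), by omega⟩ (b i).1)) = t ∧
    pt.rat b = 1

/-! ## 9. Divisor classes -/

/-- `h ∈ H^2(A(ℂ), ℚ(1))` is the class of the divisor `H` on the generic fibre `A`: its rational
form is the Riemann form of `H`, i.e. it is integral and
`e_n^H(exp_A(l/n), exp_A(m/n)) = exp(2πi h(l, m) / n)` for all `n ≥ 1` and `l, m ∈ H_1(A(ℂ), ℤ)`
(Mumford, *Abelian varieties*, §24). -/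
def IsRiemannForm (H : CartierDivisor 𝒜.generic.left) (h : BettiClass P 2 1) : Prop :=
  ∀ (n : ℕ), 0 < n → ∀ (l m : P.Λ), ∃ (x y : Pts 𝒜.generic K) (ζ : K) (a : ℤ),
    x.map ℂ = P.tors l n ∧ y.map ℂ = P.tors m n ∧
    algebraMap K ℂ ζ = Complex.exp (2 * Real.pi * Complex.I / n) ∧
    h.rat ![l, m] = a ∧ IsWeilValue 𝒜.generic H n x y (ζ ^ a)

/-- `c` is the `ℓ`-adic class `c_{1,ℓ}(D) ∈ H^2(A₀, ℚ_ℓ(1))` of the divisor `D` on the special fibre
`A₀` (`ℓ ≠ p`), i.e. the Riemann form `T_ℓ A₀ × T_ℓ A₀ → ℤ_ℓ(1)`, `(x, y) ↦ (e_{ℓ^n}^D(x_n, y_n))_n`,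
read on `H_1(A(ℂ), ℤ)` through the comparison and specialisation isomorphisms
`H_1(A(ℂ), ℤ) ⊗ ℤ_ℓ ≅ T_ℓ A ≅ T_ℓ A₀`, `l ↦ (exp_A(l / ℓ^n))_n ↦ (reduction)`, and
`ℤ(1) ⊗ ℤ_ℓ ≅ ℤ_ℓ(1)_{K} ≅ ℤ_ℓ(1)_{𝔽}`, `2πi ↦ (exp(2πi / ℓ^n))_n ↦ (reduction)`. -/
def IsEllChern (P : PeriodDatum 𝒜) (ℓ : ℕ) [Fact ℓ.Prime] (D : CartierDivisor 𝒜.special.left)
    (c : P.Λ → P.Λ → ℤ_[ℓ]) : Prop :=
  ∀ (n : ℕ) (l m : P.Λ), ∃ (x y : Pts 𝒜.X (Ow p K)) (ζ : Ow p K),
    (𝒜.gen x).map ℂ = P.tors l (ℓ ^ n) ∧ (𝒜.gen y).map ℂ = P.tors m (ℓ ^ n) ∧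
    algebraMap (Ow p K) ℂ ζ = Complex.exp (2 * Real.pi * Complex.I / (ℓ ^ n : ℕ)) ∧
    IsWeilValue 𝒜.special D (ℓ ^ n) (𝒜.red x) (𝒜.red y)
      (algebraMap (Ow p K) (Fbar p) ζ ^ (PadicInt.toZModPow n (c l m)).val)

/-! ## 10. The crystalline realisation -/

/-- An endomorphism of the abelian scheme `𝒜 ⊗ 𝒪_{ℂ_p}/p`.

By rigidity it is determined by the endomorphism `u₀` of the special fibre `A₀` which it induces;
conversely, for each `u₀ ∈ End(A₀)` some multiple `p^k u₀` arises in this way. -/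
structure EndModP (𝒜 : AbelianScheme p K d) where
  /-- the underlying morphism -/
  hom : baseChange (OCmodP p) 𝒜.X ⟶ baseChange (OCmodP p) 𝒜.X
  [isHom : IsMonHom hom]

/-- `u.Rel a b`: for `a, b ∈ 𝒜(𝒪_{ℂ_p})`, one has `b ≡ u(a)` in `𝒜(𝒪_{ℂ_p}/p)`. -/
def EndModP.Rel (u : EndModP 𝒜) (a b : Pts 𝒜.X 𝓞_ℂ_[p]) : Prop :=
  b.map (OCmodP p) = Pts.ofBaseChange ((a.map (OCmodP p)).toBaseChange (OCmodP p) ≫ u.hom)

/-- `IsRosatiRel H D N u`: `N φ_D = φ_{H₀} ∘ u₀` as homomorphisms `A₀ → A₀^∨`, where `D` is a divisor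
on `A₀`, `H₀` is the specialisation of the divisor `H` on the generic fibre, and `u₀ ∈ End(A₀)` is
induced by `u`.  It is tested on the Weil pairings of the torsion points of order `n` prime to `p`
(which are Zariski dense): `e_n^D(x₀, y₀)^N = e_n^{H₀}(x₀, u₀ y₀)`, where the right hand side is the
reduction of `e_n^H(x, y')`, `y'` being the `n`-torsion point of `A` which lifts `u₀ y₀`. -/
def IsRosatiRel (H : CartierDivisor 𝒜.generic.left) (D : CartierDivisor 𝒜.special.left)
    (N : ℕ) (u : EndModP 𝒜) : Prop :=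
  ∀ (n : ℕ), n.Coprime p → ∀ (x y : Pts 𝒜.X (Ow p K)), x ^ n = 1 → y ^ n = 1 →
    ∃ (y' : Pts 𝒜.X (Ow p K)) (b : Pts 𝒜.X 𝓞_ℂ_[p]) (c : Ow p K) (c₀ : Fbar p),
      y' ^ n = 1 ∧ u.Rel (y.map 𝓞_ℂ_[p]) b ∧ b.map (Fbar p) = y'.map (Fbar p) ∧
      IsWeilValue 𝒜.generic H n (𝒜.gen x) (𝒜.gen y') c ∧
      IsWeilValue 𝒜.special D n (𝒜.red x) (𝒜.red y) c₀ ∧
      c₀ ^ N = algebraMap (Ow p K) (Fbar p) c

/-- A point of the universal cover `\tilde A(𝒪_{ℂ_p}) = lim_{× p} A(ℂ_p)`, presented by its unique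
lift to a *bounded* `p`-compatible sequence `y` in `E(A)(ℂ_p)`, together with the points
`a n ∈ 𝒜(𝒪_{ℂ_p}) = A(ℂ_p)` below the `y n`.

(The bounded `p`-compatible sequences are those with values in `E(𝒜)(𝒪_{ℂ_p})`; the map from these to
`lim_{× p} 𝒜(𝒪_{ℂ_p})` is bijective because the kernel `𝒪_{ℂ_p}^d` is `p`-adically complete and
separated: Scholze–Weinstein, *Moduli of p-divisible groups*, §3.2.) -/
structure UniversalCoverPt (P : PeriodDatum 𝒜) where
  /-- the bounded `p`-compatible sequence in `E(A)(ℂ_p)` -/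
  y : ℕ → Pts P.ext.E ℂ_[p]
  compat : ∀ n, y (n + 1) ^ p = y n
  bounded : IsBoundedSet P.ext.E (Set.range y)
  /-- the images in `A(ℂ_p) = 𝒜(𝒪_{ℂ_p})` -/
  a : ℕ → Pts 𝒜.X 𝓞_ℂ_[p]
  a_spec : ∀ n, (a n).map ℂ_[p] = Pts.ofBaseChange (y n ≫ P.ext.π)

/-- `IsCrisRealization P u T`: the `ℂ_p`-linear endomorphism `T` of
`H_1^{cris}(A₀/W) ⊗ ℂ_p = H_1^{dR}(A/K) ⊗_K ℂ_p = Lie E(A) ⊗_K ℂ_p` is the crystalline realisation
of the endomorphism `u` of `𝒜 ⊗ 𝒪_{ℂ_p}/p`.

`Lie E(𝒜)` is the value of the covariant Dieudonné crystal of `𝒜 ⊗ 𝒪_{ℂ_p}/p` on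
`𝒪_{ℂ_p} → 𝒪_{ℂ_p}/p` (Mazur–Messing), so `u` acts on it.  The action is characterised by its
compatibility with the quasi-logarithm `qlog : \tilde A(𝒪_{ℂ_p}) → Lie E(A) ⊗ ℂ_p`,
`s ↦ log_{E(A)}(s.y 0)`, whose image spans, and with the action of `u` on
`\tilde A(𝒪_{ℂ_p}) = lim_{× p} 𝒜(𝒪_{ℂ_p}/p)`: if `t = \tilde u(s)` then `qlog t = T (qlog s)`
(Scholze–Weinstein §3.2). -/
def IsCrisRealization (P : PeriodDatum 𝒜) (u : EndModP 𝒜)
    (T : P.HdR ℂ_[p] →ₗ[ℂ_[p]] P.HdR ℂ_[p]) : Prop :=
  ∀ (s t : UniversalCoverPt P), (∀ n, u.Rel (s.a n) (t.a n)) →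
    ∀ v w : P.HdR ℂ_[p], HasLog P.ext.E p (s.y 0) v → HasLog P.ext.E p (t.y 0) w → T v = w

/-- `c` is the crystalline class `c_{1,cris}(D) ∈ H^2_{cris}(A₀/W)(1) ⊗ ℂ_p` of the divisor `D` on
the special fibre, as an alternating form on `H_1^{cris}(A₀/W) ⊗ ℂ_p = H_1^{dR}(A/K) ⊗_K ℂ_p`.

Choose a divisor `H` on the generic fibre, an integer `N ≥ 1` and an endomorphism `u` of
`𝒜 ⊗ 𝒪_{ℂ_p}/p` with `N φ_D = φ_{H₀} ∘ u₀` (they exist: take `H` ample).  In each Weil cohomology
theory the class of a divisor `D` is the form `(v, w) ↦ ⟨v, φ_D w⟩`, so that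
`N c_1(D)(v, w) = c_1(H₀)(v, u₀ w)`; and `c_{1,cris}(H₀)` is the de Rham–crystalline specialisation
`hp` of the class `h` of `H`.  The realisation `T` of `u` is required to be the only one. -/
def IsCrisChern (P : PeriodDatum 𝒜) (D : CartierDivisor 𝒜.special.left)
    (c : P.HdR ℂ_[p] → P.HdR ℂ_[p] → ℂ_[p]) : Prop :=
  ∃ (H : CartierDivisor 𝒜.generic.left) (h : BettiClass P 2 1)
    (hp : AlternatingMap ℂ_[p] (P.HdR ℂ_[p]) ℂ_[p] (Fin 2))
    (N : ℕ) (u : EndModP 𝒜) (T : P.HdR ℂ_[p] →ₗ[ℂ_[p]] P.HdR ℂ_[p]),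
    IsRiemannForm H h ∧ h.IsCrisSpecialization hp ∧ 0 < N ∧ IsRosatiRel H D N u ∧
    IsCrisRealization P u T ∧ (∀ T', IsCrisRealization P u T' → T' = T) ∧
    ∀ v w, (N : ℂ_[p]) * c v w = hp ![v, T w]

end Realisations

/-! ## 11. Cup products -/

/-- The value at `v` of the wedge product `g ∧ e_0 ∧ ⋯ ∧ e_{m-1}` of a `2r`-form `g` and of `m`
two-forms `e_i`, for the product of alternating forms which corresponds to the cup product, i.e. to
the product of the exterior algebra under `(f_1 ∧ ⋯ ∧ f_k)(v_1, …, v_k) = det (f_i(v_j))`: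
`1 / ((2r)! 2^m) ∑_σ sign(σ) g(v_{σ 0}, …, v_{σ(2r-1)}) ∏_i e_i(v_{σ(2r+2i)}, v_{σ(2r+2i+1)})`. -/
def lefschetzWedge {S M : Type} [Field S] (r m : ℕ) (g : (Fin (2 * r) → M) → S)
    (e : Fin m → M → M → S) (v : Fin (2 * r + 2 * m) → M) : S :=
  ((((2 * r).factorial : ℕ) : S) * 2 ^ m)⁻¹ * ∑ σ : Equiv.Perm (Fin (2 * r + 2 * m)),
    ((Equiv.Perm.sign σ : ℤ) : S) * (g (fun a => v (σ (Fin.castAdd (2 * m) a))) *
      ∏ i : Fin m, e i (v (σ (Fin.natAdd (2 * r) ⟨2 * i, by omega⟩)))
        (v (σ (Fin.natAdd (2 * r) ⟨2 * i + 1, by omega⟩))))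

/-! ## 12. The theorem -/

/-- **Theorem 1.1 (Milne's rationality conjecture).**

Data: a prime `p`; an algebraic closure `K` of `ℚ` with embeddings into `ℂ` and into `ℂ_p` (the
place `w`); integers `r, m ≥ 0` (so `d = r + m`, `0 ≤ r ≤ d`); an abelian scheme `𝒜` of relative
dimension `d` over `𝒪_w` (an abelian variety `A/ℚ̄` with good reduction `A₀/𝔽`); its universal
vector extension and exponential `P` (which give `H_1^{dR}` and `H_1^{Betti}`); the class `pt` of a
point; a rational Hodge class `g ∈ H^{2r}(A(ℂ), ℚ(r))`; Cartier divisors `D_0, …, D_{m-1}` on `A₀`.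

Conclusion: there is `q ∈ ℚ` such that
* for each prime `ℓ ≠ p`:  `g_{0,ℓ} ∪ c_{1,ℓ}(D_0) ∪ ⋯ ∪ c_{1,ℓ}(D_{m-1}) = q · cl_ℓ(point)` in
  `H^{2d}(A₀, ℚ_ℓ(d))`, that is, `Tr_ℓ(…) = q`;
* `g_{0,p} ∪ c_{1,cris}(D_0) ∪ ⋯ ∪ c_{1,cris}(D_{m-1}) = q · cl_{cris}(point)` in
  `H^{2d}_{cris}(A₀/W)(d) ⊗ ℂ_p`, that is, `Tr_p(…) = q`.

The trace maps are the linear forms on the (one dimensional) top cohomology groups which send the
class of a point to `1`.

The only hypotheses are therefore "`𝒜` is an abelian scheme over `𝒪_w`" and "`g` is a Hodge class".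
The auxiliary objects which are needed to speak of the cohomology groups are *not* assumed to exist:
that `P` and `pt` exist, as well as the divisor classes `c` and the specialisations `gp`, `ptp`, is
part of the assertion. -/
def Statement : Prop :=
  ∀ (p : ℕ) [Fact p.Prime] (K : Type) [Field K] [Algebra ℚ K] [IsAlgClosure ℚ K]
    [Algebra K ℂ] [Algebra K ℂ_[p]]
    (r m : ℕ) (𝒜 : AbelianScheme p K (r + m)),
    Nonempty (PeriodDatum 𝒜) ∧
    ∀ P : PeriodDatum 𝒜,
    (∃ pt : BettiClass P (2 * r + 2 * m) (r + m), pt.IsPointClass) ∧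
    ∀ (pt : BettiClass P (2 * r + 2 * m) (r + m)), pt.IsPointClass →
    ∀ (g : BettiClass P (2 * r) r), g.IsHodge →
    ∀ (D : Fin m → CartierDivisor 𝒜.special.left),
    ∃ q : ℚ,
      (∀ (ℓ : ℕ) [Fact ℓ.Prime], ℓ ≠ p →
        ∃ c : Fin m → P.Λ → P.Λ → ℤ_[ℓ], (∀ i, IsEllChern P ℓ (D i) (c i)) ∧
          ∀ l : Fin (2 * r + 2 * m) → P.Λ,
            lefschetzWedge r m (fun x => ((g.rat x : ℚ) : ℚ_[ℓ]))
              (fun i x y => ((c i x y : ℤ_[ℓ]) : ℚ_[ℓ])) l = (q : ℚ_[ℓ]) * ((pt.rat l : ℚ) : ℚ_[ℓ])) ∧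
      (∃ (gp : AlternatingMap ℂ_[p] (P.HdR ℂ_[p]) ℂ_[p] (Fin (2 * r)))
         (ptp : AlternatingMap ℂ_[p] (P.HdR ℂ_[p]) ℂ_[p] (Fin (2 * r + 2 * m)))
         (c : Fin m → P.HdR ℂ_[p] → P.HdR ℂ_[p] → ℂ_[p]),
          g.IsCrisSpecialization gp ∧ pt.IsCrisSpecialization ptp ∧
          (∀ i, IsCrisChern P (D i) (c i)) ∧
          ∀ v : Fin (2 * r + 2 * m) → P.HdR ℂ_[p],
            lefschetzWedge r m gp c v = (q : ℂ_[p]) * ptp v)

end Claimed.Open.R001
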